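import Vale.Agent.P236K3.Bk5
import Vale.Agent.P236EL.Ci

/-!
# P236K3 / Bk6 : the Bockstein homomorphism on computed classes
-/

noncomputable section

namespace Vale.Agent.P236EL

open Vale.Agent.P251.F Vale.Agent.P251.I Vale.Agent.P236SY Vale.Agent.P236R MvPolynomial
open Vale.Agent.P236KE Vale.Agent.P236K3 Vale.Agent.P236F Vale.Agent.P236KE.S90

/-- the Bockstein homomorphism -/
def WC'.cbk (D : KD) (E : KB) (s T₀ : Nat) (v : WC') : WC' := v.bind fun T a b p =>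
  force (Nat.succ s) fun s' => WC'.of T (Nat.sub a 1) (Nat.sub b 1)
    (grd (Nat.beq T T₀) (grd (Nat.ble a b) (Nat.ble s 59))) (D.bk E s s' T a b (cst' p))

variable [hp : Fact (Nat.Prime 3)] {G : ℕ → Type} [∀ q, Fintype (G q)] [DecidableEq (G 0)]

/-- a resolution modulo three and modulo nine together with its data -/
structure Wb (R : Rs 3 K G) (R' : Rs 3 K9 G) (θ : G 0 → G 0 → Cob Laz 1) (D : KD) (E : KB)
    (ix : ∀ q, G (q + 1) → ℕ) (Tm s3 s4 : ℕ) : Prop where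
  wx : Wx R θ D ix Tm s3 s4
  cb : Cb R R' 0 Tm s3 s4 D E ix
  ic : IC p9 R' θ
  ok : R'.Ok ψ9 3 61 90

/-- **the Bockstein homomorphism** -/
theorem Wb.bock {R : Rs 3 K G} {R' : Rs 3 K9 G} {θ : G 0 → G 0 → Cob Laz 1} {D : KD} {E : KB}
    {ix : ∀ q, G (q + 1) → ℕ} {Tm s3 s4 s : ℕ} (H : Wb R R' θ D E ix Tm s3 s4)
    {x : G 0 → Cob Laz s} {v : WC'} (h : CV R θ D ix s x v) (T : ℕ) {c : G 0 → Cob Laz (s + 1)}
    (hc : c ∈ ZC 3 θ (R.deg 0) T 3 (s + 1)) (hd : DD θ s x = 3 • c) :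
    CV R θ D ix (s + 1) c (WC'.cbk D E s T v) :=
  WC'.Ok.bind h fun T' a b p ⟨u, h1, h2⟩ => WC'.ok_of fun h3 => by
    obtain ⟨h4, h5⟩ := grd_spec h3
    obtain ⟨h6, h7⟩ := grd_spec h5
    obtain rfl := Nat.eq_of_beq_eq_true h4
    have h8 := Nat.le_of_ble_eq_true h7
    have h9 := h2.hb
    obtain ⟨y, hy, h10⟩ := h1.ex
    obtain ⟨e, he, z, hz, rfl⟩ := mem_BQ.1 hy
    have h11 : DD θ s e = 0 := by
      rcases s with _ | s
      · rw [AddSubgroup.mem_bot.1 he, map_zero]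
      · obtain ⟨y, -, rfl⟩ := he
        exact DD_DD H.wx.wd.mc y
    obtain ⟨y, hy, f, h12, h13⟩ := H.cb.rv (add_zero _).symm rfl (H.wx.cx.hT s ▸ h2.hT)
      (Nat.le_of_ble_eq_true h6) h9 (vr_cst h2.vp) H.wx.wd.ic H.ic (H.wx.wd.ok' (by omega))
      (H.ok.mono (by omega) le_rfl) (H.wx.le h2.hT) h10
      (sub_mem hc.1 (DD_mem_CW H.wx.wd.ic.wt hz)) (by
        rw [map_sub, map_add, h11, hd, zero_add, map_nsmul, smul_sub, sub_self]
        exact zero_mem _)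
    refine ⟨f, h13, fun _ h14 => ⟨f, ⟨hc, _, mem_BQ_succ.2 ⟨_, add_mem hz hy, 0, zero_mem _, rfl⟩,
      ?_⟩, ?_, by change b - 1 ≤ a - 1 + 3; omega, h14⟩⟩
    · rwa [smul_zero, add_zero, map_add, ← sub_sub]
    · rw [H.wx.cx.hT, ← H.wx.cx.hT s]
      exact h2.hT

variable {t : Cob Laz 1}

theorem wbS (T : ℕ) (hT : T ≤ 90) : Wb rS (sph.rs K9) 0 (dS T) (bS T) iS T sph.s3 sph.s4 :=
  ⟨wS T hT, cbS T (by omega), IC.sph _ rfl, ok9⟩

theorem wbA (ht : IsT1 3 t) (T : ℕ) (hT : T ≤ 90) : Wb rA ((sph.rs K9).cA rfl rfl) (θA t) (dA T)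
    (bA T) (iT T 2) T sph.s3 sph.s4 :=
  ⟨wA ht T hT, cbA T (by omega), IC.ga _ rfl rfl _ rfl ht (d_t ht) (wt_t ht) (wt_A ht) (rq_A p9),
    ok9.tens fun _ => sub_le_self _ (Int.natCast_nonneg _)⟩

theorem wbY (ht : IsT1 3 t) (T : ℕ) (hT : T ≤ 90) : Wb rY ((sph.rs K9).cY rfl rfl) (θY t) (dY T)
    (bY T) (iT T 3) T sph.s3 sph.s4 :=
  ⟨wY ht T hT, cbY T (by omega),
    IC.ga _ rfl rfl _ rfl ht (d_t ht) (wt_t ht) (wt_Y ht) (rq_Y p9 rfl),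
    ok9.tens fun _ => sub_le_self _ (Int.natCast_nonneg _)⟩

end Vale.Agent.P236EL

end
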