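import Vale.Agent.P236K3.VR
import Vale.Agent.P236KE.Sph
import Vale.Agent.P236EL.Line

/-!
# P236K3 / Top : the finite statements about small complexes from checks
-/

noncomputable section

namespace Vale.Agent.P236K3

open MvPolynomial Vale.Agent.P236EL Vale.Agent.P236KE Vale.Agent.P236K2

/-- layouts and rows of a complex -/
structure KD : Type where
  L : Nat → LD
  r : Nat → Rw

namespace KD

variable (D : KD)

def bd1 (s T a b : Nat) (l : PL) (q : Nat) : Nat → PL := lB1 (D.r q) (D.L q) (D.L s) T a b l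
/-- rows of boundaries and of the list -/
def bd (s T a b : Nat) (l : PL) : Nat → PL :=
  Nat.rec (motive := fun _ => Nat → PL) (shL l) (fun q _ => D.bd1 s T a b l q) s
def g2 (s T a k n s' k' : Nat) (l : PL) : Bool :=
  k3 (D.r s) (D.L s) (D.L s') T k n (D.bd s T a k' l)
def g1 (s T a k n : Nat) (l : List VC) (s' k' : Nat) : Bool := runL l (D.g2 s T a k n s' k')
def g0 (s T a k n : Nat) (l : List VC) (s' : Nat) : Bool :=
  force (Nat.succ k) (D.g1 s T a k n l s')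
/-- the general check -/
def gen (s T a k n : Nat) (l : List VC) : Bool := force (Nat.succ s) (D.g0 s T a k n l)
def k1 (s T k : Nat) (l : List VC) (a : Nat) : Bool :=
  force (Nat.add k (nat_lit 3)) fun n => D.gen s T a k n l
/-- the check at one length -/
def k3s (s T k : Nat) (l : List VC) : Bool := force (Nat.sub k (nat_lit 2)) (D.k1 s T k l)
def v2 (s T ex : Nat) (c : Bool) (k : Nat) : Bool :=
  Bool.rec (motive := fun _ => Bool) c
    (Bool.rec (motive := fun _ => Bool) false c (D.k3s s T k []))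
    (Nat.beq (Nat.land (Nat.shiftRight ex k) (nat_lit 1)) (nat_lit 0))
def v1 (s T ex lo j : Nat) (c : Bool) : Bool := force (Nat.add lo j) (D.v2 s T ex c)
/-- vanishing at the lengths from `lo` to `hi - 1` which are not bits of `ex` -/
def van (s T ex lo hi : Nat) : Bool := loop (D.v1 s T ex lo) (Nat.sub hi lo) true
def i2 (s T a b : Nat) (l : PL) (x : P) : Bool := inS (D.L s) (D.bd s T a b l (nat_lit 0)) x true
def i1 (s T a b : Nat) (v : VC) (l : PL) : Bool := v.run (D.i2 s T a b l)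
/-- membership in the boundaries modulo the span of a list -/
def inB (s T a b : Nat) (l : List VC) (v : VC) : Bool := runL l (D.i1 s T a b v)
def n2 (s T a b : Nat) (x : P) (q : Nat) : Bool :=
  noS (D.L s) (rowsW (D.r q) (D.L q) (D.L s) T a b PL.nil (nat_lit 0)) x true
def n1 (s T a b : Nat) (x : P) : Bool :=
  Nat.rec (motive := fun _ => Bool) (noS (D.L s) PL.nil x true) (fun q _ => D.n2 s T a b x q) s
/-- the vector is not a boundary -/
def noB (s T a b : Nat) (v : VC) : Bool := v.run (D.n1 s T a b)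
/-- twisted differentials -/
def dl (q q' c T T' a b : Nat) (v : VC) : VC := v.dl (D.r q) (D.L q) (D.L q') c T T' a b
def tt (_ : P) : Bool := true
/-- the vector vanishes below the length `n` -/
def isZ (s T a n : Nat) (v : VC) : Bool := (v.up (D.L s) T a n).run tt

end KD

variable [Fact (Nat.Prime 3)] {G : ℕ → Type} [∀ q, Fintype (G q)]

/-- the data describe the complex -/
structure Cx (R : Rs 3 K G) (o : ℤ) (Tm s3 s4 : ℕ) (D : KD) (ix : ∀ q, G (q + 1) → ℕ) : Prop where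
  st : ∀ q, St (R.y q) (D.L q) (ix q) (D.L (q + 1)) (ix (q + 1)) s3 s4 (D.r q)
  deg : ∀ q w, R.deg (q + 1) w = (D.L q).dg (ix q w) + o
  hT : ∀ q, (D.L q).T = Tm

theorem dly_eq (R : Rs 3 K G) (q : ℕ) (g : Γ) (u : G (q + 1) → A) :
    dly (R.y q) g u = R.dl q g u := funext fun _ => Finset.sum_apply _ _ _

namespace Cx

variable {R : Rs 3 K G} {o w : ℤ} {Tm s3 s4 : ℕ} {D : KD} {ix : ∀ q, G (q + 1) → ℕ}
  (h : Cx R o Tm s3 s4 D ix) {s T a b k n : ℕ} {l : List VC} {φ : List (G (s + 1) → A)}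
  {S : AddSubgroup (G (s + 1) → A)} {v : VC} {u : G (s + 1) → A}

include h

theorem pa (hw : w = T + o) : u ∈ PA 3 (R.deg (s + 1)) w (I ^ a) ↔ u ∈ HZ (D.L s) (ix s) T a :=
  hw ▸ mem_PA_iff (h.deg s)

theorem bd_mem (hw : w = T + o) (hT : T ≤ Tm) (hb : b ≤ a + 3) {l : PL}
    (hl : ∀ x, l.Mem x → ∃ u ∈ S, VP (D.L s) (ix s) T a b x u) (O : ℕ) (x : P)
    (hx : (D.bd s T a b l O).Mem x) : ∃ z ∈ HZ (D.L s) (ix s) T a ⊓
      AddSubgroup.toZModSubmodule 3 (S ⊔ R.Bd s w a b), x.R (sh O (cr (D.L s) (ix s) (win a b) z)) := by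
  rcases s with _ | q
  · obtain ⟨z, hz, rfl⟩ := shL_mem hx
    obtain ⟨u, h1, h2⟩ := hl z hz
    exact ⟨u, ⟨h2.hz, AddSubgroup.mem_sup_left h1⟩, h2.r.shl O⟩
  · obtain ⟨z, h1, h2⟩ := lB1_mem (S := AddSubgroup.toZModSubmodule 3 S) (h.st q)
      ((h.hT _).symm ▸ hT) hb hl x hx
    refine ⟨z, ⟨h1.1, ?_⟩, h2⟩
    obtain ⟨u, hu, _, ⟨y, hy, rfl⟩, rfl⟩ := Submodule.mem_sup.1 h1.2
    refine AddSubgroup.add_mem_sup hu (AddSubgroup.mem_sup_left ⟨y, (h.pa hw).2 hy, ?_⟩)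
    rw [dly_eq, Rs.dl_one]

/-- **the general check** -/
theorem gen (hw : w = T + o) (hT : T ≤ Tm) (hak : a ≤ k) (hk : k + 1 ≤ a + 3) (hn : n ≤ k + 3)
    (hl : List.Forall₂ (VR (D.L s) (ix s) T a (k + 1)) l φ) (hS : ∀ u ∈ φ, u ∈ S)
    (hc : D.gen s T a k n l = true) : R.Cy s w k n ≤ S ⊔ R.Bd s w a (k + 1) := fun u hu => by
  rw [KD.gen, force_eq, KD.g0, force_eq, KD.g1] at hc
  obtain ⟨l', h1, h2⟩ := runL_spec hl hc
  rw [KD.g2] at h2
  obtain ⟨z, h3, h4⟩ := k3_spec (h.st s) ((h.hT _).symm ▸ hT) ((h.hT _).symm ▸ hT) hak hk hn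
    inf_le_left (h.bd_mem hw hT hk (fun x hx => (h1 x hx).imp fun u h => ⟨hS u h.1, h.2⟩) _) h2
    ((h.pa hw).1 hu.1) (by rw [dly_eq, Rs.dl_one]; exact hu.2)
  rw [← add_sub_cancel z u]
  exact add_mem h3.2 (AddSubgroup.mem_sup_right (Rs.mem_Bd_of_ZA h4))

/-- **the check at one length** -/
theorem k3s (hw : w = T + o) (hT : T ≤ Tm)
    (hl : List.Forall₂ (VR (D.L s) (ix s) T (k - 2) (k + 1)) l φ) (hS : ∀ u ∈ φ, u ∈ S)
    (hc : D.k3s s T k l = true) : R.K3s 3 s w k S := by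
  rw [KD.k3s, force_eq, KD.k1, force_eq] at hc
  exact h.gen hw hT (Nat.sub_le k 2) (by omega) le_rfl hl hS hc

theorem k3s_top (hw : w = T + o) (hT : T ≤ Tm) (hk : T < k) (r : ℕ) : R.K3s r s w k S :=
  fun u hu => by
  have h1 := (h.pa hw).1 hu.1
  have h2 := (h.st s).ok.hT
  rw [h.hT] at h2
  rw [show u = 0 from funext fun g => MvPolynomial.ext _ _ fun J => by_contra fun h3 => by
    have h4 := h1.1 g J h3
    have h5 := mem_I_pow.1 (h1.2 g) J h3
    have h6 := wt_len (J := J) (by omega)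
    omega]
  exact zero_mem _

/-- **vanishing in a range of lengths** -/
theorem van {ex lo hi : ℕ} (hw : w = T + o) (hT : T ≤ Tm) (hc : D.van s T ex lo hi = true)
    (h1 : lo ≤ k) (h2 : k < hi) (h3 : ex.testBit k = false) : R.K3s 3 s w k ⊥ := by
  obtain ⟨j, rfl⟩ := Nat.exists_eq_add_of_le h1
  refine h.k3s hw hT List.Forall₂.nil (fun _ h => nomatch h) ?_
  revert hc
  refine loop_cov (Q := fun c => c = true → D.k3s s T (lo + j) [] = true) (j := j) _
    (show j < hi - lo by omega) (fun c => ?_) fun j c hc => ?_ <;> rw [KD.v1, force_eq, KD.v2]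
  · refine bool_true (Q := fun c => c = true → _) ?_ ?_
    · rw [Nat.beq_eq]
      change (ex >>> (lo + j)) &&& 1 = 0
      rwa [Nat.testBit, Nat.and_comm, bne_eq_false_iff_eq] at h3
    · change Bool.rec false c (D.k3s s T (lo + j) []) = true → _
      cases D.k3s s T (lo + j) [] <;> simp
  · exact bool_ind (Q := fun c => c = true → _) hc fun _ =>
      bool_ind (Q := fun c => c = true → _) nofun fun _ => hc

/-- **vanishing for all lengths from `lo` on which are not bits of `ex`** -/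
theorem van' {ex lo : ℕ} (hw : w = T + o) (hT : T ≤ Tm) (hc : D.van s T ex lo (T + 1) = true)
    (h1 : lo ≤ k) (h3 : ex.testBit k = false) : R.K3s 3 s w k ⊥ :=
  (lt_or_ge T k).elim (fun h2 => h.k3s_top hw hT h2 3) fun h2 =>
    h.van hw hT hc h1 (Nat.lt_succ_of_le h2) h3

/-- **membership** -/
theorem inB (hw : w = T + o) (hT : T ≤ Tm) (hb : b ≤ a + 3)
    (hl : List.Forall₂ (VR (D.L s) (ix s) T a b) l φ) (hS : ∀ u ∈ φ, u ∈ S)
    (hv : VR (D.L s) (ix s) T a b v u) (hc : D.inB s T a b l v = true) :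
    u ∈ S ⊔ R.Bd s w a b := by
  obtain ⟨l', h1, h2⟩ := runL_spec hl hc
  obtain ⟨x, h3, h4⟩ := hv.run _ h2
  rw [KD.i2] at h4
  obtain ⟨-, z, hz, h5⟩ := inS_spec (S := (HZ (D.L s) (ix s) T a ⊓ AddSubgroup.toZModSubmodule 3
    (S ⊔ R.Bd s w a b)).map (cr (D.L s) (ix s) (win a b))) (fun z hz => by
      obtain ⟨z, h1, h2⟩ := h.bd_mem hw hT hb
        (fun x hx => (h1 x hx).imp fun u h => ⟨hS u h.1, h.2⟩) _ z hz
      exact ⟨_, ⟨z, h1, rfl⟩, sh_zero _ ▸ h2⟩) h3 h4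
  have h6 := sub_mem hv.hz hz.1
  rw [← add_sub_cancel z u]
  exact add_mem hz.2 (AddSubgroup.mem_sup_right (Rs.mem_Bd_of_ZA (mem_of_cr (h.st s).ok
    ((h.hT _).symm ▸ hT) h6.1 hb h6.2 (by rw [map_sub, h5, sub_self]))))

theorem inB' (hw : w = T + o) (hT : T ≤ Tm) (hb : b ≤ a + 3) (hv : VR (D.L s) (ix s) T a b v u)
    (hc : D.inB s T a b [] v = true) : u ∈ R.Bd s w a b := by
  simpa using h.inB (S := ⊥) hw hT hb List.Forall₂.nil (fun _ h => nomatch h) hv hc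

/-- **non-membership** -/
theorem noB (hw : w = T + o) (hT : T ≤ Tm) (hb : b ≤ a + 3) (hv : VR (D.L s) (ix s) T a b v u)
    (hc : D.noB s T a b v = true) : u ∉ R.Bd s w a b := fun hu => by
  obtain ⟨x, h1, h2⟩ := hv.run _ hc
  obtain ⟨z, h3, h4⟩ := Rs.mem_Bd.1 hu
  rcases s with _ | q
  · refine (noS_spec (L := D.L 0) (l := PL.nil) (fun _ h => False.elim h) h1 h2).2 ⊥
      (fun _ _ => bot_le) ?_
    rw [show R.sd 0 z = 0 from rfl, sub_zero] at h4
    exact cr_eq_zero h4 fun j hj h => by have := h.2; omega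
  · change D.n2 (q + 1) T a b x q = true at h2
    rw [KD.n2] at h2
    refine (noB_spec (h.st q) ((h.hT _).symm ▸ hT) ((h.hT _).symm ▸ hT) hb ⟨hv.hz, h1⟩ h2).2 z
      ((h.pa hw).1 h3) ?_
    rwa [dly_eq, Rs.dl_one]

/-- **vanishing below a length** -/
theorem isZ (hT : T ≤ Tm) (hb : b ≤ a + 3) (hn : n ≤ b) (hv : VR (D.L s) (ix s) T a b v u)
    (hc : D.isZ s T a n v = true) : u ∈ ZA _ (I ^ n) :=
  hv.isZ (h.st s).ok ((h.hT _).symm ▸ hT) hb hn hc

theorem dl (F : ℕ →₀ ℕ) {c T' s' : ℕ} (hc : cd s3 s4 F = c) (hT' : T + wtM F = T') (hs : s + 1 = s')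
    (hT : T' ≤ Tm) (hb : b ≤ a + 3) (hv : VR (D.L s) (ix s) T a b v u) :
    VR (D.L (s + 1)) (ix (s + 1)) T' a b (D.dl s s' c T T' a b v) (R.dl s (monomial F 1) u) := by
  subst hc hT' hs
  rw [← dly_eq]
  exact hv.dl (h.st s) F ((h.hT _).symm ▸ (Nat.le_add_right _ _).trans hT) ((h.hT _).symm ▸ hT) hb

theorem sd {s' : ℕ} (hs : s + 1 = s') (hT : T ≤ Tm) (hb : b ≤ a + 3)
    (hv : VR (D.L s) (ix s) T a b v u) :
    VR (D.L (s + 1)) (ix (s + 1)) T a b (D.dl s s' 0 T T a b v) (R.sd (s + 1) u) :=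
  R.dl_one s u ▸ h.dl 0 (by simp [cd]) (by simp) hs hT hb hv

theorem re {a' b' : ℕ} (hT : T ≤ Tm) (hb : b ≤ a + 3) (h1 : a' ≤ a) (h2 : b' ≤ b)
    (hv : VR (D.L s) (ix s) T a b v u) : VR (D.L s) (ix s) T a' b' (v.re (D.L s) T a b') u :=
  hv.re (h.st s).ok ((h.hT _).symm ▸ hT) hb h1 h2

/-- **cycles** -/
theorem cy {s' : ℕ} (hw : w = T + o) (hs : s + 1 = s') (hT : T ≤ Tm) (hb : b ≤ a + 3) (hn : n ≤ b)
    (hv : VR (D.L s) (ix s) T a b v u) (hc : D.isZ s' T a n (D.dl s s' 0 T T a b v) = true) :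
    u ∈ R.Cy s w a n := by
  subst hs
  exact ⟨(h.pa hw).2 hv.hz, h.isZ hT hb hn (h.sd rfl hT hb hv) hc⟩

end Cx

def sL2 (T d n : Nat) : LD := mkLD T d n
def sL1 (S : Sq) (T q d : Nat) : LD := force (S.n q) (sL2 T d)
def sL (S : Sq) (T q : Nat) : LD := force (S.d q) (sL1 S T q)
def sr2 (S : Sq) (T k q d q' : Nat) : Rw := rwS k (S.D q) d (sL S T q')
def sr1 (S : Sq) (T k q d : Nat) : Rw := force (Nat.succ q) (sr2 S T k q d)
def sr (S : Sq) (T k q : Nat) : Rw := force (S.d q) (sr1 S T k q)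
/-- the data of a tabulated resolution -/
def kdS (S : Sq) (T k : Nat) : KD := ⟨sL S T, sr S T k⟩

theorem cx_sq (S : Sq) {T k : ℕ} (hT : T < 120) (hk : k = (13 + 384 * S.s3) * 3) :
    Cx (S.rs K) 0 T S.s3 S.s4 (kdS S T k) fun _ => Fin.val := by
  subst hk
  have e : ∀ q, (kdS S T ((13 + 384 * S.s3) * 3)).L q = mkLD T (S.d q) (S.n q) := fun q => by
    change sL S T q = _
    rw [sL, force_eq, sL1, force_eq, sL2]
  refine ⟨fun q => ?_, fun q w => ?_, fun q => ?_⟩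
  · have e' : (kdS S T ((13 + 384 * S.s3) * 3)).r q = rwS ((13 + 384 * S.s3) * 3) (S.D q) (S.d q)
        ((kdS S T ((13 + 384 * S.s3) * 3)).L (q + 1)) := by
      change sr S T _ q = _
      rw [sr, force_eq, sr1, force_eq, sr2]
      rfl
    rw [e', e, e]
    exact st_yOf (mkLD_ok hT _ _) (mkLD_ok hT _ _) (S.D q) rfl rfl S.s3 S.s4
  · rw [e, add_zero]
    rfl
  · rw [e]
    rfl

end Vale.Agent.P236K3

end
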