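import Mathlib.Data.ZMod.Basic
import Mathlib.Data.Nat.Bitwise
import Mathlib.Algebra.Module.Pi
import Mathlib.Algebra.Module.LinearMap.Defs
import Mathlib.Data.Nat.Prime.Basic

/-!
# P236K3 / Vec : vectors over the field with three elements as pairs of numbers
-/

noncomputable section

namespace Vale.Agent.P236K3

/-- vectors -/
abbrev V : Type := ℕ → ZMod 3

def is0 (c : ZMod 3) : Bool := decide (c = 0)
def is1 (c : ZMod 3) : Bool := decide (c = 1)
def is2 (c : ZMod 3) : Bool := decide (c = 2)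

/-- the bits of `a` are the places of the ones, the bits of `b` the places of the twos -/
def Rp (a b : ℕ) (v : V) : Prop :=
  ∀ p, a.testBit p = is1 (v p) ∧ b.testBit p = is2 (v p)

theorem rp_zero : Rp 0 0 0 := fun p => by
  rw [Nat.zero_testBit, Pi.zero_apply]
  decide

theorem rp_add {a b x y : ℕ} {v w : V} (h : Rp a b v) (h' : Rp x y w) :
    Rp (Nat.xor (Nat.lor b y) (Nat.xor (Nat.lor a y) (Nat.lor b x)))
      (Nat.xor (Nat.lor a x) (Nat.xor (Nat.lor a y) (Nat.lor b x))) (v + w) := fun p => by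
  change ((b ||| y) ^^^ ((a ||| y) ^^^ (b ||| x))).testBit p = _ ∧
    ((a ||| x) ^^^ ((a ||| y) ^^^ (b ||| x))).testBit p = _
  simp only [Nat.testBit_xor, Nat.testBit_or, (h p).1, (h p).2, (h' p).1, (h' p).2, Pi.add_apply]
  generalize v p = c
  generalize w p = d
  revert c d
  decide

theorem rp_neg {a b : ℕ} {v : V} (h : Rp a b v) : Rp b a (-v) := fun p => by
  rw [(h p).1, (h p).2, Pi.neg_apply]
  generalize v p = c
  revert c
  decide

theorem rp_unique {a b : ℕ} {v w : V} (h : Rp a b v) (h' : Rp a b w) : v = w := by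
  funext p
  have h1 := (h p).1.symm.trans (h' p).1
  have h2 := (h p).2.symm.trans (h' p).2
  generalize v p = c at h1 h2 ⊢
  generalize w p = d at h1 h2 ⊢
  revert c d
  decide

/-- shifting a vector -/
def sh (s : ℕ) : V →ₗ[ZMod 3] V where
  toFun v p := if s ≤ p then v (p - s) else 0
  map_add' v w := by funext p; by_cases h : s ≤ p <;> simp [h]
  map_smul' c v := by funext p; by_cases h : s ≤ p <;> simp [h]

theorem sh_apply (s : ℕ) (v : V) (p : ℕ) : sh s v p = if s ≤ p then v (p - s) else 0 := rfl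

theorem sh_single (s p : ℕ) (c : ZMod 3) : sh s (Pi.single p c) = Pi.single (p + s) c := by
  funext q
  rw [sh_apply]
  split_ifs with h
  · by_cases hq : q = p + s
    · rw [hq, Nat.add_sub_cancel, Pi.single_eq_same, Pi.single_eq_same]
    · rw [Pi.single_eq_of_ne hq, Pi.single_eq_of_ne (by omega)]
  · rw [Pi.single_eq_of_ne (by omega)]

theorem sh_zero (v : V) : sh 0 v = v := funext fun p => by simp [sh_apply]

theorem sh_sh (s t : ℕ) (v : V) : sh s (sh t v) = sh (s + t) v := by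
  funext p
  simp only [sh_apply]
  by_cases h : s ≤ p
  · rw [if_pos h, Nat.sub_sub]
    exact if_congr (by omega) rfl rfl
  · rw [if_neg h, if_neg (by omega)]

theorem rp_shl {a b : ℕ} {v : V} (h : Rp a b v) (s : ℕ) :
    Rp (Nat.shiftLeft a s) (Nat.shiftLeft b s) (sh s v) := fun p => by
  change (a <<< s).testBit p = _ ∧ (b <<< s).testBit p = _
  rw [Nat.testBit_shiftLeft, Nat.testBit_shiftLeft, sh_apply, (h _).1, (h _).2]
  by_cases hs : s ≤ p
  · simp [hs]
  · simp only [ge_iff_le, hs, decide_false, Bool.false_and, if_false]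
    decide

/-- restriction to the bits of a mask -/
def mk (m : ℕ) : V →ₗ[ZMod 3] V where
  toFun v p := if m.testBit p then v p else 0
  map_add' v w := by funext p; by_cases h : m.testBit p <;> simp [h]
  map_smul' c v := by funext p; by_cases h : m.testBit p <;> simp [h]

theorem mk_apply (m : ℕ) (v : V) (p : ℕ) : mk m v p = if m.testBit p then v p else 0 := rfl

theorem rp_and {a b : ℕ} {v : V} (h : Rp a b v) (m : ℕ) :
    Rp (Nat.land a m) (Nat.land b m) (mk m v) := fun p => by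
  change (a &&& m).testBit p = _ ∧ (b &&& m).testBit p = _
  rw [Nat.testBit_and, Nat.testBit_and, mk_apply, (h _).1, (h _).2]
  cases m.testBit p
  · simp only [Bool.and_false, Bool.false_eq_true, if_false]
    decide
  · simp

theorem rp_lor {a b x y : ℕ} {v w : V} (h : Rp a b v) (h' : Rp x y w)
    (hd : ∀ p, v p = 0 ∨ w p = 0) : Rp (Nat.lor a x) (Nat.lor b y) (v + w) := fun p => by
  change (a ||| x).testBit p = _ ∧ (b ||| y).testBit p = _
  have h1 := hd p
  simp only [Nat.testBit_or, (h p).1, (h p).2, (h' p).1, (h' p).2, Pi.add_apply]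
  generalize v p = c at h1 ⊢
  generalize w p = d at h1 ⊢
  revert c d
  decide

theorem rp_bit {a b : ℕ} {v : V} (h : Rp a b v) (p : ℕ) :
    (Nat.lor a b).testBit p = !is0 (v p) := by
  change (a ||| b).testBit p = _
  rw [Nat.testBit_or, (h p).1, (h p).2]
  generalize v p = c
  revert c
  decide

theorem rp_eq_zero {a b : ℕ} {v : V} (h : Rp a b v) (h0 : Nat.lor a b = 0) : v = 0 := by
  funext p
  have h1 := rp_bit h p
  rw [h0, Nat.zero_testBit] at h1
  simpa [is0] using h1

theorem rp_single (p : ℕ) : Rp (Nat.shiftLeft 1 p) 0 (Pi.single p 1) := fun q => by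
  change (1 <<< p).testBit q = _ ∧ _
  rw [Nat.one_shiftLeft, Nat.testBit_two_pow, Nat.zero_testBit]
  by_cases h : p = q
  · subst h
    rw [Pi.single_eq_same]
    simp only [decide_true]
    decide
  · rw [Pi.single_eq_of_ne' h]
    simp only [h, decide_false]
    decide

theorem gcd_two_pow (x N : ℕ) : ∃ p ≤ N, Nat.gcd x (2 ^ N) = 2 ^ p ∧
    (∀ q < p, x.testBit q = false) ∧ (p < N → x.testBit p = true) := by
  obtain ⟨p, hp, h⟩ := (Nat.dvd_prime_pow Nat.prime_two).1 (Nat.gcd_dvd_right x (2 ^ N))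
  obtain ⟨k, hk⟩ : 2 ^ p ∣ x := h ▸ Nat.gcd_dvd_left x _
  refine ⟨p, hp, h, fun q hq => ?_, fun hN => ?_⟩
  · rw [hk, Nat.testBit_two_pow_mul]
    simp [hq]
  · rw [hk, Nat.testBit_two_pow_mul, Nat.sub_self, Nat.testBit_zero]
    have h1 : ¬ 2 ∣ k := fun h2 => by
      have h3 : 2 ^ (p + 1) ∣ Nat.gcd x (2 ^ N) :=
        Nat.dvd_gcd (by rw [hk, pow_succ]; exact Nat.mul_dvd_mul_left _ h2) (pow_dvd_pow 2 hN)
      rw [h] at h3
      have := (Nat.pow_dvd_pow_iff_le_right Nat.one_lt_two).1 h3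
      omega
    simp only [ge_iff_le, le_refl, decide_true, Bool.true_and, decide_eq_true_eq]
    omega

/-- pairs of numbers -/
structure P : Type where
  a : Nat
  b : Nat

namespace P

/-- the pair represents the vector -/
def R (x : P) (v : V) : Prop := Rp x.a x.b v

def add' (x y : P) (u : Nat) : P := ⟨Nat.xor (Nat.lor x.b y.b) u, Nat.xor (Nat.lor x.a y.a) u⟩
def add (x y : P) : P := add' x y (Nat.xor (Nat.lor x.a y.b) (Nat.lor x.b y.a))
def neg (x : P) : P := ⟨x.b, x.a⟩
def zero : P := ⟨nat_lit 0, nat_lit 0⟩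
def shl (x : P) (s : Nat) : P := ⟨Nat.shiftLeft x.a s, Nat.shiftLeft x.b s⟩
def and (x : P) (m : Nat) : P := ⟨Nat.land x.a m, Nat.land x.b m⟩
def lor (x y : P) : P := ⟨Nat.lor x.a y.a, Nat.lor x.b y.b⟩
def sm (c : Nat) (x : P) : P :=
  Bool.rec (motive := fun _ => P)
    (Bool.rec (motive := fun _ => P) ⟨x.b, x.a⟩ x (Nat.beq (Nat.mod c (nat_lit 3)) (nat_lit 1)))
    zero (Nat.beq (Nat.mod c (nat_lit 3)) (nat_lit 0))

variable {x y : P} {v w : V}

theorem R.add (h : x.R v) (h' : y.R w) : (x.add y).R (v + w) := rp_add h h'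
theorem R.neg (h : x.R v) : x.neg.R (-v) := rp_neg h
theorem R_zero : zero.R 0 := rp_zero
theorem R.shl (h : x.R v) (s : ℕ) : (x.shl s).R (sh s v) := rp_shl h s
theorem R.and (h : x.R v) (m : ℕ) : (x.and m).R (P236K3.mk m v) := rp_and h m
theorem R.lor (h : x.R v) (h' : y.R w) (hd : ∀ p, v p = 0 ∨ w p = 0) : (x.lor y).R (v + w) :=
  rp_lor h h' hd

theorem R.sm (c : ℕ) (h : (c : ZMod 3) ≠ 0 → x.R v) : (sm c x).R ((c : ZMod 3) • v) := by
  have h3 : (c : ZMod 3) = ((c % 3 : ℕ) : ZMod 3) := (ZMod.natCast_mod c 3).symm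
  have h4 : c % 3 = 0 ∨ c % 3 = 1 ∨ c % 3 = 2 := by omega
  change R (Bool.rec (motive := fun _ => P) (Bool.rec (motive := fun _ => P) ⟨x.b, x.a⟩ x
    (Nat.beq (c % 3) 1)) zero (Nat.beq (c % 3) 0)) _
  rw [h3] at h ⊢
  rcases h4 with h4 | h4 | h4 <;> rw [h4] at h ⊢
  · rw [Nat.cast_zero, zero_smul]
    exact R_zero
  · rw [Nat.cast_one, one_smul]
    exact h (by decide)
  · rw [show ((2 : ℕ) : ZMod 3) = -1 by decide, neg_one_smul]
    exact (h (by decide)).neg

end P

end Vale.Agent.P236K3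

end
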