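import Vale.Agent.P236K3.Tb
import Vale.Agent.P236K3.Vec
import Mathlib.LinearAlgebra.Span.Basic

/-!
# P236K3 / Elim : elimination
-/

noncomputable section

namespace Vale.Agent.P236K3

/-- the reduction loop: table, action at a new pivot, action at zero, the row -/
structure Lp : Type where
  f : Tb → (Nat → Nat → Nat → Nat → Bool) → Bool → Nat → Nat → Bool

def stE (ih : Lp) (t : Tb) (E : Nat → Nat → Nat → Nat → Bool) (Z : Bool) (a b x y u : Nat) : Bool :=
  ih.f t E Z (Nat.xor (Nat.lor b y) u) (Nat.xor (Nat.lor a x) u)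
def stD (ih : Lp) (t : Tb) (E : Nat → Nat → Nat → Nat → Bool) (Z : Bool) (a b x y : Nat) : Bool :=
  stE ih t E Z a b x y (Nat.xor (Nat.lor a y) (Nat.lor b x))
def zc (Z : Bool) (a b : Nat) : Bool :=
  Bool.rec (motive := fun _ => Bool) false Z (Nat.beq (Nat.lor a b) (nat_lit 0))
def stC (ih : Lp) (t : Tb) (E : Nat → Nat → Nat → Nat → Bool) (Z : Bool) (a b g key : Nat) : Bool :=
  ((path key).g t).f (stD ih t E Z a b) (E key a b g) (zc Z a b)
def stB (ih : Lp) (t : Tb) (E : Nat → Nat → Nat → Nat → Bool) (Z : Bool) (a b g : Nat) : Bool :=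
  Nat.rec (motive := fun _ => Bool) false (fun key _ => stC ih t E Z a b g key)
    (Nat.succ (Nat.add (Nat.mod g (nat_lit 65371))
      (Nat.shiftLeft (Nat.mod (Nat.land a g) (nat_lit 65371)) (nat_lit 16))))
def lst (W : Nat) (_ : Nat) (ih : Lp) : Lp :=
  ⟨fun t E Z a b => stB ih t E Z a b (Nat.gcd (Nat.lor a b) W)⟩
/-- the loop with `n` steps -/
def lp (W n : Nat) : Lp := Nat.rec (motive := fun _ => Lp) ⟨fun _ _ _ _ _ => false⟩ (lst W) n

theorem lp_succ (W n : ℕ) (t : Tb) (E : ℕ → ℕ → ℕ → ℕ → Bool) (Z : Bool) (a b : ℕ) :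
    (lp W (n + 1)).f t E Z a b = stB (lp W n) t E Z a b (Nat.gcd (Nat.lor a b) W) := by
  have h : lp W (n + 1) = lst W n (lp W n) := rfl
  rw [h, lst]

theorem stB_eq (ih : Lp) (t : Tb) (E : ℕ → ℕ → ℕ → ℕ → Bool) (Z : Bool) (a b g : ℕ) :
    stB ih t E Z a b g =
      stC ih t E Z a b g (g % 65371 + (Nat.land a g % 65371) <<< 16) := by
  rw [stB]
  rfl

theorem mul_ne3 : ∀ c d : ZMod 3, c ≠ 0 → d ≠ 0 → c * d ≠ 0 := by decide

/-- subspaces -/
abbrev Sub : Type := Submodule (ZMod 3) V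

/-- all rows of the table lie in `S` -/
def RowsIn (t : Tb) (S : Sub) : Prop :=
  ∀ h, gt t h = ent0 ∨ gt t h = entZ ∨ ∃ x y v, gt t h = entH x y ∧ Rp x y v ∧ v ∈ S

theorem RowsIn.mono {t : Tb} {S S' : Sub} (h : RowsIn t S) (hS : S ≤ S') : RowsIn t S' :=
  fun k => (h k).imp_right (Or.imp_right fun ⟨x, y, v, h1, h2, h3⟩ => ⟨x, y, v, h1, h2, hS h3⟩)

theorem lp_spec {N n : ℕ} {t : Tb} {S : Sub} (ht : RowsIn t S) {E : ℕ → ℕ → ℕ → ℕ → Bool}
    {Z : Bool} {a b : ℕ} {v : V} (h : Rp a b v) (hr : (lp (2 ^ N) n).f t E Z a b = true) :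
    (Z = true ∧ v ∈ S) ∨ ∃ a' b' v' p key, Rp a' b' v' ∧ v' - v ∈ S ∧ p ≤ N ∧
      (∀ q < p, v' q = 0) ∧ (p < N → v' p ≠ 0) ∧ key % 65536 = 2 ^ p % 65371 ∧
      gt t key = ent0 ∧ E key a' b' (2 ^ p) = true := by
  induction n generalizing a b v with
  | zero => exact Bool.noConfusion hr
  | succ n ih =>
    obtain ⟨p, hp, hg, h1, h2⟩ := gcd_two_pow (Nat.lor a b) N
    rw [lp_succ, hg, stB_eq] at hr
    obtain ⟨key, hkey, hr⟩ : ∃ key, key % 65536 = 2 ^ p % 65371 ∧
        stC (lp (2 ^ N) n) t E Z a b (2 ^ p) key = true := by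
      refine ⟨_, ?_, hr⟩
      rw [Nat.shiftLeft_eq]
      omega
    have step : ∀ x y w, Rp x y w → w ∈ S → stD (lp (2 ^ N) n) t E Z a b x y = true →
        (Z = true ∧ v ∈ S) ∨ ∃ a' b' v' p key, Rp a' b' v' ∧ v' - v ∈ S ∧ p ≤ N ∧
          (∀ q < p, v' q = 0) ∧ (p < N → v' p ≠ 0) ∧ key % 65536 = 2 ^ p % 65371 ∧
          gt t key = ent0 ∧ E key a' b' (2 ^ p) = true := by
      intro x y w hw hwS h3
      rcases ih (rp_add h hw) h3 with ⟨h4, h5⟩ | ⟨a', b', v', p', key', h4, h5, h6⟩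
      · exact Or.inl ⟨h4, by simpa using S.sub_mem h5 hwS⟩
      · exact Or.inr ⟨a', b', v', p', key', h4, by
          simpa [← sub_sub] using S.add_mem h5 hwS, h6⟩
    rw [stC] at hr
    rcases ht key with h3 | h3 | ⟨x, y, w, h3, hw, hwS⟩
    · refine Or.inr ⟨a, b, v, p, key, h, by simp, hp, fun q hq => ?_, fun hN => ?_, hkey, h3, ?_⟩
      · simpa [is0] using (rp_bit h q).symm.trans (h1 q hq)
      · simpa [is0] using (rp_bit h p).symm.trans (h2 hN)
      · rcases path_g key t (stD (lp (2 ^ N) n) t E Z a b) (E key a b (2 ^ p)) (zc Z a b) with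
          h4 | h4 <;> rw [h4, h3] at hr <;> exact hr
    · have h5 : zc Z a b = true := by
        rcases path_g key t (stD (lp (2 ^ N) n) t E Z a b) (E key a b (2 ^ p)) (zc Z a b) with
          h4 | h4 <;> rw [h4, h3] at hr <;> exact hr
      rw [zc] at h5
      cases h6 : Nat.beq (Nat.lor a b) (nat_lit 0) with
      | false => rw [h6] at h5; exact Bool.noConfusion h5
      | true =>
        rw [h6] at h5
        exact Or.inl ⟨h5, by rw [rp_eq_zero h (Nat.eq_of_beq_eq_true h6)]; exact S.zero_mem⟩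
    · rcases path_g key t (stD (lp (2 ^ N) n) t E Z a b) (E key a b (2 ^ p)) (zc Z a b) with
        h4 | h4 <;> rw [h4, h3] at hr
      · exact step x y w hw hwS hr
      · exact step y x (-w) (rp_neg hw) (S.neg_mem hwS) hr

/-- the invariant of the elimination -/
structure Inv (O : ℕ) (SB : Sub) (t : Tb) (S : Sub) : Prop where
  rows : RowsIn t S
  low : ∀ v ∈ S, (∀ q < O, v q = 0) → v ∈ SB
  occ : ∀ v ∈ S, ∀ p < O, v p ≠ 0 → (∀ q < p, v q = 0) → gt t (2 ^ p % 65371) ≠ ent0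

/-- the initial table -/
def tb0 (W : Nat) : Tb := (path (Nat.mod W (nat_lit 65371))).z emp

theorem inv_tb0 (O : ℕ) (SB : Sub) (W : ℕ) : Inv O SB (tb0 W) ⊥ := by
  refine ⟨fun h => ?_, fun v hv _ => ?_, fun v hv p _ hp => ?_⟩
  · rw [tb0, path_z]
    rcases gt_st emp (Nat.mod W (nat_lit 65371)) h entZ with h1 | ⟨h1, -⟩
    · exact Or.inl (h1.trans (gt_emp h))
    · exact Or.inr (Or.inl h1)
  · rw [(Submodule.mem_bot _).1 hv]
    exact SB.zero_mem
  · rw [(Submodule.mem_bot _).1 hv] at hp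
    exact absurd rfl hp

theorem Inv.low' {O : ℕ} {SB S : Sub} {t : Tb} (hI : Inv O SB t S) {v : V}
    (hv : ∀ q < O, v q = 0) (hv' : v ∈ SB) : Inv O SB t (S ⊔ Submodule.span _ {v}) := by
  refine ⟨hI.rows.mono le_sup_left, fun u hu hu' => ?_, fun u hu p hp h1 h2 => ?_⟩
  · obtain ⟨s, hs, _, hz, rfl⟩ := Submodule.mem_sup.1 hu
    obtain ⟨c, rfl⟩ := Submodule.mem_span_singleton.1 hz
    refine SB.add_mem (hI.low s hs fun q hq => ?_) (SB.smul_mem c hv')
    simpa [hv q hq] using hu' q hq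
  · obtain ⟨s, hs, _, hz, rfl⟩ := Submodule.mem_sup.1 hu
    obtain ⟨c, rfl⟩ := Submodule.mem_span_singleton.1 hz
    refine hI.occ s hs p hp (by simpa [hv p hp] using h1) fun q hq => ?_
    simpa [hv q (hq.trans hp)] using h2 q hq

theorem exists_lead {v : V} {O : ℕ} (h : ¬ ∀ q < O, v q = 0) :
    ∃ p < O, v p ≠ 0 ∧ ∀ q < p, v q = 0 := by
  classical
  have h1 : ∃ p, p < O ∧ v p ≠ 0 := by
    by_contra h2
    exact h fun q hq => by_contra fun h3 => h2 ⟨q, hq, h3⟩
  refine ⟨Nat.find h1, (Nat.find_spec h1).1, (Nat.find_spec h1).2, fun q hq => ?_⟩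
  by_contra h3
  exact Nat.find_min h1 hq ⟨hq.trans (Nat.find_spec h1).1, h3⟩

theorem Inv.ins {O : ℕ} {SB S : Sub} {t : Tb} (hI : Inv O SB t S) {v : V} {p key x y : ℕ}
    (hp : p < O) (h1 : v p ≠ 0) (h2 : ∀ q < p, v q = 0) (hk : key % 65536 = 2 ^ p % 65371)
    (h0 : gt t key = ent0) {w : V} (hw : Rp x y w) (hw' : w ∈ S ⊔ Submodule.span _ {v}) :
    Inv O SB (st t key (entH x y)) (S ⊔ Submodule.span _ {v}) := by
  have h3 : gt t (2 ^ p % 65371) = ent0 := by rw [← hk, gt_mod, h0]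
  have h4 : ∀ h, gt t h ≠ ent0 → gt (st t key (entH x y)) h ≠ ent0 := fun h hh => by
    rcases gt_st t key h (entH x y) with h5 | ⟨h5, -⟩ <;> rw [h5]
    · exact hh
    · exact entH_ne x y
  refine ⟨fun h => ?_, fun u hu hu' => ?_, fun u hu p' hp' h5 h6 => ?_⟩
  · rcases gt_st t key h (entH x y) with h5 | ⟨h5, -⟩ <;> rw [h5]
    · exact hI.rows.mono le_sup_left h
    · exact Or.inr (Or.inr ⟨x, y, w, rfl, hw, hw'⟩)
  · obtain ⟨s, hs, _, hz, rfl⟩ := Submodule.mem_sup.1 hu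
    obtain ⟨c, rfl⟩ := Submodule.mem_span_singleton.1 hz
    by_cases hc : c = 0
    · rw [hc, zero_smul, add_zero] at hu' ⊢
      exact hI.low s hs hu'
    · refine absurd h3 (hI.occ s hs p hp (fun h5 => ?_) fun q hq => ?_)
      · have h6 := hu' p hp
        rw [Pi.add_apply, h5, zero_add, Pi.smul_apply, smul_eq_mul] at h6
        exact mul_ne3 _ _ hc h1 h6
      · simpa [h2 q hq] using hu' q (hq.trans hp)
  · obtain ⟨s, hs, _, hz, rfl⟩ := Submodule.mem_sup.1 hu
    obtain ⟨c, rfl⟩ := Submodule.mem_span_singleton.1 hz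
    rcases lt_trichotomy p' p with h7 | rfl | h7
    · refine h4 _ (hI.occ s hs p' hp' (by simpa [h2 p' h7] using h5) fun q hq => ?_)
      simpa [h2 q (hq.trans h7)] using h6 q hq
    · rw [← hk, gt_mod, gt_st_self]
      exact entH_ne x y
    · by_cases hc : c = 0
      · rw [hc, zero_smul, add_zero] at h5 h6
        exact h4 _ (hI.occ s hs p' hp' h5 h6)
      · refine absurd h3 (hI.occ s hs p hp (fun h8 => ?_) fun q hq => ?_)
        · have h9 := h6 p h7
          rw [Pi.add_apply, h8, zero_add, Pi.smul_apply, smul_eq_mul] at h9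
          exact mul_ne3 _ _ hc h1 h9
        · simpa [h2 q hq] using h6 q (hq.trans h7)

def prE (W0 : Nat) (fb : Nat → Nat → Bool → Bool) (k : Tb → Bool) (t : Tb) (key a b g : Nat) :
    Bool :=
  Bool.rec (motive := fun _ => Bool) (k ((path key).s t a b)) (fb a b (k t)) (Nat.ble W0 g)

/-- reduce a row and insert it -/
def proc (L : Lp) (W0 : Nat) (fb : Nat → Nat → Bool → Bool) (k : Tb → Bool) (t : Tb) (x : P) :
    Bool := L.f t (prE W0 fb k t) (k t) x.a x.b

theorem sup_span_congr {S : Sub} {v v' : V} (h : v' - v ∈ S) :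
    S ⊔ Submodule.span _ {v'} = S ⊔ Submodule.span _ {v} := by
  have key : ∀ {v v' : V}, v' - v ∈ S → S ⊔ Submodule.span _ {v'} ≤ S ⊔ Submodule.span _ {v} := by
    intro v v' h
    refine sup_le le_sup_left ((Submodule.span_singleton_le_iff_mem _ _).2 ?_)
    rw [← sub_add_cancel v' v]
    exact Submodule.add_mem_sup h (Submodule.mem_span_singleton_self v)
  exact le_antisymm (key h) (key (by simpa using S.neg_mem h))

theorem proc_spec {N O n : ℕ} (hON : O ≤ N) {SB S : Sub} {fb : ℕ → ℕ → Bool → Bool}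
    (hfb : ∀ a b c v, Rp a b v → fb a b c = true → c = true ∧ v ∈ SB) {t : Tb} (hI : Inv O SB t S)
    {x : P} {v : V} (h : x.R v) {k : Tb → Bool}
    (hr : proc (lp (2 ^ N) n) (2 ^ O) fb k t x = true) :
    ∃ t', Inv O SB t' (S ⊔ Submodule.span _ {v}) ∧ k t' = true := by
  rcases lp_spec hI.rows h hr with ⟨h1, h2⟩ | ⟨a, b, v', p, key, h1, h2, h3, h4, h5, h6, h7, h8⟩
  · refine ⟨t, ?_, h1⟩
    rwa [sup_eq_left.2 ((Submodule.span_singleton_le_iff_mem _ _).2 h2)]
  · rw [← sup_span_congr h2]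
    rw [prE] at h8
    cases h9 : Nat.ble (2 ^ O) (2 ^ p) with
    | true =>
      rw [h9] at h8
      have h10 := (Nat.pow_le_pow_iff_right Nat.one_lt_two).1 (Nat.le_of_ble_eq_true h9)
      exact ⟨t, hI.low' (fun q hq => h4 q (by omega)) (hfb a b _ v' h1 h8).2, (hfb a b _ v' h1 h8).1⟩
    | false =>
      rw [h9] at h8
      have h10 : p < O := not_le.1 fun h11 => by
        rw [Nat.ble_eq_true_of_le (Nat.pow_le_pow_right Nat.two_pos h11)] at h9
        exact Bool.noConfusion h9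
      have h11 : v' ∈ S ⊔ Submodule.span (ZMod 3) {v'} :=
        Submodule.mem_sup_right (Submodule.mem_span_singleton_self v')
      refine ⟨_, ?_, h8⟩
      rcases path_s key t a b with h12 | h12 <;> rw [h12]
      · exact hI.ins h10 (h5 (by omega)) h4 h6 h7 (rp_neg h1) (Submodule.neg_mem _ h11)
      · exact hI.ins h10 (h5 (by omega)) h4 h6 h7 h1 h11

/-- lists of rows -/
inductive PL : Type
  | nil : PL
  | cons : P → PL → PL

/-- membership -/
def PL.Mem (x : P) : PL → Prop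
  | .nil => False
  | .cons y l => x = y ∨ PL.Mem x l

/-- reduce and insert all rows of a list -/
def procL (L : Lp) (W0 : Nat) (fb : Nat → Nat → Bool → Bool) (k : Tb → Bool) (l : PL) :
    Tb → Bool :=
  PL.rec (motive := fun _ => Tb → Bool) k (fun x _ ih t => proc L W0 fb ih t x) l

theorem procL_spec {N O n : ℕ} (hON : O ≤ N) {SB S₁ : Sub} {fb : ℕ → ℕ → Bool → Bool}
    (hfb : ∀ a b c v, Rp a b v → fb a b c = true → c = true ∧ v ∈ SB) {k : Tb → Bool} {l : PL}
    (hl : ∀ x, l.Mem x → ∃ v ∈ S₁, x.R v) {t : Tb} {S : Sub} (hI : Inv O SB t S) (hS : S ≤ S₁)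
    (hr : procL (lp (2 ^ N) n) (2 ^ O) fb k l t = true) :
    ∃ t' S', Inv O SB t' S' ∧ S ≤ S' ∧ S' ≤ S₁ ∧ (∀ x v, l.Mem x → x.R v → v ∈ S') ∧
      k t' = true := by
  induction l generalizing t S with
  | nil => exact ⟨t, S, hI, le_rfl, hS, fun _ _ h => h.elim, hr⟩
  | cons x l ih =>
    obtain ⟨v, hv, hx⟩ := hl x (Or.inl rfl)
    obtain ⟨t', h1, h2⟩ := proc_spec hON hfb hI hx hr
    obtain ⟨t'', S', h3, h4, h5, h6, h7⟩ := ih (fun y hy => hl y (Or.inr hy)) h1
      (sup_le hS ((Submodule.span_singleton_le_iff_mem _ _).2 hv)) h2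
    refine ⟨t'', S', h3, le_sup_left.trans h4, h5, fun y w hy hw => ?_, h7⟩
    rcases hy with rfl | hy
    · rw [rp_unique hw hx]
      exact h4 (Submodule.mem_sup_right (Submodule.mem_span_singleton_self v))
    · exact h6 y w hy hw

def noE (_ _ _ _ : Nat) : Bool := false
def noF (_ _ : Nat) (_ : Bool) : Bool := false

/-- reduction to zero -/
def redZ (L : Lp) (t : Tb) (a b : Nat) (c : Bool) : Bool := L.f t noE c a b

theorem redZ_spec {N n : ℕ} {t : Tb} {S : Sub} (ht : RowsIn t S) (a b : ℕ) (c : Bool) (v : V)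
    (h : Rp a b v) (hr : redZ (lp (2 ^ N) n) t a b c = true) : c = true ∧ v ∈ S :=
  (lp_spec ht h hr).resolve_right fun ⟨_, _, _, _, _, _, _, _, _, _, _, _, h⟩ => Bool.noConfusion h

def ltE (W0 : Nat) (c : Bool) (_ _ _ g : Nat) : Bool :=
  Bool.rec (motive := fun _ => Bool) c false (Nat.ble W0 g)

/-- reduction to a new pivot -/
def redN (L : Lp) (W0 : Nat) (t : Tb) (a b : Nat) (c : Bool) : Bool := L.f t (ltE W0 c) false a b

theorem redN_spec {N O n : ℕ} (hON : O ≤ N) {t : Tb} {SB S : Sub} (hI : Inv O SB t S) {a b : ℕ}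
    {c : Bool} {v : V} (h : Rp a b v) (hr : redN (lp (2 ^ N) n) (2 ^ O) t a b c = true) :
    c = true ∧ v ∉ S := by
  rcases lp_spec hI.rows h hr with ⟨h1, -⟩ | ⟨a, b, v', p, key, h1, h2, h3, h4, h5, h6, h7, h8⟩
  · exact Bool.noConfusion h1
  · rw [ltE] at h8
    cases h9 : Nat.ble (2 ^ O) (2 ^ p) with
    | true => rw [h9] at h8; exact Bool.noConfusion h8
    | false =>
      rw [h9] at h8
      have h10 : p < O := not_le.1 fun h11 => by
        rw [Nat.ble_eq_true_of_le (Nat.pow_le_pow_right Nat.two_pos h11)] at h9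
        exact Bool.noConfusion h9
      refine ⟨h8, fun hv => hI.occ v' (by simpa using S.add_mem h2 hv) p h10 (h5 (by omega)) h4 ?_⟩
      rw [← h6, gt_mod, h7]

end Vale.Agent.P236K3

end
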