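import Vale.Agent.P236K3.Yl
import Vale.Agent.P236K3.Elim
import Mathlib.Algebra.Module.ZMod

/-!
# P236K3 / Bas : enumeration of monomial bases, window masks, steps of a complex
-/

noncomputable section

namespace Vale.Agent.P236K3

open MvPolynomial Vale.Agent.P236EL Vale.Agent.P236KE Vale.Agent.P236K2

/-- loops -/
def loop {α : Type} (g : Nat → α → α) (n : Nat) (a : α) : α :=
  Nat.rec (motive := fun _ => α) a g n

theorem loop_ind {α : Type} {Q : α → Prop} {g : ℕ → α → α} {n : ℕ} {a : α} (h : Q a)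
    (hg : ∀ j < n, ∀ b, Q b → Q (g j b)) : Q (loop g n a) := by
  induction n with
  | zero => exact h
  | succ n ih => exact hg n n.lt_succ_self _ (ih fun j hj => hg j (hj.trans n.lt_succ_self))

theorem loop_cov {α : Type} {Q : α → Prop} {g : ℕ → α → α} {n j : ℕ} (a : α) (hj : j < n)
    (h : ∀ b, Q (g j b)) (hg : ∀ j b, Q b → Q (g j b)) : Q (loop g n a) := by
  induction hj with
  | refl => exact h _
  | step _ ih => exact hg _ _ ih

section enum

variable {α : Type}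

def en6 (f : Nat → Nat → Nat → Nat → α → α) (l i e4 e3 : Nat) (a : α) (e2 : Nat) : α :=
  Bool.rec (motive := fun _ => α) a (f i e2 e3 e4 a) (Nat.ble (Nat.add (Nat.add e2 e3) e4) l)
def en5 (f : Nat → Nat → Nat → Nat → α → α) (l i e4 m e3 : Nat) (a : α) : α :=
  force (Nat.sub m (Nat.mul (nat_lit 4) e3)) (en6 f l i e4 e3 a)
def en4 (f : Nat → Nat → Nat → Nat → α → α) (l i e4 : Nat) (a : α) (m : Nat) : α :=
  loop (en5 f l i e4 m) (Nat.succ (Nat.div m (nat_lit 4))) a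
def en3 (f : Nat → Nat → Nat → Nat → α → α) (l i m e4 : Nat) (a : α) : α :=
  force (Nat.sub m (Nat.mul (nat_lit 13) e4)) (en4 f l i e4 a)
def en2 (f : Nat → Nat → Nat → Nat → α → α) (l i : Nat) (a : α) (m : Nat) : α :=
  loop (en3 f l i m) (Nat.succ (Nat.div m (nat_lit 13))) a
def en1 (f : Nat → Nat → Nat → Nat → α → α) (l T i : Nat) (a : α) (d : Nat) : α :=
  Bool.rec (motive := fun _ => α) a
    (Bool.rec (motive := fun _ => α) a (force (Nat.div (Nat.sub T d) (nat_lit 3)) (en2 f l i a))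
      (Nat.ble d T)) (Nat.beq (Nat.mod d (nat_lit 3)) (Nat.mod T (nat_lit 3)))
def en0 (f : Nat → Nat → Nat → Nat → α → α) (L : LD) (l T i : Nat) (a : α) : α :=
  force (Nat.add (L.dg i) l) (en1 f l T i a)
/-- a loop over the monomials of length `l` and total degree `T` -/
def enum (f : Nat → Nat → Nat → Nat → α → α) (L : LD) (T l : Nat) (a : α) : α :=
  loop (en0 f L l T) L.n a

/-- admissible exponents -/
def Adm (L : LD) (T l i e2 e3 e4 : ℕ) : Prop :=
  i < L.n ∧ e2 + e3 + e4 ≤ l ∧ l + 3 * e2 + 12 * e3 + 39 * e4 + L.dg i = T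

variable {f : ℕ → ℕ → ℕ → ℕ → α → α} {L : LD} {T l : ℕ} {Q : α → Prop}

theorem bool_ind {a b : α} {c : Bool} (h : Q a) (h' : c = true → Q b) :
    Q (Bool.rec (motive := fun _ => α) a b c) := by
  cases c
  · exact h
  · exact h' rfl

theorem bool_true {a b : α} {c : Bool} (hc : c = true) (h : Q b) :
    Q (Bool.rec (motive := fun _ => α) a b c) := by
  subst hc
  exact h

theorem enum_ind {a : α} (h : Q a)
    (hf : ∀ i e2 e3 e4 b, Adm L T l i e2 e3 e4 → Q b → Q (f i e2 e3 e4 b)) :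
    Q (enum f L T l a) :=
  loop_ind h fun i hi _ hb => bool_ind hb fun h1 => bool_ind hb fun h2 =>
    loop_ind (g := en3 f l i ((T - (L.dg i + l)) / 3)) (n := (T - (L.dg i + l)) / 3 / 13 + 1) hb
      fun e4 h4 _ hb => loop_ind (g := en5 f l i e4 ((T - (L.dg i + l)) / 3 - 13 * e4))
      (n := ((T - (L.dg i + l)) / 3 - 13 * e4) / 4 + 1) hb
      fun e3 h3 b hb => bool_ind hb fun h5 => hf _ _ _ _ b (by
        have h6 := Nat.eq_of_beq_eq_true h1
        have h7 := Nat.le_of_ble_eq_true h2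
        have h8 := Nat.le_of_ble_eq_true h5
        change (L.dg i + l) % 3 = T % 3 at h6
        change L.dg i + l ≤ T at h7
        refine ⟨hi, h8, ?_⟩
        change l + 3 * ((T - (L.dg i + l)) / 3 - 13 * e4 - 4 * e3) + _ + _ + _ = _
        omega) hb

theorem enum_cov (a : α) {i e2 e3 e4 : ℕ} (h : Adm L T l i e2 e3 e4)
    (h' : ∀ b, Q (f i e2 e3 e4 b)) (hf : ∀ i e2 e3 e4 b, Q b → Q (f i e2 e3 e4 b)) :
    Q (enum f L T l a) := by
  obtain ⟨h1, h2, h3⟩ := h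
  have m5 : ∀ i e4 m e3 b, Q b → Q (en5 f l i e4 m e3 b) := fun _ _ _ _ _ hb =>
    bool_ind hb fun _ => hf _ _ _ _ _ hb
  have m3 : ∀ i m e4 b, Q b → Q (en3 f l i m e4 b) := fun i m e4 _ hb =>
    loop_ind (g := en5 f l i e4 (m - 13 * e4)) (n := (m - 13 * e4) / 4 + 1) hb
      fun _ _ _ => m5 _ _ _ _ _
  refine loop_cov a h1 (fun b => ?_) fun i _ hb => bool_ind hb fun _ => bool_ind hb fun _ =>
    loop_ind (g := en3 f l i ((T - (L.dg i + l)) / 3)) (n := (T - (L.dg i + l)) / 3 / 13 + 1) hb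
      fun _ _ _ => m3 _ _ _ _
  refine bool_true (Nat.beq_eq ▸ (show (L.dg i + l) % 3 = T % 3 by omega))
    (bool_true (Nat.ble_eq_true_of_le (show L.dg i + l ≤ T by omega)) ?_)
  refine loop_cov (j := e4) b (show e4 < (T - (L.dg i + l)) / 3 / 13 + 1 by omega) (fun b => ?_)
    (m3 _ _)
  refine loop_cov (j := e3) b (show e3 < ((T - (L.dg i + l)) / 3 - 13 * e4) / 4 + 1 by omega)
    (fun b => ?_) (m5 _ _ _)
  change Q (en6 f l i e4 e3 b ((T - (L.dg i + l)) / 3 - 13 * e4 - 4 * e3))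
  rw [show (T - (L.dg i + l)) / 3 - 13 * e4 - 4 * e3 = e2 by omega]
  exact bool_true (Nat.ble_eq_true_of_le h2) (h' b)

end enum

def wm2 (L : LD) (ih r : Nat) : Nat := Nat.lor ih (L.cm r)
def wm1 (L : LD) (T a j ih : Nat) : Nat :=
  force (Nat.mod (Nat.add T (Nat.mul (nat_lit 2) (Nat.add a j))) (nat_lit 3)) (wm2 L ih)
/-- the mask of the lengths from `a` to `b - 1` -/
def wm (L : LD) (T a b : Nat) : Nat := loop (wm1 L T a) (Nat.sub b a) (nat_lit 0)

theorem wm_bit (L : LD) (T a n p : ℕ) : (loop (wm1 L T a) n 0).testBit p = true ↔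
    ∃ j < n, (L.cm ((T + 2 * (a + j)) % 3)).testBit p = true := by
  induction n with
  | zero => simp [loop]
  | succ n ih =>
    change (loop (wm1 L T a) n 0 ||| L.cm ((T + 2 * (a + n)) % 3)).testBit p = true ↔ _
    rw [Nat.testBit_or, Bool.or_eq_true, ih, Nat.exists_lt_succ_right]

variable {G G' : Type} [Fintype G] [Fintype G'] {L L' : LD} {ix : G → ℕ} {ix' : G' → ℕ}
  {T a b c d : ℕ} {u : G → A}

theorem mk_wm (hL : L.Ok ix) (hT : T ≤ L.T) (hu : Hm L ix T u) (hc : c ≤ a) (hb : b ≤ d)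
    (hd : d ≤ c + 3) : mk (wm L T a b) (cr L ix (win c d) u) = cr L ix (win a b) u :=
  mk_cr hL hT hu (M := fun r => ∃ j < b - a, r = (T + 2 * (a + j)) % 3)
    (fun i hi j hj => (wm_bit L T a (b - a) _).trans (exists_congr fun k => and_congr_right fun _ =>
      by rw [hL.msk i hi j hj, decide_eq_true_iff, Nat.mod_mod]))
    fun j r h1 h2 => ⟨fun h => ⟨⟨hc.trans h.1, h.2.trans_le hb⟩, j - a, by
      have := h.1; have := h.2; omega⟩, fun ⟨h3, k, h4, h5⟩ => by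
        have h6 : j % 3 = (a + k) % 3 := by omega
        have h7 : a + k < b := by omega
        have h8 := h3.1
        have h9 := h3.2
        clear h1 h4 h5
        constructor <;> omega⟩

variable (L ix T a) in
/-- homogeneous vectors of filtration `a` -/
def HZ : Submodule K (G → A) where
  carrier := {u | Hm L ix T u ∧ u ∈ ZA G (I ^ a)}
  zero_mem' := ⟨fun _ _ h => absurd rfl h, zero_mem _⟩
  add_mem' {u v} hu hv := ⟨fun w J h => by
    by_cases h1 : coeff J (u w) = 0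
    · exact hv.1 w J fun h2 => h (by rw [Pi.add_apply, coeff_add, h1, h2, add_zero])
    · exact hu.1 w J h1, add_mem hu.2 hv.2⟩
  smul_mem' c u hu := ⟨fun w J h => hu.1 w J fun h1 => h (by
    rw [Pi.smul_apply, coeff_smul, h1, smul_zero]), fun w => by
    rw [Pi.smul_apply, smul_eq_C_mul]
    exact Ideal.mul_mem_left _ _ (hu.2 w)⟩

open Classical in
/-- basis vectors -/
def bv (w : G) (J : ℕ →₀ ℕ) : G → A := Pi.single w (monomial J 1)

omit [Fintype G] in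
theorem bv_coeff {w w' : G} {J J' : ℕ →₀ ℕ} (h : coeff J' (bv w J w') ≠ 0) : w' = w ∧ J' = J := by
  classical
  rw [bv] at h
  by_cases h1 : w' = w
  · subst h1
    rw [Pi.single_eq_same, coeff_monomial] at h
    exact ⟨rfl, by_contra fun h2 => h (if_neg (Ne.symm h2))⟩
  · rw [Pi.single_eq_of_ne h1] at h
    exact absurd rfl h

omit [Fintype G] in
theorem bv_mem {w : G} {J : ℕ →₀ ℕ} (h : wtM J + L.dg (ix w) = T) (h' : a ≤ lenM J) :
    bv w J ∈ HZ L ix T a :=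
  ⟨fun _ _ h1 => by obtain ⟨rfl, rfl⟩ := bv_coeff h1; exact h,
    fun _ => mem_I_pow.2 fun _ h1 => by obtain ⟨rfl, rfl⟩ := bv_coeff h1; exact h'⟩

theorem cr_bv {S : ℕ → Prop} (w : G) {J : ℕ →₀ ℕ} (h : S (lenM J)) :
    cr L ix S (bv w J) = Pi.single (L.pos (ix w) + pl J) 1 := by
  classical
  rw [bv, cr_single, crm_monomial, if_pos h]

theorem HZ_ind (hL : L.Ok ix) (hT : T ≤ L.T) {M : Type} [AddCommGroup M] [Module K M]
    {S : Submodule K M} {f : (G → A) →ₗ[K] M}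
    (h : ∀ w l e2 e3 e4, a ≤ l → Adm L T l (ix w) e2 e3 e4 →
      f (bv w (mk4 (l - (e2 + e3 + e4)) e2 e3 e4)) ∈ S) (hu : u ∈ HZ L ix T a) : f u ∈ S := by
  classical
  rw [← Finset.univ_sum_single u, map_sum]
  refine S.sum_mem fun w _ => ?_
  rw [(u w).as_sum, ← LinearMap.coe_single K (fun _ => A), map_sum, map_sum]
  refine S.sum_mem fun J hJ => ?_
  have h1 := hu.1 w J (mem_support_iff.1 hJ)
  have h2 := hL.hT
  have h3 := wt_len (J := J) (by omega)
  have h4 := h w (lenM J) (J 1) (J 2) (J 3) (mem_I_pow.1 (hu.2 w) J (mem_support_iff.1 hJ))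
    ⟨hL.lt w, by omega, by omega⟩
  rw [show lenM J - (J 1 + J 2 + J 3) = J 0 by omega, ← eq_mk4 (show wtM J < 121 by omega)] at h4
  have h5 := S.smul_mem (coeff J (u w)) h4
  rw [← map_smul, bv, ← Pi.single_smul, smul_monomial, smul_eq_mul, mul_one] at h5
  exact h5

theorem Adm.wt {l i e2 e3 e4 : ℕ} (h : Adm L T l i e2 e3 e4) :
    wtM (mk4 (l - (e2 + e3 + e4)) e2 e3 e4) + L.dg i = T ∧
      lenM (mk4 (l - (e2 + e3 + e4)) e2 e3 e4) = l ∧
      pl (mk4 (l - (e2 + e3 + e4)) e2 e3 e4) = 3 * e3 + e4 := by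
  obtain ⟨-, h1, h2⟩ := h
  rw [wtM, weight_wt_mk4, lenM, weight_mk4, pl, mk4_2, mk4_3]
  omega

variable [Fact (Nat.Prime 3)]

/-- the twisted differential -/
def dly (y : G → G' → (ℕ →₀ ℕ) → A) (g : Γ) : (G → A) →ₗ[K] (G' → A) :=
  AddMonoidHom.toZModLinearMap 3 (AddMonoidHom.mk' (fun u => ∑ w, Z (y w) (g * etaR 3 K (u w)))
    fun u v => by simp only [Pi.add_apply, map_add, mul_add, Finset.sum_add_distrib])

variable {y : G → G' → (ℕ →₀ ℕ) → A}

omit [Fintype G'] in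
theorem dly_apply (g : Γ) (u : G → A) : dly y g u = ∑ w, Z (y w) (g * etaR 3 K (u w)) := rfl

omit [Fintype G'] in
theorem dly_bv (g : Γ) (w : G) (J : ℕ →₀ ℕ) :
    dly y g (bv w J) = Z (y w) (g * etaR 3 K (monomial J 1)) := by
  classical
  rw [dly_apply, Finset.sum_eq_single w, bv, Pi.single_eq_same]
  · intro w' _ h
    rw [bv, Pi.single_eq_of_ne h, map_zero, mul_zero, map_zero]
  · exact fun h => absurd (Finset.mem_univ w) h

omit [Fintype G'] in
theorem dly_ZA (g : Γ) (hu : u ∈ ZA G (I ^ a)) : dly y g u ∈ ZA G' (I ^ a) :=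
  AddSubgroup.sum_mem _ fun w _ => Z_mem (Ideal.mul_mem_left _ _
    (Ideal.map_pow (C : A →+* Γ) I a ▸ inv_II.pow a (Ideal.mem_map_of_mem _ (hu w))))

omit [Fintype G'] in
theorem dly_HZ (hy : ∀ w w', HomR 3 ((L.dg (ix w) : ℤ) - L'.dg (ix' w')) (y w w')) {g : Γ} {m : ℕ}
    (hg : Hg m g) (hu : u ∈ HZ L ix T a) : dly y g u ∈ HZ L' ix' (T + m) a := by
  refine ⟨(hm_iff (o := 0) fun w => (add_zero _).symm).2 fun w' => ?_, dly_ZA g hu.2⟩
  rw [dly_apply, Finset.sum_apply]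
  refine AddSubgroup.sum_mem _ fun w _ => ?_
  have h := grPt_id.rAp (hy w w') (SetLike.mul_mem_graded hg
    (grPt_id.etax _ _ ((hm_iff (o := 0) fun w => (add_zero _).symm).1 hu.1 w)))
  rwa [show (m : ℤ) + (T + 0 - L.dg (ix w)) + (L.dg (ix w) - L'.dg (ix' w')) =
    (T + m : ℕ) + 0 - L'.dg (ix' w') by omega] at h

/-- sources of rows -/
structure Rw : Type where
  f : Nat → Nat → Nat → Nat → Nat → P

/-- a step of a complex with its rows -/
structure St (y : G → G' → (ℕ →₀ ℕ) → A) (L : LD) (ix : G → ℕ) (L' : LD) (ix' : G' → ℕ)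
    (s3 s4 : ℕ) (r : Rw) : Prop where
  ok : L.Ok ix
  ok' : L'.Ok ix'
  hy : ∀ w w', HomR 3 ((L.dg (ix w) : ℤ) - L'.dg (ix' w')) (y w w')
  row : ∀ F w e1 e2 e3 e4, wtM F + (e1 + 4 * e2 + 13 * e3 + 40 * e4) + L.dg (ix w) ≤ L'.T →
    (r.f (cd s3 s4 F) (ix w) e2 e3 e4).R (ps L' ix' (y w) (e1 + e2 + e3 + e4)
      (monomial F 1 * etaR 3 K (monomial (mk4 e1 e2 e3 e4) 1)))

variable {s3 s4 : ℕ} {r : Rw}

theorem St.msk (h : St y L ix L' ix' s3 s4 r) {F : ℕ →₀ ℕ} (hT : T + wtM F ≤ L'.T) {w : G}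
    {l e2 e3 e4 : ℕ} (ha : Adm L T l (ix w) e2 e3 e4) (hb : b ≤ l + 3) (hl : a ≤ l) :
    ((r.f (cd s3 s4 F) (ix w) e2 e3 e4).and (wm L' (T + wtM F) l b)).R
      (cr L' ix' (win a b) (dly y (monomial F 1) (bv w (mk4 (l - (e2 + e3 + e4)) e2 e3 e4)))) := by
  have h1 := dly_HZ h.hy (hg_mon F) (bv_mem ha.wt.1 ha.wt.2.1.ge)
  obtain ⟨-, h2, h3⟩ := ha
  have h4 := (h.row F w (l - (e2 + e3 + e4)) e2 e3 e4 (by omega)).and (wm L' (T + wtM F) l b)
  rw [ps_apply, ← dly_bv, show l - (e2 + e3 + e4) + e2 + e3 + e4 = l by omega,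
    mk_wm h.ok' hT h1.1 le_rfl hb le_rfl] at h4
  rwa [cr_congr_I h1.2 (S' := win l b) fun j hj => by simp only [win]; omega]

def rwS1 (k : Nat) (D : DLL) (L' : LD) (c i e2 e3 e4 d : Nat) : P :=
  row1 k (ylF D L' d i) L'.cm d c e2 e3 e4
def rwS0 (k : Nat) (D : DLL) (dl : Nat) (L' : LD) (c i e2 e3 e4 : Nat) : P :=
  force (byte dl i) (rwS1 k D L' c i e2 e3 e4)
/-- the rows of tabulated functionals -/
def rwS (k : Nat) (D : DLL) (dl : Nat) (L' : LD) : Rw := ⟨rwS0 k D dl L'⟩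

omit [Fact (Nat.Prime 3)] in
theorem rwS_f (k : ℕ) (D : DLL) (dl : ℕ) (L' : LD) (c i e2 e3 e4 : ℕ) :
    (rwS k D dl L').f c i e2 e3 e4 =
      row1 k (ylF D L' (byte dl i) i) L'.cm (byte dl i) c e2 e3 e4 := by
  change rwS0 k D dl L' c i e2 e3 e4 = _
  rw [rwS0, force_eq, rwS1]

omit [Fintype G] in
theorem st_yOf (hL : L.Ok ix) (hL' : L'.Ok ix') (D : DLL) {dl du : ℕ} (hd : L.dg = byte dl)
    (hd' : L'.dg = byte du) (s3 s4 : ℕ) :
    St (fun w w' => yOf K D dl du s3 s4 (ix w) (ix' w')) L ix L' ix' s3 s4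
      (rwS ((13 + 384 * s3) * 3) D dl L') := by
  refine ⟨hL, hL', fun w w' => by rw [hd, hd']; exact homR_yOf _ _ _ _ _ _ _,
    fun F w e1 e2 e3 e4 h => ?_⟩
  rw [hd] at h
  rw [rwS_f]
  exact row1_spec hL' (fun w' => by rw [hd']; exact homR_yOf _ _ _ _ _ _ _)
    (ylF_spec hL' D hd' s3 s4 (ix w)) F e1 e2 e3 e4 h

end Vale.Agent.P236K3

end
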