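import Vale.Agent.P236K3.VR
import Vale.Agent.P236EL.Bc

/-!
# P236K3 / Bk1 : vectors and coordinates modulo nine
-/

noncomputable section

namespace Vale.Agent.P236K3

open MvPolynomial Vale.Agent.P236EL Vale.Agent.P236KE Vale.Agent.P236K2

/-- integers modulo nine -/
abbrev K9 : Type := ZMod 9
/-- the coefficient ring modulo nine -/
abbrev A9 : Type := AA K9
/-- vectors modulo nine -/
abbrev V9 : Type := ℕ → K9
/-- the reduction -/
abbrev ψ9 : K9 →+* K := ZMod.castHom (show 3 ∣ 9 by decide) (ZMod 3)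

/-- the second digit -/
def hi (c : K9) : K := ((c.val + 1) / 3 : ℕ)

/-- carries -/
def cy (c d : K) : K := if c = d then c else 0

theorem hi_add : ∀ c d : K9, hi (c + d) = hi c + hi d + cy (ψ9 c) (ψ9 d) := by decide
theorem hi_mul : ∀ c d : K9, hi (c * d) = ψ9 c * hi d + hi c * ψ9 d := by decide
theorem hi_three : ∀ c : K9, ψ9 (3 • c) = 0 ∧ hi (3 • c) = ψ9 c := by decide

theorem hi_zero : hi 0 = 0 := by decide

theorem hi_nat (c : ℕ) : hi c = ((c + 1) / 3 : ℕ) := by
  rw [hi, ZMod.val_natCast]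
  exact (ZMod.natCast_eq_natCast_iff' _ _ 3).2 (by omega)

/-- pairs of digit vectors -/
structure P9 : Type where
  l : P
  h : P

namespace P9

/-- the pair represents the vector -/
structure R (x : P9) (v : V9) : Prop where
  l : x.l.R fun p => ψ9 (v p)
  h : x.h.R fun p => hi (v p)

def add (x y : P9) : P9 :=
  ⟨P.add x.l y.l, P.add (P.add x.h y.h) ⟨Nat.land x.l.a y.l.a, Nat.land x.l.b y.l.b⟩⟩
def zero : P9 := ⟨P.zero, P.zero⟩
def shl (x : P9) (s : Nat) : P9 := ⟨P.shl x.l s, P.shl x.h s⟩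
def sm (c : Nat) (x : P9) : P9 :=
  ⟨P.sm c x.l, P.add (P.sm c x.h) (P.sm (Nat.div (Nat.succ c) (nat_lit 3)) x.l)⟩
def thr (x : P) : P9 := ⟨P.zero, x⟩

end P9

/-- shifts -/
def sh9 (s : ℕ) : V9 →ₗ[K9] V9 where
  toFun v p := if s ≤ p then v (p - s) else 0
  map_add' v w := by funext p; by_cases h : s ≤ p <;> simp [h]
  map_smul' c v := by funext p; by_cases h : s ≤ p <;> simp [h]

theorem sh9_apply (s : ℕ) (v : V9) (p : ℕ) : sh9 s v p = if s ≤ p then v (p - s) else 0 := rfl

theorem sh9_single (s p : ℕ) (c : K9) : sh9 s (Pi.single p c) = Pi.single (p + s) c := by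
  funext q
  rw [sh9_apply]
  split_ifs with h
  · by_cases hq : q = p + s
    · rw [hq, Nat.add_sub_cancel, Pi.single_eq_same, Pi.single_eq_same]
    · rw [Pi.single_eq_of_ne hq, Pi.single_eq_of_ne (by omega)]
  · rw [Pi.single_eq_of_ne (by omega)]

theorem sh9_zero (v : V9) : sh9 0 v = v := funext fun p => by simp [sh9_apply]

theorem rp_cy {a b x y : ℕ} {v w : V} (h : Rp a b v) (h' : Rp x y w) :
    Rp (Nat.land a x) (Nat.land b y) fun p => cy (v p) (w p) := fun p => by
  change (a &&& x).testBit p = is1 (cy _ _) ∧ (b &&& y).testBit p = is2 (cy _ _)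
  simp only [Nat.testBit_and, (h p).1, (h p).2, (h' p).1, (h' p).2]
  generalize v p = c
  generalize w p = d
  revert c d
  decide

namespace P9

variable {x y : P9} {v w : V9}

theorem R.add (h : x.R v) (h' : y.R w) : (x.add y).R (v + w) :=
  ⟨(congrArg _ (funext fun _ => (map_add ψ9 _ _).symm)).mp (h.l.add h'.l),
    (congrArg _ (funext fun _ => (hi_add _ _).symm)).mp ((h.h.add h'.h).add (rp_cy h.l h'.l))⟩

theorem R_zero : zero.R 0 :=
  ⟨P.R_zero, (congrArg _ (_root_.funext fun _ => hi_zero.symm)).mp P.R_zero⟩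

theorem R.shl (h : x.R v) (s : ℕ) : (x.shl s).R (sh9 s v) :=
  ⟨(congrArg _ (_root_.funext fun _ => by rw [sh9_apply, apply_ite ψ9, map_zero, sh_apply])).mp
    (h.l.shl s), (congrArg _ (_root_.funext fun _ => by
      rw [sh9_apply, apply_ite hi, hi_zero, sh_apply])).mp (h.h.shl s)⟩

theorem R.sm (c : ℕ) (h : (c : K9) ≠ 0 → x.R v) : (sm c x).R ((c : K9) • v) := by
  have h1 : (c : K) ≠ 0 → x.R v := fun h1 => h fun h2 => h1 (by
    rw [← map_natCast ψ9, h2, map_zero])
  have h2 : (((c + 1) / 3 : ℕ) : K) ≠ 0 → x.R v := fun h2 => h fun h3 => h2 (by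
    rw [← hi_nat, h3, hi_zero])
  refine ⟨(congrArg _ (funext fun p => ?_)).mp (P.R.sm c fun h => (h1 h).l),
    (congrArg _ (funext fun p => ?_)).mp
      ((P.R.sm c fun h => (h1 h).h).add (P.R.sm _ fun h => (h2 h).l))⟩
  · rw [Pi.smul_apply, Pi.smul_apply, smul_eq_mul, smul_eq_mul, map_mul, map_natCast]
  · rw [Pi.smul_apply, smul_eq_mul, hi_mul, map_natCast, hi_nat]
    rfl

theorem R.thr {z : P} (h : z.R fun p => ψ9 (v p)) : (thr z).R (3 • v) :=
  ⟨(congrArg _ (funext fun _ => (hi_three _).1.symm)).mp P.R_zero,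
    (congrArg _ (funext fun _ => (hi_three _).2.symm)).mp h⟩

theorem R.of_thr (h : x.R (3 • v)) : x.h.R fun p => ψ9 (v p) :=
  (congrArg _ (funext fun _ => (hi_three _).2)).mp h.h

end P9

/-- the ideal of the variables -/
abbrev VV : Ideal A9 := P236EL.JJ K9 0 fun _ : ℕ => 1

theorem mem_VV {n : ℕ} {a : A9} : a ∈ VV ^ n ↔ ∀ J, lenM J < n → coeff J a = 0 :=
  (mem_JJ_pow fun _ => le_rfl).trans (forall_congr' fun J => by
    rcases lt_or_ge (lenM J) n with h | h
    · rw [Nat.cast_zero, zero_pow (Nat.sub_ne_zero_of_lt h), zero_dvd_iff, imp_iff_right h]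
    · rw [Nat.sub_eq_zero_of_le h, pow_zero]
      exact iff_of_true (one_dvd _) fun h1 => absurd h1 h.not_gt)

theorem II_le_VV (n : ℕ) : II 3 K9 ^ (n + 1) ≤ VV ^ n := fun a ha => mem_VV.2 fun J hJ => by
  obtain ⟨c, hc⟩ := pow_dvd_coeff _ a ha J
  rw [hc, show n + 1 - lenM J = n - 1 - lenM J + 2 by omega, pow_add,
    show (3 : K9) ^ 2 = 0 from rfl, mul_zero, zero_mul]

/-- coordinates of a polynomial below a length -/
def cm9 (n o : ℕ) : A9 →ₗ[K9] V9 :=
  (basisMonomials ℕ K9).constr K9 fun J => if lenM J < n then Pi.single (o + pl J) 1 else 0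

theorem cm9_monomial (n o : ℕ) (J : ℕ →₀ ℕ) (c : K9) :
    cm9 n o (monomial J c) = if lenM J < n then Pi.single (o + pl J) c else 0 := by
  have h : (monomial J c : A9) = c • basisMonomials ℕ K9 J := by
    rw [coe_basisMonomials, smul_monomial, smul_eq_mul, mul_one]
  rw [h, map_smul, cm9, Module.Basis.constr_basis]
  split_ifs
  · rw [← Pi.single_smul, smul_eq_mul, mul_one]
  · exact smul_zero _

theorem cm9_eq_zero {n : ℕ} (o : ℕ) {a : A9} (h : a ∈ VV ^ n) : cm9 n o a = 0 := by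
  rw [a.as_sum, map_sum]
  exact Finset.sum_eq_zero fun J hJ => by
    rw [cm9_monomial, if_neg fun h1 => mem_support_iff.1 hJ (mem_VV.1 h J h1)]

theorem cm9_mul (n o i : ℕ) (a : A9) :
    cm9 (n + 1) o (X i * a) = sh9 (pl (Finsupp.single i 1)) (cm9 n o a) := by
  induction a using MvPolynomial.induction_on' with
  | monomial J c =>
    rw [X, monomial_mul, one_mul, cm9_monomial, cm9_monomial, lenM, map_add, pl_add,
      Finsupp.weight_single, smul_eq_mul, mul_one, add_comm 1]
    by_cases h : lenM J < n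
    · rw [if_pos h, if_pos (Nat.succ_lt_succ h), sh9_single, add_comm (pl _), add_assoc]
    · rw [if_neg h, if_neg fun h1 => h (Nat.lt_of_succ_lt_succ h1), map_zero]
  | add a b ha hb => rw [mul_add, map_add, map_add, map_add, ha, hb]

theorem sh_cm9 (s n o : ℕ) (a : A9) : sh9 s (cm9 n o a) = cm9 n (o + s) a := by
  induction a using MvPolynomial.induction_on' with
  | monomial J c =>
    rw [cm9_monomial, cm9_monomial]
    split_ifs
    · rw [sh9_single, add_right_comm]
    · exact map_zero _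
  | add a b ha hb => rw [map_add, map_add, map_add, ha, hb]

theorem cm9_map (n o : ℕ) (a : A9) (p : ℕ) :
    ψ9 (cm9 n o a p) = crm (· < n) o (map ψ9 a) p := by
  induction a using MvPolynomial.induction_on' with
  | monomial J c =>
    rw [map_monomial, cm9_monomial, crm_monomial]
    split_ifs
    · by_cases h : p = o + pl J
      · rw [h, Pi.single_eq_same, Pi.single_eq_same]
      · rw [Pi.single_eq_of_ne h, Pi.single_eq_of_ne h, map_zero]
    · exact map_zero _
  | add a b ha hb => rw [map_add, map_add, map_add, Pi.add_apply, Pi.add_apply, map_add, ha, hb]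

variable {G : Type} [Fintype G] {L : LD} {ix : G → ℕ}

variable (L ix) in
/-- coordinates below a length -/
def cr9 (n : ℕ) : (G → A9) →ₗ[K9] V9 := ∑ w, (cm9 n (L.pos (ix w))).comp (LinearMap.proj w)

theorem cr9_apply (n : ℕ) (u : G → A9) : cr9 L ix n u = ∑ w, cm9 n (L.pos (ix w)) (u w) := by
  rw [cr9, LinearMap.sum_apply]
  rfl

theorem cr9_eq_zero {n : ℕ} {u : G → A9} (h : u ∈ ZA G (VV ^ n)) : cr9 L ix n u = 0 := by
  rw [cr9_apply]
  exact Finset.sum_eq_zero fun w _ => cm9_eq_zero _ (h w)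

theorem cr9_II {b : ℕ} {u : G → A9} (h : u ∈ ZA G (II 3 K9 ^ b)) : cr9 L ix (b - 1) u = 0 := by
  rcases b with _ | b
  · exact cr9_eq_zero fun w => by simp
  · exact cr9_eq_zero fun w => II_le_VV b (h w)

theorem cr9_mul (n i : ℕ) (u : G → A9) : cr9 L ix (n + 1) ((X i : A9) • u) =
    sh9 (pl (Finsupp.single i 1)) (cr9 L ix n u) := by
  rw [cr9_apply, cr9_apply, map_sum]
  exact Finset.sum_congr rfl fun w _ => cm9_mul _ _ _ _

theorem cr9_map (n : ℕ) (u : G → A9) :
    (fun p => ψ9 (cr9 L ix n u p)) = cr L ix (· < n) (bc ψ9 _ _ u) := funext fun p => by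
  rw [cr9_apply, cr_apply, Finset.sum_apply, Finset.sum_apply, map_sum]
  exact Finset.sum_congr rfl fun w _ => cm9_map _ _ _ _

end Vale.Agent.P236K3

end
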