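import Vale.Agent.P236K3.Bk1

/-!
# P236K3 / Bk2 : the right unit modulo nine and its rows
-/

noncomputable section

namespace Vale.Agent.P236K3

open MvPolynomial Vale.Agent.P236EL Vale.Agent.P236KE Vale.Agent.P236K2

/-- functions of an arrow modulo nine -/
abbrev Γ9 : Type := GG K9
/-- the extended ideal of the variables -/
abbrev W9 : Ideal Γ9 := VV.map C

/-- the coefficient variables -/
def xw (i : ℕ) : Γ9 := C (X i)

theorem xw_mem (i : ℕ) : xw i ∈ W9 := Ideal.mem_map_of_mem _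
  (Ideal.subset_span (Set.mem_insert_of_mem _ (Set.mem_image_of_mem X rfl)))

/-- the linear parts -/
def c1 : Γ9 := xw 1 + xw 0 * X 0 ^ 3
def c2 : Γ9 := xw 2 + (xw 1 * X 0 ^ 9 + xw 0 * X 1 ^ 3)
def c3 : Γ9 := xw 3 + xw 2 * X 0 ^ 27 + (xw 1 * X 1 ^ 9 + xw 0 * X 2 ^ 3)

theorem ev1_xw (τ : DT) : τ.ev1 K9 = (τ.c : Γ9) * (xw 0 ^ τ.v.1 * xw 1 ^ τ.v.2.1 *
    xw 2 ^ τ.v.2.2.1 * xw 3 ^ τ.v.2.2.2) *
    (X 0 ^ τ.x.1 * X 1 ^ τ.x.2.1 * X 2 ^ τ.x.2.2.1 * X 3 ^ τ.x.2.2.2) := by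
  simp only [DT.ev1, monomial_m4, map_mul, map_pow, map_natCast, xw]

theorem nine_Γ : (9 : Γ9) = 0 := by
  rw [show (9 : Γ9) = C (C 9) from rfl, show (9 : K9) = 0 from rfl, map_zero, map_zero]

/-- approximation up to two lengths -/
structure Ap9 (n : ℕ) (f a d : Γ9) : Prop where
  ha : a ∈ W9 ^ n
  hf : f - (a + 3 * d) ∈ W9 ^ (n + 2)

theorem Ap9.mul {n m : ℕ} {f a d g b e : Γ9} (h : Ap9 n f a d) (h' : Ap9 m g b e) :
    Ap9 (n + m) (f * g) (a * b) (d * g + f * e) := by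
  have mm : ∀ {i j k : ℕ} {x y : Γ9}, x ∈ W9 ^ i → y ∈ W9 ^ j → k ≤ i + j → x * y ∈ W9 ^ k :=
    fun hx hy hk => Ideal.pow_le_pow_right hk (pow_add W9 _ _ ▸ Ideal.mul_mem_mul hx hy)
  refine ⟨mm h.ha h'.ha le_rfl, ?_⟩
  rw [show f * g - (a * b + 3 * (d * g + f * e)) = a * (g - (b + 3 * e)) +
    (f - (a + 3 * d)) * (g - (b + 3 * e)) + (f - (a + 3 * d)) * b by
      linear_combination (-(d * e)) * nine_Γ]
  exact add_mem (add_mem (mm h.ha h'.hf (by omega)) (mm h.hf h'.hf (by omega)))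
    (mm h.hf h'.ha (by omega))

theorem Ap9.pow {f a d : Γ9} (h : Ap9 1 f a d) (e : ℕ) :
    Ap9 e (f ^ e) (a ^ e) (e * d * f ^ (e - 1)) := by
  induction e with
  | zero => exact ⟨by simp, by simp⟩
  | succ e ih =>
    have h1 := ih.mul h
    rw [← pow_succ, ← pow_succ] at h1
    refine (congrArg _ ?_).mp h1
    rcases e with _ | e
    · simp
    · simp only [Nat.add_sub_cancel, Nat.cast_add, Nat.cast_one]
      ring

theorem w1 (i : ℕ) (x : Γ9) : xw i * x ∈ W9 ^ 1 :=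
  (pow_one W9).symm ▸ Ideal.mul_mem_right _ _ (xw_mem i)

theorem w0 (i : ℕ) : xw i ∈ W9 ^ 1 := (pow_one W9).symm ▸ xw_mem i

theorem w3 (i : ℕ) (x : Γ9) : xw i ^ 3 * x ∈ W9 ^ (1 + 2) :=
  Ideal.mul_mem_right _ _ (Ideal.pow_mem_pow (xw_mem i) 3)

/-- the main part -/
def cM (e1 e2 e3 e4 : ℕ) : Γ9 := c1 ^ e2 * (c2 ^ e3 * (c3 ^ e4 * xw 0 ^ e1))

section eta

variable [Fact (Nat.Prime 3)]

theorem ap9_of (n : ℕ) (hn : n < 4) {c β : Γ9} (hc : c ∈ W9 ^ 1) (hβ : β ∈ W9 ^ (1 + 2))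
    (h : ((e4s n).map (DT.ev1 K9)).sum = c + 3 * X n + β) : Ap9 1 (etaR 3 K9 (X n)) c (X n) := by
  refine ⟨hc, ?_⟩
  rw [← add_sub_add_right_eq_sub _ _ β, ← h, add_sub_right_comm, ← Ideal.map_pow]
  refine add_mem (mem_map_C_iff.2 fun E => II_le_VV _ ?_) (Ideal.map_pow (C : A9 →+* Γ9) VV _ ▸ hβ)
  have h1 := eta_sub_mem (L := K9) (by omega) le_rfl ckE_e4s n hn E
  rw [pev_srt, pev, List.map_map] at h1
  rw [List.map_congr_left fun τ hτ => ev1_eq (e4s_y n hn τ hτ)]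
  exact h1

theorem ap9_0 : Ap9 1 (etaR 3 K9 (X 0)) (xw 0) (X 0) :=
  ⟨w0 0, by rw [etaR_v1, Nat.cast_ofNat, xw, sub_self]; exact zero_mem _⟩

theorem ap9_1 : Ap9 1 (etaR 3 K9 (X 1)) c1 (X 1) :=
  ap9_of 1 (by norm_num) (add_mem (w0 _) (w1 _ _)) (w3 0 (2 * X 0)) (by
    simp only [e4s, List.getD_cons_succ, List.getD_cons_zero, List.map, List.sum_cons,
      List.sum_nil, ev1_xw, c1]
    push_cast
    linear_combination (2 * xw 0 * X 0 ^ 3 + 6 * X 0 ^ 4) * nine_Γ)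

theorem ap9_2 : Ap9 1 (etaR 3 K9 (X 2)) c2 (X 2) :=
  ap9_of 2 (by norm_num) (add_mem (w0 _) (add_mem (w1 _ _) (w1 _ _)))
    (add_mem (w3 0 (2 * X 0 ^ 10)) (w3 1 (2 * X 0))) (by
    simp only [e4s, List.getD_cons_succ, List.getD_cons_zero, List.map, List.sum_cons,
      List.sum_nil, ev1_xw, c2]
    push_cast
    linear_combination (2 * xw 0 * X 1 ^ 3 + 6 * X 0 * X 1 ^ 3) * nine_Γ)

theorem ap9_3 : Ap9 1 (etaR 3 K9 (X 3)) c3 (X 3) :=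
  ap9_of 3 (by norm_num) (add_mem (add_mem (w0 _) (w1 _ _)) (add_mem (w1 _ _) (w1 _ _)))
    (add_mem (add_mem (w3 0 (2 * X 0 * X 1 ^ 9)) (w3 1 (2 * X 0 ^ 28))) (w3 2 (2 * X 0))) (by
    simp only [e4s, List.getD_cons_succ, List.getD_cons_zero, List.map, List.sum_cons,
      List.sum_nil, ev1_xw, c3]
    push_cast
    linear_combination (2 * xw 0 * X 2 ^ 3 + 6 * X 0 * X 2 ^ 3) * nine_Γ)

/-- the right unit of a monomial -/
def eM (e1 e2 e3 e4 : ℕ) : Γ9 := etaR 3 K9 (monomial (mk4 e1 e2 e3 e4) 1)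

theorem eM_eq (e1 e2 e3 e4 : ℕ) : eM e1 e2 e3 e4 = etaR 3 K9 (X 0) ^ e1 * etaR 3 K9 (X 1) ^ e2 *
    etaR 3 K9 (X 2) ^ e3 * etaR 3 K9 (X 3) ^ e4 := by
  have h1 := monomial_m4 (A := K9) (e1, e2, e3, e4) 1
  rw [C_1, one_mul] at h1
  change monomial (mk4 e1 e2 e3 e4) 1 = X 0 ^ e1 * X 1 ^ e2 * X 2 ^ e3 * X 3 ^ e4 at h1
  rw [eM, h1, map_mul, map_mul, map_mul, map_pow, map_pow, map_pow, map_pow]

theorem ap9_mon (e1 e2 e3 e4 : ℕ) : eM e1 e2 e3 e4 - (cM e1 e2 e3 e4 + 3 •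
    (e1 • (X 0 * eM (e1 - 1) e2 e3 e4) + e2 • (X 1 * eM e1 (e2 - 1) e3 e4) +
      (e3 • (X 2 * eM e1 e2 (e3 - 1) e4) + e4 • (X 3 * eM e1 e2 e3 (e4 - 1))))) ∈
      W9 ^ (e1 + e2 + e3 + e4 + 2) := by
  refine (congrArg (· ∈ _) ?_).mp
    (((ap9_0.pow e1).mul (ap9_1.pow e2)).mul (ap9_2.pow e3) |>.mul (ap9_3.pow e4)).hf
  simp only [eM_eq, cM, nsmul_eq_mul, Nat.cast_ofNat]
  ring

end eta

/-- families of vectors indexed by codes -/
structure F9 : Type where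
  f : Nat → P9

def s2b (g : F9) (c x : Nat) : P9 := P9.add (g.f c) (g.f x)
def s2a (g : F9) (c : Nat) : P9 := force (Nat.add c (nat_lit 3)) (s2b g c)
def m2 (_ : Nat) (g : F9) : F9 := ⟨s2a g⟩
def s3c (g : F9) (c x y : Nat) : P9 :=
  P9.add (P9.shl (g.f c) (nat_lit 3)) (P9.add (g.f x) (g.f y))
def s3b (g : F9) (c x : Nat) : P9 := force (Nat.add c (nat_lit 1164)) (s3c g c x)
def s3a (g : F9) (c : Nat) : P9 := force (Nat.add c (nat_lit 9)) (s3b g c)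
def m3 (_ : Nat) (g : F9) : F9 := ⟨s3a g⟩
def s4d (g : F9) (c x y z : Nat) : P9 :=
  P9.add (P9.add (P9.shl (g.f c) (nat_lit 1)) (P9.shl (g.f x) (nat_lit 3)))
    (P9.add (g.f y) (g.f z))
def s4c (k : Nat) (g : F9) (c x y : Nat) : P9 := force (Nat.add c k) (s4d g c x y)
def s4b (k : Nat) (g : F9) (c x : Nat) : P9 := force (Nat.add c (nat_lit 3492)) (s4c k g c x)
def s4a (k : Nat) (g : F9) (c : Nat) : P9 := force (Nat.add c (nat_lit 27)) (s4b k g c)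
def m4' (k : Nat) (_ : Nat) (g : F9) : F9 := ⟨s4a k g⟩
def it9 (l : Nat → F9 → F9) (g : F9) (e : Nat) : F9 := Nat.rec (motive := fun _ => F9) g l e
/-- the main part -/
def phi9 (k : Nat) (Y : F9) (e2 e3 e4 : Nat) : F9 := it9 m2 (it9 m3 (it9 (m4' k) Y e4) e3) e2

variable {G : Type} [Fintype G] {L : LD} {ix : G → ℕ} {y : G → (ℕ →₀ ℕ) → A9}

variable (y) in
/-- the values of the functionals -/
def Z9 : Γ9 →ₗ[A9] (G → A9) := LinearMap.pi fun w => rAp (RingHom.id _) (y w)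

variable (L ix y) in
/-- coordinates of the values -/
def p9 (n : ℕ) : Γ9 →+ V9 := (cr9 L ix n).toAddMonoidHom.comp (Z9 y).toAddMonoidHom

theorem p9_apply (n : ℕ) (g : Γ9) : p9 L ix y n g = cr9 L ix n (Z9 y g) := rfl

theorem p9_eq_zero {n : ℕ} {g : Γ9} (hg : g ∈ W9 ^ n) : p9 L ix y n g = 0 := cr9_eq_zero fun _ =>
  rAp_mem (mem_map_C_iff.1 (Ideal.map_pow (C : A9 →+* Γ9) VV n ▸ hg))

theorem p9_xw (n i : ℕ) (g : Γ9) :
    p9 L ix y (n + 1) (xw i * g) = sh9 (pl (Finsupp.single i 1)) (p9 L ix y n g) := by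
  rw [p9_apply, p9_apply, ← cr9_mul, xw, ← smul_eq_C_mul, map_smul]

variable (L ix y) in
/-- the family gives the coordinates of the multiples of `h` -/
def Fam9 (s3 s4 m n : ℕ) (h : Γ9) (g : F9) : Prop := ∀ F, wtM F + m ≤ L.T →
  (g.f (cd s3 s4 F)).R (p9 L ix y n (monomial F 1 * h))

variable {s3 s4 m n : ℕ} {h : Γ9} {g : F9}

theorem mon9_add (F : ℕ →₀ ℕ) (i e : ℕ) :
    (monomial (F + Finsupp.single i e) 1 : Γ9) = monomial F 1 * X i ^ e := by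
  rw [X_pow_eq_monomial, monomial_mul, one_mul]

theorem Fam9.at (H : Fam9 L ix y s3 s4 m n h g) (F : ℕ →₀ ℕ) (i e : ℕ)
    (hF : wtM F + e * wt 3 i + m ≤ L.T) :
    (g.f (cd s3 s4 F + cd s3 s4 (Finsupp.single i e))).R
      (p9 L ix y n (monomial F 1 * X i ^ e * h)) := by
  rw [← cd_add, ← mon9_add]
  exact H _ (by rwa [wtM_add])

theorem Fam9.l1 (H : Fam9 L ix y s3 s4 m n h g) : Fam9 L ix y s3 s4 m (n + 1) (xw 0 * h) g :=
  fun F hF => by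
    rw [mul_left_comm, p9_xw, pl_0, sh9_zero]
    exact H F hF

theorem Fam9.l2 (H : Fam9 L ix y s3 s4 m n h g) (j : ℕ) :
    Fam9 L ix y s3 s4 (m + 4) (n + 1) (c1 * h) (m2 j g) := fun F hF => by
  have h1 := (H F (by omega)).add (H.at F 0 3 (by change _ + 3 + _ ≤ _; omega))
  rw [show monomial F 1 * (c1 * h) = xw 1 * (monomial F 1 * h) +
    xw 0 * (monomial F 1 * X 0 ^ 3 * h) by rw [c1]; ring, map_add, p9_xw, p9_xw, pl_0, pl_1,
    sh9_zero, sh9_zero]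
  rwa [cd_0] at h1

theorem Fam9.l3 (H : Fam9 L ix y s3 s4 m n h g) (j : ℕ) :
    Fam9 L ix y s3 s4 (m + 13) (n + 1) (c2 * h) (m3 j g) := fun F hF => by
  have h1 := ((H F (by omega)).shl 3).add ((H.at F 0 9 (by change _ + 9 + _ ≤ _; omega)).add
    (H.at F 1 3 (by change _ + 12 + _ ≤ _; omega)))
  rw [show monomial F 1 * (c2 * h) = xw 2 * (monomial F 1 * h) +
    (xw 1 * (monomial F 1 * X 0 ^ 9 * h) + xw 0 * (monomial F 1 * X 1 ^ 3 * h)) by rw [c2]; ring,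
    map_add, map_add, p9_xw, p9_xw, p9_xw, pl_0, pl_1, pl_2, sh9_zero, sh9_zero]
  rwa [cd_0, cd_1] at h1

theorem Fam9.l4 (H : Fam9 L ix y s3 s4 m n h g) (j : ℕ) :
    Fam9 L ix y s3 s4 (m + 40) (n + 1) (c3 * h) (m4' ((13 + 384 * s3) * 3) j g) := fun F hF => by
  have h1 := (((H F (by omega)).shl 1).add
    ((H.at F 0 27 (by change _ + 27 + _ ≤ _; omega)).shl 3)).add
    ((H.at F 1 9 (by change _ + 36 + _ ≤ _; omega)).add
      (H.at F 2 3 (by change _ + 39 + _ ≤ _; omega)))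
  rw [show monomial F 1 * (c3 * h) = xw 3 * (monomial F 1 * h) +
    xw 2 * (monomial F 1 * X 0 ^ 27 * h) + (xw 1 * (monomial F 1 * X 1 ^ 9 * h) +
      xw 0 * (monomial F 1 * X 2 ^ 3 * h)) by rw [c3]; ring,
    map_add, map_add, map_add, p9_xw, p9_xw, p9_xw, p9_xw, pl_0, pl_1, pl_2, pl_3, sh9_zero,
    sh9_zero]
  rwa [cd_0, cd_1, cd_2] at h1

theorem Fam9.iter {a : Γ9} {k : ℕ} {lv : ℕ → F9 → F9} (hl : ∀ m n h g j,
    Fam9 L ix y s3 s4 m n h g → Fam9 L ix y s3 s4 (m + k) (n + 1) (a * h) (lv j g))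
    (H : Fam9 L ix y s3 s4 m n h g) (e : ℕ) :
    Fam9 L ix y s3 s4 (m + k * e) (n + e) (a ^ e * h) (it9 lv g e) := by
  induction e with
  | zero => simpa [it9] using H
  | succ e ih =>
    rw [pow_succ', mul_assoc, mul_add, mul_one, ← add_assoc, ← add_assoc]
    exact hl _ _ _ _ e ih

theorem Fam9.phi {Y : F9} (H : Fam9 L ix y s3 s4 m n 1 Y) (e1 e2 e3 e4 : ℕ) :
    Fam9 L ix y s3 s4 (m + 40 * e4 + 13 * e3 + 4 * e2) (n + e1 + e4 + e3 + e2) (cM e1 e2 e3 e4)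
      (phi9 ((13 + 384 * s3) * 3) Y e2 e3 e4) := by
  have h1 : Fam9 L ix y s3 s4 m (n + e1) (xw 0 ^ e1) Y := by
    induction e1 with
    | zero => exact H
    | succ e ih => rw [pow_succ']; exact ih.l1
  exact ((h1.iter (fun _ _ _ _ j H => H.l4 j) e4).iter (fun _ _ _ _ j H => H.l3 j) e3).iter
    (fun _ _ _ _ j H => H.l2 j) e2

end Vale.Agent.P236K3

end
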