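import Vale.Agent.P236K3.Bk2

/-!
# P236K3 / Bk3 : the tabulated functionals modulo nine
-/

noncomputable section

namespace Vale.Agent.P236K3

open MvPolynomial Vale.Agent.P236EL Vale.Agent.P236KE Vale.Agent.P236K2

def uw9 (L : LD) (W n : Nat) : T3L := Nat.rec (motive := fun _ => T3L) T3L.nil (uw1 L W) n
def mid9 (D : DLL) (L : LD) (n i W : Nat) : DL :=
  T3L.rec (motive := fun _ => DL) DL.nil (mu1 D i) (uw9 L W n)
def un9 (q : Nat) : P9 := ⟨un q, P.zero⟩
def z4 (q : Nat) (ih : P9) (r : Nat) (_ : P9) : P9 := P9.add (P9.sm (Nat.succ r) (un9 q)) ih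
def z3 (s q B : Nat) (_ : DL) (ih : P9) : P9 :=
  Nat.rec (motive := fun _ => P9) ih (z4 q ih)
    (Nat.land (Nat.shiftRight (Nat.succ B) s) (nat_lit 15))
def z2 (D : DLL) (L : LD) (n i W s : Nat) : P9 :=
  DL.rec (motive := fun _ => P9) P9.zero (z3 s) (mid9 D L n i W)
def z1 (D : DLL) (L : LD) (n i c W : Nat) : P9 :=
  force (Nat.add (Nat.mul (nat_lit 16) (Nat.div c (nat_lit 384))) (nat_lit 32)) (z2 D L n i W)
def z0 (D : DLL) (L : LD) (n d i c : Nat) : P9 :=
  force (Nat.add (Nat.mod c (nat_lit 384)) d) (z1 D L n i c)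
/-- the tabulated functionals of the generator number `i` of degree `d` -/
def yl9 (D : DLL) (L : LD) (n d i : Nat) : F9 := ⟨z0 D L n d i⟩

/-- sums over lists of pairs -/
def sD (f : ℕ → ℕ → V9) (l : DL) : V9 :=
  DL.rec (motive := fun _ => V9) 0 (fun a b _ ih => f a b + ih) l

/-- sums over lists of triples -/
def sT (f : ℕ → ℕ → ℕ → V9) (l : T3L) : V9 :=
  T3L.rec (motive := fun _ => V9) 0 (fun a b c _ ih => f a b c + ih) l

theorem sD_byD (f : ℕ → ℕ → V9) (L : LD) (d : ℕ) : sD f (byD L d) =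
    ∑ j ∈ Finset.range L.n, if L.dg j = d then f (24 * j) (L.pos j) else 0 := by
  rw [byD]
  induction L.n with
  | zero => rfl
  | succ n ih =>
    rw [Finset.sum_range_succ, ← ih]
    change sD f (by1 L d n _) = _
    rw [by1]
    cases h : Nat.beq (L.dg n) d with
    | false => rw [if_neg (Nat.ne_of_beq_eq_false h), add_zero]
    | true => rw [if_pos (Nat.eq_of_beq_eq_true h), add_comm]; rfl

theorem sT_uw2 (f : ℕ → ℕ → ℕ → V9) (L : LD) (U : ℕ) (rest : T3L) (d : ℕ) :
    sT f (uw2 L U rest d) = sT f rest + sD (fun j p => f U j (p + pU U)) (byD L d) := by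
  rw [uw2]
  induction byD L d with
  | nil => exact (add_zero _).symm
  | cons j p l ih =>
    change f U j (p + pU U) + _ = _ + (f U j (p + pU U) + _)
    rw [add_left_comm]
    exact congrArg (f U j (p + pU U) + ·) ih

theorem sT_uw (f : ℕ → ℕ → ℕ → V9) (L : LD) (W n : ℕ) :
    sT f (uw9 L W n) = ∑ U ∈ Finset.range n, ∑ j ∈ Finset.range L.n,
      if W = wU U + L.dg j then f U (24 * j) (L.pos j + pU U) else 0 := by
  induction n with
  | zero => rfl
  | succ U ih =>
    rw [Finset.sum_range_succ, ← ih]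
    change sT f (uw1 L W U _) = _
    rw [uw1]
    cases h : Nat.ble (wU U) W with
    | false =>
      have h1 : ¬ wU U ≤ W := fun h2 => by rw [Nat.ble_eq_true_of_le h2] at h; cases h
      rw [Finset.sum_eq_zero fun j _ => if_neg (by omega), add_zero]
      rfl
    | true =>
      have h1 := Nat.le_of_ble_eq_true h
      refine (sT_uw2 _ _ _ _ (W - wU U)).trans ?_
      rw [sD_byD]
      exact congrArg _ (Finset.sum_congr rfl fun j _ => if_congr (by omega) rfl rfl)

/-- a digit times a unit vector -/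
def dg9 (s q B : ℕ) : V9 := (((B >>> s) &&& 15 : ℕ) : K9) • Pi.single q 1

theorem sD_mid (s : ℕ) (D : DLL) (L : LD) (n i W : ℕ) :
    sD (fun q B => dg9 (s + 32) q (B + 1)) (mid9 D L n i W) = sT (fun U j q =>
      dg9 s q (dN D i U >>> ((dO D i U >>> j) &&& 16777215))) (uw9 L W n) := by
  rw [mid9]
  induction uw9 L W n with
  | nil => rfl
  | cons U j q l ih =>
    change sD _ (mu2 q _ (dN D i U >>> ((dO D i U >>> j) &&& 16777215))) = dg9 _ _ _ + _
    rw [mu2]
    generalize dN D i U >>> ((dO D i U >>> j) &&& 16777215) = B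
    have h1 : dg9 s q B = dg9 (s + 32) q (B <<< 32 + B % 4294967291) := by
      rw [dg9, dg9, add_comm s, Nat.shiftRight_add, Nat.shiftLeft_eq,
        Nat.shiftRight_eq_div_pow _ 32, show (B * 2 ^ 32 + B % 4294967291) / 2 ^ 32 = B by omega]
    change sD _ (Nat.rec (motive := fun _ => DL) _ _ (B <<< 32 + B % 4294967291)) = _
    rw [h1]
    rcases B <<< 32 + B % 4294967291 with _ | C
    · rw [show dg9 (s + 32) q 0 = 0 by simp [dg9], zero_add]
      exact ih
    · exact congrArg (dg9 (s + 32) q (C + 1) + ·) ih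

theorem un9_R (q : ℕ) : (un9 q).R (Pi.single q 1) := by
  refine ⟨(congrArg _ (_root_.funext fun p => ?_)).mp (un_R q),
    (congrArg _ (_root_.funext fun p => ?_)).mp P.R_zero⟩ <;> by_cases h : p = q
  · rw [h, Pi.single_eq_same, Pi.single_eq_same, map_one]
  · rw [Pi.single_eq_of_ne h, Pi.single_eq_of_ne h, map_zero]
  · rw [h, Pi.single_eq_same, Pi.zero_apply]
    decide
  · rw [Pi.single_eq_of_ne h, hi_zero, Pi.zero_apply]

theorem z2_R (D : DLL) (L : LD) (n i W s : ℕ) :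
    (z2 D L n i W s).R (sD (fun q B => dg9 s q (B + 1)) (mid9 D L n i W)) := by
  rw [z2]
  induction mid9 D L n i W with
  | nil => exact P9.R_zero
  | cons q B l ih =>
    change P9.R (Nat.rec (motive := fun _ => P9) _ _ (((B + 1) >>> s) &&& 15)) (dg9 _ _ _ + _)
    rw [dg9]
    rcases ((B + 1) >>> s) &&& 15 with _ | r
    · rw [Nat.cast_zero, zero_smul, zero_add]
      exact ih
    · exact (P9.R.sm (r + 1) fun _ => un9_R q).add ih

/-- the number of monomials of length less than `k` -/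
def nU (k : Nat) : Nat := Nat.add (Nat.mul k k) (Nat.div k (nat_lit 2))

theorem nU_spec : ∀ k < 3, nU k ≤ 15 ∧ ∀ U < 15, (len4 (vm U) < k ↔ U < nU k) := by decide

variable {G G' : Type} [Fintype G] [Fintype G'] {L L' : LD} {ix : G → ℕ} {ix' : G' → ℕ}

theorem yl9_spec (hL : L.Ok ix) (D : DLL) {dl du : ℕ} (hd : L.dg = byte du) (s3 s4 i : ℕ) {k : ℕ}
    (hk : k < 3) : Fam9 L ix (fun w => yOf K9 D dl du s3 s4 i (ix w)) s3 s4 (byte dl i) k 1
      (yl9 D L (nU k) (byte dl i) i) := fun F hF => by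
  have h1 := hL.hT
  have h2 := z2_R D L (nU k) i (cd s3 s4 F % 384 + byte dl i) (16 * (cd s3 s4 F / 384) + 32)
  rw [sD_mid, sT_uw] at h2
  refine (congrArg _ ?_).mpr h2
  rw [p9_apply, cr9_apply, Finset.sum_comm, ← hL.sum]
  refine Finset.sum_congr rfl fun w _ => ?_
  change cm9 _ _ (rAp _ (yOf K9 D dl du s3 s4 i (ix w)) _) = _
  rw [mul_one, rAp_monomial, one_mul, RingHom.id_apply, yOf, map_sum, ← Finset.sum_subset
    (Finset.range_mono (nU_spec k hk).1) fun U hU h3 => ?_]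
  · refine Finset.sum_congr rfl fun U hU => ?_
    have h6 := (Finset.mem_range.1 hU).trans_le (nU_spec k hk).1
    obtain ⟨h3, h4, h5⟩ := wU_eq U h6
    rw [show cd s3 s4 F % 384 = wtM F by rw [cd]; omega, h3, hd,
      show cd s3 s4 F / 384 = F 1 + (s3 * F 2 + s4 * F 3) by rw [cd]; omega]
    split_ifs
    · rw [cm9_monomial, len_m4, if_pos (((nU_spec k hk).2 U h6).2 (Finset.mem_range.1 hU)), pl,
        m4_2, m4_3, h4, dg9, ← Pi.single_smul, smul_eq_mul, mul_one, yc, ycN, dig,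
        Nat.shiftRight_eq_div_pow (n := 16 * _), show 15 = 2 ^ 4 - 1 from rfl,
        Nat.and_two_pow_sub_one_eq_mod, Nat.and_two_pow_sub_one_eq_mod,
        Nat.mod_mod_of_dvd _ (by norm_num)]
    · exact map_zero _
  · split_ifs
    · rw [cm9_monomial, len_m4, if_neg fun h4 =>
        h3 (Finset.mem_range.2 (((nU_spec k hk).2 U (Finset.mem_range.1 hU)).1 h4))]
    · exact map_zero _

/-- sources of rows modulo nine -/
structure R9 : Type where
  f : Nat → Nat → Nat → Nat → Nat → Nat → P9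

/-- the rows of the main parts -/
def St9 (y : G → G' → (ℕ →₀ ℕ) → A9) (L : LD) (ix : G → ℕ) (L' : LD) (ix' : G' → ℕ)
    (s3 s4 : ℕ) (r : R9) : Prop :=
  ∀ k < 3, ∀ F w e1 e2 e3 e4, wtM F + (4 * e2 + 13 * e3 + 40 * e4) + L.dg (ix w) ≤ L'.T →
    (r.f (nU k) (cd s3 s4 F) (ix w) e2 e3 e4).R (p9 L' ix' (y w) (e1 + e2 + e3 + e4 + k)
      (monomial F 1 * cM e1 e2 e3 e4))

def rs91 (k : Nat) (D : DLL) (L' : LD) (n c i e2 e3 e4 d : Nat) : P9 :=
  (phi9 k (yl9 D L' n d i) e2 e3 e4).f c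
def rs90 (k : Nat) (D : DLL) (dl : Nat) (L' : LD) (n c i e2 e3 e4 : Nat) : P9 :=
  force (byte dl i) (rs91 k D L' n c i e2 e3 e4)
/-- the rows of tabulated functionals -/
def rs9 (k : Nat) (D : DLL) (dl : Nat) (L' : LD) : R9 := ⟨rs90 k D dl L'⟩

omit [Fintype G] in
theorem st9_yOf (hL' : L'.Ok ix') (D : DLL) {dl du : ℕ} (hd : L.dg = byte dl)
    (hd' : L'.dg = byte du) (s3 s4 : ℕ) :
    St9 (fun w w' => yOf K9 D dl du s3 s4 (ix w) (ix' w')) L ix L' ix' s3 s4
      (rs9 ((13 + 384 * s3) * 3) D dl L') := fun k hk F w e1 e2 e3 e4 h => by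
  change P9.R (rs90 _ D dl L' _ _ _ _ _ _) _
  rw [hd] at h
  rw [rs90, force_eq, rs91, show e1 + e2 + e3 + e4 + k = k + e1 + e4 + e3 + e2 by omega]
  exact (yl9_spec hL' D hd' s3 s4 (ix w) hk).phi e1 e2 e3 e4 F (by omega)

end Vale.Agent.P236K3

end
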