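import Vale.Agent.P236K3.Bk3
import Vale.Agent.P236K3.Top

/-!
# P236K3 / Bk4 : the computation of the Bockstein homomorphism
-/

noncomputable section

namespace Vale.Agent.P236K3

open MvPolynomial Vale.Agent.P236EL Vale.Agent.P236KE Vale.Agent.P236K2

/-- the data of a step -/
structure BD : Type where
  r : Rw
  q : R9
  k2 : Nat
  k3 : Nat

def tm3 (B : BD) (m e c i e2 e3 e4 : Nat) : P := P.sm e (P.and (B.r.f c i e2 e3 e4) m)
def rt4 (B : BD) (m n i e2 e3 e4 e1 f2 f3 f4 : Nat) : P9 :=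
  P9.add (B.q.f n (nat_lit 0) i e2 e3 e4) (P9.thr (P.add
    (P.add (tm3 B m e1 (nat_lit 1) i e2 e3 e4) (tm3 B m e2 (nat_lit 388) i f2 e3 e4))
    (P.add (tm3 B m e3 B.k2 i e2 f3 e4) (tm3 B m e4 B.k3 i e2 e3 f4))))
def rt3 (B : BD) (m n i e2 e3 e4 e1 f2 f3 : Nat) : P9 :=
  force (Nat.sub e4 (nat_lit 1)) (rt4 B m n i e2 e3 e4 e1 f2 f3)
def rt2 (B : BD) (m n i e2 e3 e4 e1 f2 : Nat) : P9 :=
  force (Nat.sub e3 (nat_lit 1)) (rt3 B m n i e2 e3 e4 e1 f2)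
def rt1 (B : BD) (m n i e2 e3 e4 e1 : Nat) : P9 :=
  force (Nat.sub e2 (nat_lit 1)) (rt2 B m n i e2 e3 e4 e1)
/-- the row modulo nine -/
def rt (B : BD) (m n l i e2 e3 e4 : Nat) : P9 :=
  force (Nat.sub l (Nat.add (Nat.add e2 e3) e4)) (rt1 B m n i e2 e3 e4)

def pq2 (k : P9 → Bool) (l h : P) : Bool := k ⟨l, h⟩
def pq1 (k : P9 → Bool) (z : P9) (l : P) : Bool := pr (pq2 k l) z.h
def pq (k : P9 → Bool) (z : P9) : Bool := pr (pq1 k z) z.l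

/-- continuations -/
structure KQ : Type where
  f : (P → Bool) → P → P9 → Bool

def bk8 (kk : KQ) (κ : P → Bool) (x : P) (z : P9) : Bool := kk.f κ x z
def bk7 (kk : KQ) (κ : P → Bool) (z : P9) (x : P) : Bool := pq (bk8 kk κ x) z
def bk6 (B : BD) (m n l i e2 e3 e4 : Nat) (kk : KQ) (κ : P → Bool) (x : P) (z : P9) (p t : Nat) :
    Bool :=
  Bool.rec (motive := fun _ => Bool)
    (pr (bk7 kk κ (P9.add z (P9.sm t (rt B m n l i e2 e3 e4)))) (P.add x (P.neg (P.sm t (un p)))))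
    (kk.f κ x z) (Nat.beq t (nat_lit 0))
def bk5 (B : BD) (m n l i e2 e3 e4 : Nat) (kk : KQ) (κ : P → Bool) (x : P) (z : P9) (p : Nat) :
    Bool :=
  force (Nat.add (Nat.land (Nat.shiftRight x.a p) (nat_lit 1))
    (Nat.mul (nat_lit 2) (Nat.land (Nat.shiftRight x.b p) (nat_lit 1))))
    (bk6 B m n l i e2 e3 e4 kk κ x z p)
def bk4 (B : BD) (L : LD) (m n l i e2 e3 e4 : Nat) (kk : KQ) (κ : P → Bool) (x : P) (z : P9) :
    Bool :=
  force (Nat.add (L.pos i) (Nat.add (Nat.mul (nat_lit 3) e3) e4))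
    (bk5 B m n l i e2 e3 e4 kk κ x z)
def bk3 (B : BD) (L : LD) (m n l i e2 e3 e4 : Nat) (kk : KQ) : KQ := ⟨bk4 B L m n l i e2 e3 e4 kk⟩
def bk2 (B : BD) (L : LD) (T : Nat) (kk : KQ) (l m n : Nat) : KQ := enum (bk3 B L m n l) L T l kk
def bk1 (B : BD) (L : LD) (T b : Nat) (kk : KQ) (l m : Nat) : KQ :=
  force (nU (Nat.sub (Nat.sub b (nat_lit 1)) l)) (bk2 B L T kk l m)
def bk0 (B : BD) (L L' : LD) (T b : Nat) (kk : KQ) (l : Nat) : KQ :=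
  force (wm L' T (Nat.sub l (nat_lit 1)) (Nat.sub b (nat_lit 1))) (bk1 B L T b kk l)
def bkL (B : BD) (L L' : LD) (T a b j : Nat) (kk : KQ) : KQ :=
  force (Nat.add a j) (bk0 B L L' T b kk)
def bkE (κ : P → Bool) (x : P) (z : P9) : Bool := zc (pr κ z.h) x.a x.b
def bkS (B : BD) (L L' : LD) (T a b : Nat) (κ : P → Bool) (x : P) : Bool :=
  (loop (bkL B L L' T a b) (Nat.sub b a) ⟨bkE⟩).f κ x P9.zero
/-- the Bockstein homomorphism -/
def VC.bk (B : BD) (L L' : LD) (T a b : Nat) (v : VC) : VC :=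
  ⟨fun κ => v.run (bkS B L L' T a b κ)⟩

theorem rp_ex {v : V} {N : ℕ} (h : ∀ p, N ≤ p → v p = 0) : ∃ x : P, x.R v :=
  ⟨⟨Nat.ofBits fun i : Fin N => is1 (v i), Nat.ofBits fun i : Fin N => is2 (v i)⟩, fun p => by
    rw [Nat.testBit_ofBits, Nat.testBit_ofBits]
    split_ifs with h1
    · exact ⟨rfl, rfl⟩
    · rw [h p (not_lt.1 h1)]
      decide⟩

theorem rp_uq {x x' : P} {v : V} (h : x.R v) (h' : x'.R v) : x = x' :=
  congrArg₂ P.mk (Nat.eq_of_testBit_eq fun p => (h p).1.trans (h' p).1.symm)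
    (Nat.eq_of_testBit_eq fun p => (h p).2.trans (h' p).2.symm)

open Classical in
/-- basis vectors -/
def bw {G : Type} (w : G) (J : ℕ →₀ ℕ) : G → A9 := Pi.single w (monomial J 1)

theorem bc_bw {G : Type} (w : G) (J : ℕ →₀ ℕ) : bc ψ9 _ _ (bw w J) = bv w J := by
  classical
  funext g
  rw [bc_apply, bw, bv]
  by_cases h : g = w
  · rw [h, Pi.single_eq_same, Pi.single_eq_same, map_monomial, map_one]
  · rw [Pi.single_eq_of_ne h, Pi.single_eq_of_ne h, map_zero]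

theorem bw_mem {G : Type} {d : G → ℤ} {w : ℤ} {a : ℕ} {g : G} {J : ℕ →₀ ℕ}
    (h : (wtM J : ℤ) = w - d g) (ha : a ≤ lenM J) : bw g J ∈ PA 3 d w (II 3 K9 ^ a) := fun g' => by
  classical
  rw [bw]
  by_cases h1 : g' = g
  · rw [h1, Pi.single_eq_same]
    exact ⟨isWeightedHomogeneous_monomial _ _ _ ((weight_cast _ _).trans h),
      Ideal.pow_le_pow_right ha (monomial_one_mem_pow J)⟩
  · rw [Pi.single_eq_of_ne h1]
    exact ⟨zero_mem _, zero_mem _⟩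

variable [Fact (Nat.Prime 3)] {G : ℕ → Type} [∀ q, Fintype (G q)] {R : Rs 3 K G} {R' : Rs 3 K9 G}
  {s s3 s4 T a b l : ℕ} {L L' : LD} {ix : G (s + 1) → ℕ} {ix' : G (s + 2) → ℕ} {B : BD}

theorem dl_bw (g : Γ9) (w : G (s + 1)) (J : ℕ →₀ ℕ) :
    R'.dl s g (bw w J) = Z9 (R'.y s w) (g * etaR 3 K9 (monomial J 1)) := by
  classical
  funext w'
  rw [Rs.dl, Finset.sum_eq_single w, bw, Pi.single_eq_same]
  · rfl
  · intro w'' _ h
    rw [bw, Pi.single_eq_of_ne h, map_zero, mul_zero, map_zero]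
  · exact fun h => absurd (Finset.mem_univ w) h

variable (R R' L L' ix ix' s3 s4 B) in
/-- the data describe a step modulo three and modulo nine -/
structure Sb : Prop where
  bc : Bc ψ9 R' R
  st : St (R.y s) L ix L' ix' s3 s4 B.r
  s9 : St9 (R'.y s) L ix L' ix' s3 s4 B.q
  k2 : B.k2 = 13 + 384 * s3
  k3 : B.k3 = 40 + 384 * s4

variable (H : Sb R R' s3 s4 L L' ix ix' B) (hT' : T ≤ L'.T)

include H hT'

theorem Sb.tm (hb : b ≤ l + 3) (w : G (s + 1)) (e j f1 f2 f3 f4 : ℕ) {c : ℕ}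
    (hc : c = cd s3 s4 (Finsupp.single j 1)) (h : 0 < e → f1 + f2 + f3 + f4 + 1 = l ∧
      f1 + 4 * f2 + 13 * f3 + 40 * f4 + L.dg (ix w) + wt 3 j = T) :
    (tm3 B (wm L' T (l - 1) (b - 1)) e c (ix w) f2 f3 f4).R fun p =>
      ψ9 (p9 L' ix' (R'.y s w) (b - 1) (e • (X j * eM f1 f2 f3 f4)) p) := by
  refine (congrArg _ (_root_.funext fun p => ?_)).mp (P.R.sm e (v := fun p =>
    ψ9 (p9 L' ix' (R'.y s w) (b - 1) (X j * eM f1 f2 f3 f4) p)) fun h0 => ?_)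
  · rw [map_nsmul, Pi.smul_apply, Pi.smul_apply, map_nsmul, Nat.cast_smul_eq_nsmul]
  obtain ⟨rfl, rfl⟩ := h (Nat.pos_of_ne_zero fun h1 => h0 (by rw [h1, Nat.cast_zero]))
  have h1 : wtM (Finsupp.single j 1) = wt 3 j := by simp [Finsupp.weight_single]
  have h2 := H.st.msk (a := 0) (b := b - 1) (F := Finsupp.single j 1) (w := w)
    (T := f1 + 4 * f2 + 13 * f3 + 40 * f4 + L.dg (ix w)) (l := f1 + f2 + f3 + f4) (h1 ▸ hT')
    (e2 := f2) (e3 := f3) (e4 := f4) ⟨H.st.ok.lt w, by omega, by omega⟩ (by omega) (Nat.zero_le _)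
  rw [h1, show f1 + f2 + f3 + f4 - (f2 + f3 + f4) = f1 by omega, dly_eq,
    cr_congr (S' := (· < b - 1)) fun _ _ _ => by simp [win]] at h2
  rw [p9_apply, cr9_map, eM, ← dl_bw, ← H.bc.dl, bc_bw, map_X, hc]
  exact h2

theorem Sb.rt (hb : b ≤ l + 3) (hl : l < b) {w : G (s + 1)} {e2 e3 e4 : ℕ}
    (ha : Adm L T l (ix w) e2 e3 e4) :
    (rt B (wm L' T (l - 1) (b - 1)) (nU (b - 1 - l)) l (ix w) e2 e3 e4).R
      (cr9 L' ix' (b - 1) (R'.sd (s + 1) (bw w (mk4 (l - (e2 + e3 + e4)) e2 e3 e4)))) := by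
  obtain ⟨-, h1, h2⟩ := ha
  obtain ⟨e1, rfl⟩ : ∃ e1, l = e1 + (e2 + e3 + e4) := ⟨_, (Nat.sub_add_cancel h1).symm⟩
  have h3 := H.s9 (b - 1 - (e1 + (e2 + e3 + e4))) (by omega) 0 w e1 e2 e3 e4 (by
    rw [wtM, map_zero]
    omega)
  have h4 := p9_eq_zero (L := L') (ix := ix') (y := R'.y s w) (n := b - 1)
    (Ideal.pow_le_pow_right (by omega) (ap9_mon e1 e2 e3 e4))
  rw [map_sub, sub_eq_zero, map_add, map_nsmul] at h4
  rw [show cd s3 s4 0 = 0 by simp [cd], show (monomial 0 1 : Γ9) = 1 from rfl, one_mul,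
    show e1 + e2 + e3 + e4 + (b - 1 - (e1 + (e2 + e3 + e4))) = b - 1 by omega] at h3
  rw [Nat.add_sub_cancel, ← Rs.dl_one, dl_bw, one_mul, ← p9_apply, ← eM, h4, P236K3.rt, force_eq,
    show Nat.sub (e1 + (e2 + e3 + e4)) (Nat.add (Nat.add e2 e3) e4) = e1 from
      Nat.add_sub_cancel .., rt1, force_eq, rt2, force_eq, rt3, force_eq,
    rt4]
  refine h3.add (P9.R.thr ((congrArg _ (_root_.funext fun p => ?_)).mp
    (((H.tm hT' hb w e1 0 (e1 - 1) e2 e3 e4 (cd_0 _ _ _).symm fun h => ?_).add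
      (H.tm hT' hb w e2 1 e1 (e2 - 1) e3 e4 (cd_1 _ _ _).symm fun h => ?_)).add
    ((H.tm hT' hb w e3 2 e1 e2 (e3 - 1) e4 (by rw [H.k2, cd_2, mul_one]) fun h => ?_).add
      (H.tm hT' hb w e4 3 e1 e2 e3 (e4 - 1) (by
        rw [H.k3]; simp [cd, Finsupp.weight_single, wt]) fun h => ?_)))))
  · simp only [map_add, Pi.add_apply]
  · rw [show wt 3 0 = 1 from rfl]; omega
  · rw [show wt 3 1 = 4 from rfl]; omega
  · rw [show wt 3 2 = 13 from rfl]; omega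
  · rw [show wt 3 3 = 40 from rfl]; omega

variable {o w : ℤ} (hd : ∀ g, R.deg (s + 1) g = L.dg (ix g) + o) (hw : w = T + o) (hT : T ≤ L.T)
  (hab : a ≤ b) (hb : b ≤ a + 3)

include hd hw hT hab hb

theorem Sb.run : ∀ x u, u ∈ HZ L ix T a → x.R (cr L ix (win a b) u) →
    ∃ u' ∈ PA 3 (R'.deg (s + 1)) w (II 3 K9 ^ a), P236EL.bc ψ9 _ _ u' = u ∧ ∀ κ z ζ, z.R ζ →
      (loop (bkL B L L' T a b) (b - a) ⟨bkE⟩).f κ x z = true →
      ∃ z' : P9, z'.R (ζ + cr9 L' ix' (b - 1) (R'.sd (s + 1) u')) ∧ κ z'.h = true := by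
  subst hw
  refine loop_ind (Q := fun kk : KQ => ∀ x u, u ∈ HZ L ix T a → x.R (cr L ix (win a b) u) →
    ∃ u' ∈ PA 3 (R'.deg (s + 1)) (T + o) (II 3 K9 ^ a), P236EL.bc ψ9 _ _ u' = u ∧ ∀ κ z ζ, z.R ζ →
      kk.f κ x z = true → ∃ z' : P9, z'.R (ζ + cr9 L' ix' (b - 1) (R'.sd (s + 1) u')) ∧
        κ z'.h = true) (fun x u hu hx => ?_) fun j hj kk hkk => ?_
  · rw [← H.bc.deg]
    by_cases h0 : Nat.lor x.a x.b = 0
    · obtain ⟨u', h1, h2⟩ := exists_lift_PA (Q := 9) rfl ψ9 ((mem_PA_iff hd).2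
        ⟨hu.1, mem_of_cr H.st.ok hT hu.1 hb hu.2 (rp_eq_zero hx h0)⟩)
      refine ⟨u', fun g => ⟨(h1 g).1, Ideal.pow_le_pow_right hab (h1 g).2⟩, h2,
        fun κ z ζ hz hk => ⟨z, ?_, (zc_spec hk).1⟩⟩
      rwa [cr9_II (Rs.sd_mem_ZA (inv_II.pow b) fun g => (h1 g).2), add_zero]
    · obtain ⟨u', h1, h2⟩ := exists_lift_PA (Q := 9) rfl ψ9 ((mem_PA_iff hd).2 hu)
      exact ⟨u', h1, h2, fun κ z ζ hz hk => absurd (zc_spec hk).2 h0⟩
  rw [bkL, force_eq, bk0, force_eq, bk1, force_eq, bk2]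
  refine enum_ind (Q := fun kk : KQ => ∀ x u, u ∈ HZ L ix T a → x.R (cr L ix (win a b) u) →
    ∃ u' ∈ PA 3 (R'.deg (s + 1)) (T + o) (II 3 K9 ^ a), P236EL.bc ψ9 _ _ u' = u ∧ ∀ κ z ζ, z.R ζ →
      kk.f κ x z = true → ∃ z' : P9, z'.R (ζ + cr9 L' ix' (b - 1) (R'.sd (s + 1) u')) ∧
        κ z'.h = true) hkk fun i e2 e3 e4 kk ha hkk x u hu hx => ?_
  obtain ⟨g, rfl⟩ := H.st.ok.sur i ha.1
  obtain ⟨t, ht⟩ : ∃ t, ∀ κ z m n, (bk3 B L m n (Nat.add a j) (ix g) e2 e3 e4 kk).f κ x z =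
      bk6 B m n (a + j) (ix g) e2 e3 e4 kk κ x z (L.pos (ix g) + (3 * e3 + e4)) t :=
    ⟨_, fun κ z m n => by
      change bk4 _ _ _ _ _ _ _ _ _ _ _ _ _ = _
      rw [bk4, force_eq, bk5, force_eq]
      rfl⟩
  simp only [ht, bk6]
  cases Nat.beq t (nat_lit 0) with
  | true => exact hkk x u hu hx
  | false =>
    have h3 : a ≤ a.add j ∧ a.add j < b := ⟨Nat.le_add_right a j, by change a + j < b; omega⟩
    have h4 := bv_mem (a := a) ha.wt.1 (ha.wt.2.1.symm ▸ h3.1)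
    obtain ⟨u', h5, h6, h7⟩ := hkk _ _ (sub_mem hu (Submodule.smul_mem _ (t : K) h4)) (by
      rw [map_sub, map_smul, cr_bv _ (ha.wt.2.1.symm ▸ h3), ha.wt.2.2, sub_eq_add_neg]
      exact hx.add (P.R.sm t fun _ => un_R _).neg)
    refine ⟨_, add_mem (nsmul_mem (bw_mem (g := g) ?_ (ha.wt.2.1.symm ▸ h3.1)) t) h5, ?_,
      fun κ z ζ hz hk => ?_⟩
    · have h8 := ha.wt.1
      rw [← H.bc.deg, hd]
      omega
    · rw [map_add, map_nsmul, bc_bw, h6, Nat.cast_smul_eq_nsmul, add_sub_cancel]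
    · obtain ⟨z', h8, h9⟩ := h7 κ _ _ (hz.add (P9.R.sm t fun _ =>
        H.rt hT' (hb.trans (Nat.add_le_add_right h3.1 3)) h3.2 ha)) hk
      refine ⟨z', ?_, h9⟩
      rwa [map_add, map_add, map_nsmul, map_nsmul, ← add_assoc, ← Nat.cast_smul_eq_nsmul K9]

/-- **the Bockstein homomorphism in coordinates** -/
theorem Sb.bk (hd' : ∀ g, R.deg (s + 2) g = L'.dg (ix' g) + o) {v : VC} {u : G (s + 1) → A}
    (hv : VR L ix T a b v u) (hz : R.sd (s + 1) u ∈ ZA _ (I ^ b)) :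
    ∃ u' ∈ PA 3 (R'.deg (s + 1)) w (II 3 K9 ^ a), P236EL.bc ψ9 _ _ u' = u ∧ ∃ e,
      R'.sd (s + 1) u' - 3 • e ∈ ZA _ (II 3 K9 ^ b) ∧
      VR L' ix' T (a - 1) (b - 1) (v.bk B L L' T a b) (P236EL.bc ψ9 _ _ e) := by
  obtain ⟨x, hx⟩ := rp_ex (v := cr L ix (win a b) u) fun p hp => cr_top H.st.ok hT hv.hz.1 hp
  obtain ⟨u', h1, rfl, h2⟩ := H.run hT' hd hw hT hab hb x u hv.hz hx
  have h3 := Rs.sd_mem_PA (inv_II.pow a) h1
  obtain ⟨e, h4, h5⟩ := exists_div_PA (Q := 9) rfl ψ9 h3 (H.bc.sd _ _ ▸ hz)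
  have h6 := bc_mem_ZA (Q := 9) (p := 3) rfl ψ9 (u := e) (a := a) (by
    simpa using sub_mem (show _ ∈ ZA _ _ from fun g => (h3 g).2)
      (Rs.ZA_mono (Ideal.pow_le_pow_right hab) h5))
  refine ⟨u', h1, rfl, e, h5, ⟨(hm_iff hd').2 fun g m hm => ?_, h6⟩, fun κ hk => ?_⟩
  · rw [← hw, H.bc.deg]
    exact (h4 g).1 fun h0 => hm (by rw [bc_apply, coeff_map, h0, map_zero])
  · obtain ⟨x', h7, h8⟩ := hv.run _ hk
    obtain rfl := rp_uq hx h7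
    obtain ⟨z, h9, h10⟩ := h2 κ _ _ P9.R_zero h8
    have h11 := cr9_II (L := L') (ix := ix') h5
    rw [map_sub, sub_eq_zero, map_nsmul] at h11
    rw [zero_add, h11] at h9
    refine ⟨_, ?_, h10⟩
    rw [cr_congr_I h6 (S' := (· < b - 1)) fun j hj => by simp [win, hj], ← cr9_map]
    exact h9.of_thr

end Vale.Agent.P236K3

end
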