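import Vale.Agent.P236K3.Bk4
import Vale.Agent.P236F.Ds
import Vale.Agent.P236KE.Bc9

/-!
# P236K3 / Bk5 : the Bockstein homomorphism for the sphere and for complexes with cells
-/

noncomputable section

namespace Vale.Agent.P236K3

open MvPolynomial Vale.Agent.P236EL Vale.Agent.P236KE Vale.Agent.P236K2 Vale.Agent.P236F
open Vale.Agent.P236KE.S90 Vale.Agent.P251.F Vale.Agent.P251.F.F3 Vale.Agent.P257.H80

/-- rows modulo nine of a complex -/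
structure KB : Type where
  q : Nat → R9
  k2 : Nat
  k3 : Nat

/-- the Bockstein homomorphism -/
def KD.bk (D : KD) (E : KB) (s s' T a b : Nat) (v : VC) : VC :=
  v.bk ⟨D.r s, E.q s, E.k2, E.k3⟩ (D.L s) (D.L s') T a b

def sq2 (S : Sq) (T k q d q' : Nat) : R9 := rs9 k (S.D q) d (sL S T q')
def sq1 (S : Sq) (T k q d : Nat) : R9 := force (Nat.succ q) (sq2 S T k q d)
def sq0 (S : Sq) (T k q : Nat) : R9 := force (S.d q) (sq1 S T k q)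
/-- the data of a tabulated resolution -/
def kbS (S : Sq) (T k k2 k3 : Nat) : KB := ⟨sq0 S T k, k2, k3⟩

def tq4 (a : Nat → Nat → Nat) (r : R9) (N n e2 e3 e4 w c j : Nat) (acc : P9) (x : Nat) : P9 :=
  P9.add (P9.shl (P9.sm (a c j) (r.f n x w e2 e3 e4)) (Nat.mul j N)) acc
def tq3 (Y : CD) (a : Nat → Nat → Nat) (r : R9) (N n x e2 e3 e4 w c j : Nat) (acc : P9) : P9 :=
  force (Nat.add x (Nat.sub (Y.d c) (Y.d j))) (tq4 a r N n e2 e3 e4 w c j acc)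
def tq2 (Y : CD) (a : Nat → Nat → Nat) (r : R9) (N n x e2 e3 e4 w c : Nat) : P9 :=
  loop (tq3 Y a r N n x e2 e3 e4 w c) Y.m P9.zero
def tq1 (Y : CD) (a : Nat → Nat → Nat) (r : R9) (m N n x i e2 e3 e4 w : Nat) : P9 :=
  force (Nat.div i m) (tq2 Y a r N n x e2 e3 e4 w)
def tq0 (Y : CD) (a : Nat → Nat → Nat) (r : R9) (m N n x i e2 e3 e4 : Nat) : P9 :=
  force (Nat.mod i m) (tq1 Y a r m N n x i e2 e3 e4)
def tQ2 (Y : CD) (a : Nat → Nat → Nat) (r : R9) (m N : Nat) : R9 := ⟨tq0 Y a r m N⟩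
def tQ1 (Y : CD) (a : Nat → Nat → Nat) (r : R9) (L' : LD) (m : Nat) : R9 :=
  force L'.N (tQ2 Y a r m)
def tQ (Y : CD) (a : Nat → Nat → Nat) (r : R9) (L L' : LD) : R9 := force L.n (tQ1 Y a r L')
def tB1 (Y : CD) (a : Nat → Nat → Nat) (D : KD) (E : KB) (q q' : Nat) : R9 :=
  tQ Y a (E.q q) (D.L q) (D.L q')
def tB0 (Y : CD) (a : Nat → Nat → Nat) (D : KD) (E : KB) (q : Nat) : R9 :=
  force (Nat.succ q) (tB1 Y a D E q)
/-- the data of the complex with cells -/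
def tB (Y : CD) (a : Nat → Nat → Nat) (D : KD) (E : KB) : KB := ⟨tB0 Y a D E, E.k2, E.k3⟩

theorem loop_R9 {g : ℕ → P9 → P9} {v : ℕ → V9} (m : ℕ)
    (h : ∀ j < m, ∀ x u, x.R u → (g j x).R (v j + u)) :
    (loop g m P9.zero).R (∑ j ∈ Finset.range m, v j) := by
  induction m with
  | zero => exact P9.R_zero
  | succ m ih =>
    rw [Finset.sum_range_succ_comm]
    exact h m m.lt_succ_self _ _ (ih fun j hj => h j (hj.trans m.lt_succ_self))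

section tens

variable {ι : Type} [Fintype ι] [DecidableEq ι] {Y : CD} {Z₃ : Ga K ι} {Z' : Ga K9 ι} {ic : ι → ℕ}
  {o : ℤ} {W W' : Type} {L L' : LD} {ix : W → ℕ} {ix' : W' → ℕ} {a : ℕ → ℕ → ℕ}

/-- the data describe the cells modulo three and modulo nine -/
structure CO (Y : CD) (a : ℕ → ℕ → ℕ) (Z₃ : Ga K ι) (Z' : Ga K9 ι) (ic : ι → ℕ) (o : ℤ) : Prop where
  ok : Y.Ok Z₃ ic o
  d : Z₃.d = Z'.d
  r : ∀ c c', Z₃.a c c' = ψ9 (Z'.a c c')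
  a : ∀ c c', (a (ic c) (ic c') : K9) = Z'.a c c' * (-1) ^ (Y.d (ic c) - Y.d (ic c'))

variable [Fintype W'] [Fact (Nat.Prime 3)] (hY : CO Y a Z₃ Z' ic o)

include hY

theorem CO.ps (c c' : ι) : (Z'.cm 3).ps c c' =
    (a (ic c) (ic c') : Γ9) * X 0 ^ (Y.d (ic c) - Y.d (ic c')) := by
  change Z'.ent _ _ c c' = _
  rw [Ga.ent, ← map_natCast ((C : A9 →+* Γ9).comp C), hY.a, map_mul, map_pow, map_neg, map_one,
    ← hY.d, hY.ok.d, hY.ok.d, add_sub_add_right_eq_sub, Int.toNat_sub]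
  exact (congrArg _ (neg_pow (X 0 : Γ9) _)).trans (mul_assoc _ _ _).symm

theorem p9_tens (hL : L'.Ok ix') (y : W' → (ℕ →₀ ℕ) → A9) (c : ι) (n : ℕ) (F : ℕ →₀ ℕ) (g : Γ9) :
    p9 (tL Y L') (tix L' ix' ic) (fun b : W' × ι => mulF ((Z'.cm 3).ps c b.2) (y b.1)) n
      (monomial F 1 * g) = ∑ j ∈ Finset.range Y.m, sh9 (j * L'.N) ((a (ic c) j : K9) •
        p9 L' ix' y n (monomial (F + Finsupp.single 0 (Y.d (ic c) - Y.d j)) 1 * g)) := by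
  rw [p9_apply, cr9_apply, Fintype.sum_prod_type, Finset.sum_comm, ← hY.ok.sum]
  refine Finset.sum_congr rfl fun c' _ => ?_
  rw [Nat.cast_smul_eq_nsmul, ← map_nsmul, p9_apply, cr9_apply, map_sum, mon9_add]
  refine Finset.sum_congr rfl fun w _ => ?_
  rw [sh_cm9, tix, tL_pos (hL.lt w)]
  refine congrArg _ ((rAp_mulF _ _ _ _).trans ?_)
  rw [map_id, hY.ps, mul_assoc, ← mul_assoc (X 0 ^ _), mul_comm (X 0 ^ _), nsmul_eq_mul]
  rfl

theorem st9_tens (hL : L.Ok ix) (hL' : L'.Ok ix') {y : W → W' → (ℕ →₀ ℕ) → A9} {s3 s4 : ℕ} {r : R9}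
    (h : St9 y L ix L' ix' s3 s4 r) :
    St9 (fun (a : W × ι) (b : W' × ι) => mulF ((Z'.cm 3).ps a.2 b.2) (y a.1 b.1)) (tL Y L)
      (tix L ix ic) (tL Y L') (tix L' ix' ic) s3 s4 (tQ Y a r L L') := by
  intro k hk F g e1 e2 e3 e4 hT
  have h0 := hL.lt g.1
  rw [tix, tL_dg h0] at hT
  rw [p9_tens hY hL', tix]
  change P9.R (tq2 Y a r L'.N _ _ e2 e3 e4 ((ix g.1 + L.n * ic g.2) % L.n)
    ((ix g.1 + L.n * ic g.2) / L.n)) _
  rw [Nat.add_mul_mod_self_left, Nat.mod_eq_of_lt h0, Nat.add_mul_div_left _ _ (by omega),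
    Nat.div_eq_of_lt h0, zero_add, tq2]
  refine loop_R9 _ fun j hj x u hx => ?_
  rw [tq3, force_eq, tq4]
  refine ((P9.R.sm _ fun h1 => ?_).shl _).add hx
  obtain ⟨c, rfl⟩ := hY.ok.sur j hj
  have h2 : Y.d (ic c) ≤ Y.d (ic g.2) := not_lt.1 fun h2 => h1 (by
    rw [hY.a, Z'.low _ _ (by rw [← hY.d, hY.ok.d, hY.ok.d]; omega), zero_mul])
  have h3 := h k hk (F + Finsupp.single 0 (Y.d (ic g.2) - Y.d (ic c))) g.1 e1 e2 e3 e4 (by
    rw [wtM_add, show wt 3 0 = 1 from rfl]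
    change _ ≤ L'.T at hT
    omega)
  rwa [cd_add, cd_0] at h3

end tens

variable [Fact (Nat.Prime 3)] {G : ℕ → Type} [∀ q, Fintype (G q)]

/-- the data describe the complex modulo three and modulo nine -/
structure Cb (R : Rs 3 K G) (R' : Rs 3 K9 G) (o : ℤ) (Tm s3 s4 : ℕ) (D : KD) (E : KB)
    (ix : ∀ q, G (q + 1) → ℕ) : Prop where
  cx : Cx R o Tm s3 s4 D ix
  bc : Bc ψ9 R' R
  s9 : ∀ q, St9 (R'.y q) (D.L q) (ix q) (D.L (q + 1)) (ix (q + 1)) s3 s4 (E.q q)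
  k2 : E.k2 = 13 + 384 * s3
  k3 : E.k3 = 40 + 384 * s4

theorem cb_sq (S : Sq) {T k k2 k3 : ℕ} (hT : T < 120) (hk : k = (13 + 384 * S.s3) * 3)
    (h2 : k2 = 13 + 384 * S.s3) (h3 : k3 = 40 + 384 * S.s4) :
    Cb (S.rs K) (S.rs K9) 0 T S.s3 S.s4 (kdS S T k) (kbS S T k k2 k3) fun _ => Fin.val := by
  refine ⟨cx_sq S hT hk, S.bc ψ9, fun q => ?_, h2, h3⟩
  have e : ∀ q, ((kdS S T k).L q).dg = byte (S.d q) := fun q => by
    change (sL S T q).dg = _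
    rw [sL, force_eq, sL1, force_eq, sL2]
    rfl
  have e' : (kbS S T k k2 k3).q q = rs9 k (S.D q) (S.d q) ((kdS S T k).L (q + 1)) := by
    change sq0 S T _ q = _
    rw [sq0, force_eq, sq1, force_eq, sq2]
    rfl
  rw [e']
  exact hk ▸ st9_yOf ((cx_sq S hT rfl).st (q + 1)).ok (S.D q) (hk ▸ e q) (hk ▸ e (q + 1)) _ _

namespace Cb

variable {R : Rs 3 K G} {R' : Rs 3 K9 G} {o w : ℤ} {Tm s3 s4 : ℕ} {D : KD} {E : KB}
  {ix : ∀ q, G (q + 1) → ℕ} (h : Cb R R' o Tm s3 s4 D E ix)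

include h

theorem tens [Unique (G 0)] {ι : Type} [Fintype ι] [DecidableEq ι] {Y : CD} {Z₃ : Ga K ι}
    {Z' : Ga K9 ι} {ic : ι → ℕ} {o' : ℤ} {a : ℕ → ℕ → ℕ} (hY : CO Y a Z₃ Z' ic o')
    (h0 : R.deg 0 default = 0) (h1 : R.th default default = 1) (h0' : R'.deg 0 default = 0)
    (h1' : R'.th default default = 1) : Cb (R.tens h0 h1 (Z₃.cm 3)) (R'.tens h0' h1' (Z'.cm 3))
      (o + o') Tm s3 s4 (tK Y D) (tB Y a D E) fun q => tix (D.L q) (ix q) ic :=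
  ⟨cx_tens h.cx hY.ok h0 h1, h.bc.ga hY.d hY.r,
    fun q => st9_tens hY (h.cx.st q).ok (h.cx.st q).ok' (h.s9 q), h.k2, h.k3⟩

variable {s s' T a b : ℕ} {v : VC} {u : G (s + 1) → A} (hw : w = T + o) (hs : s + 1 = s')
  (hT : T ≤ Tm) (hab : a ≤ b) (hb : b ≤ a + 3) (hv : VR (D.L s) (ix s) T a b v u)

include hw hs hT hab hb hv

/-- **the Bockstein homomorphism in coordinates** -/
theorem bk (hz : R.sd (s + 1) u ∈ ZA _ (I ^ b)) :
    ∃ u' ∈ PA 3 (R'.deg (s + 1)) w (II 3 K9 ^ a), P236EL.bc ψ9 _ _ u' = u ∧ ∃ e,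
      R'.sd (s + 1) u' - 3 • e ∈ ZA _ (II 3 K9 ^ b) ∧ VR (D.L (s + 1)) (ix (s + 1)) T (a - 1) (b - 1)
        (D.bk E s s' T a b v) (P236EL.bc ψ9 _ _ e) := by
  subst hs
  exact Sb.bk ⟨h.bc, h.cx.st s, h.s9 s, h.k2, h.k3⟩ ((h.cx.hT _).symm ▸ hT) (h.cx.deg s) hw
    ((h.cx.hT _).symm ▸ hT) hab hb (h.cx.deg (s + 1)) hv hz

/-- **the Bockstein homomorphism on represented classes** -/
theorem rv [DecidableEq (G 0)] {hP : PLoc 3 K} {hQ : PLoc 3 K9} {θ : G 0 → G 0 → Cob Laz 1}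
    (hC : IC hP R θ) (hC' : IC hQ R' θ) {F F' : Type} [Field F] [Field F'] {π : K →+* F}
    {π' : K9 →+* F'} {T₀ : ℤ} (hR : R.Ok π 3 (s + 1) T₀) (hR' : R'.Ok π' 3 (s + 1) T₀) (hw' : w ≤ T₀)
    {x : G 0 → Cob Laz s} (hx : Rv hP R s w a b x u) {c : G 0 → Cob Laz (s + 1)}
    (hc : c ∈ CW 3 Laz (R.deg 0) w (s + 1))
    (hd : P236EL.DD θ s x - 3 • c ∈ QW 3 Laz (R.deg 0) w 9 (s + 1)) :
    ∃ y ∈ CW 3 Laz (R.deg 0) w s, ∃ e, Rv hP R (s + 1) w (a - 1) (b - 1) (c - P236EL.DD θ s y) e ∧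
      VR (D.L (s + 1)) (ix (s + 1)) T (a - 1) (b - 1) (D.bk E s s' T a b v) e := by
  have h1 : P236EL.DD θ s x ∈ QW 3 Laz (R.deg 0) w 3 (s + 1) := by
    simpa using add_mem (QW_mono (show 3 ∣ 9 by decide) hd) (mem_QW.2 ⟨c, hc, rfl⟩)
  obtain ⟨u', h2, rfl, e, h3, h4⟩ := h.bk hw hs hT hab hb hv (by
    simpa using sub_mem (Ph_mem_ZA (hQ := hP) (R := R) (inv_II.pow b) (QW_le_Fl _ h1))
      (hx.DD hC hR hw' hb))
  rw [h.bc.deg] at hc hd ⊢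
  exact (Rv.bock rfl h.bc hC' hR' hw' hab hb hx h2 hc hd h3).imp fun y hy => ⟨hy.1, _, hy.2, h4⟩

end Cb

def cd9 (c j : Nat) : Nat :=
  Bool.rec (motive := fun _ => Nat) (nat_lit 0) (byte (nat_lit 132865) (Nat.sub c j)) (Nat.ble j c)

theorem co_two : CO (cdN 2) cd9 (Ga.two 2) (Ga.two 2) Fin.val 0 :=
  ⟨cdN_two, rfl, by decide +revert, by decide +revert⟩

theorem co_three : CO (cdN 3) cd9 (Ga.three 2 2 2 rfl) (Ga.three 2 2 2 rfl) Fin.val 0 :=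
  ⟨cdN_three, rfl, by decide +revert, by decide +revert⟩

/-- the sphere -/
def bS (T : Nat) : KB := kbS sph T (nat_lit 26535) (nat_lit 8845) (nat_lit 61864)
/-- two cells -/
def bA (T : Nat) : KB := tB (cdN (nat_lit 2)) cd9 (dS T) (bS T)
/-- three cells -/
def bY (T : Nat) : KB := tB (cdN (nat_lit 3)) cd9 (dS T) (bS T)

variable (T : ℕ) (hT : T < 120)

include hT

theorem cbS : Cb (sph.rs K) (sph.rs K9) 0 T sph.s3 sph.s4 (dS T) (bS T) fun _ => Fin.val :=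
  cb_sq sph hT sph_k (by decide +kernel) (by decide +kernel)

theorem cbA : Cb ((sph.rs K).tens rfl rfl ((Ga.two 2).cm 3))
    ((sph.rs K9).tens rfl rfl ((Ga.two 2).cm 3)) 0 T sph.s3 sph.s4 (dA T) (bA T)
    fun q => tix ((dS T).L q) Fin.val Fin.val := (cbS T hT).tens co_two rfl rfl rfl rfl

theorem cbY : Cb ((sph.rs K).tens rfl rfl ((Ga.three 2 2 2 rfl).cm 3))
    ((sph.rs K9).tens rfl rfl ((Ga.three 2 2 2 rfl).cm 3)) 0 T sph.s3 sph.s4 (dY T) (bY T)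
    fun q => tix ((dS T).L q) Fin.val Fin.val := (cbS T hT).tens co_three rfl rfl rfl rfl

end Vale.Agent.P236K3

end
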