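import Vale.Agent.P236K3.Bk6
import Vale.Agent.P236F.Nm

/-!
# P236K3 / Bz1 : cochains which are cocycles modulo a filtration
-/

noncomputable section

namespace Vale.Agent.P236EL

open Vale.Agent.P251.F Vale.Agent.P251.I Vale.Agent.P236SY Vale.Agent.P236R MvPolynomial Ch
open Vale.Agent.P236KE Vale.Agent.P236K3 Vale.Agent.P236F AddSubgroup Vale.Agent.P236KE.S90

namespace WC'

variable (D : KD) (s T : Nat)

/-- the vector is not a boundary in the window -/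
def nbZ (a b : Nat) (v : WC') : Bool :=
  bnd D s T (exa (D.L s) T a b v fun p => D.noB s T a b (cst' p))
/-- two vectors agree up to a boundary in the window -/
def eqC (a b : Nat) (v v' : WC') : Bool :=
  bnd D s T (exa (D.L s) T a b v fun p => exa (D.L s) T a b v' fun p' =>
    D.inB s T a b [] ((cst' p).add (cst' p').neg))
/-- the listed terms generate in filtration `k` -/
def glC (a k n : Nat) (l : List Tr) : Bool := force (Nat.succ k) fun b =>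
  bnd D s T (grd (okL (D.L s) T a b l) (D.gen s T a k n [vcL (D.L s) l]))

end WC'

theorem WR.exa {W : Type} [Fintype W] {L : LD} {ix : W → ℕ} (hL : L.Ok ix) {v : WC'} {u : W → A}
    (h : WR L ix v u) {T a b : ℕ} (hb : b ≤ a + 3) {κ : P → Bool}
    (hc : WC'.exa L T a b v κ = true) : ∃ p, VR L ix T a b (cst' p) u ∧ κ p = true := by
  obtain ⟨_, _, b', p, ⟨rfl, rfl, -, h1⟩, h2⟩ := h.fit hL hb _ hc
  obtain ⟨h3, h4⟩ := grd_spec h2
  obtain rfl := Nat.eq_of_beq_eq_true h3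
  exact ⟨p, vr_cst h1.vp, h4⟩

theorem wr_lst {W : Type} [Fintype W] {L : LD} {ix : W → ℕ} (hL : L.Ok ix) (T a b : ℕ)
    (l : List Tr) : WR L ix (WC'.lst L T a b l) (vL ix l) :=
  (ok_lst hL T a b l).mono fun _ _ _ _ h => h.2.2.2

variable [hp : Fact (Nat.Prime 3)]

section Wx

variable {G : ℕ → Type} [∀ q, Fintype (G q)] {R : Rs 3 K G} {θ : G 0 → G 0 → Cob Laz 1} {D : KD}
  {ix : ∀ q, G (q + 1) → ℕ} {s T a b k n : ℕ} {x : G 0 → Cob Laz s} {v v' : WC'}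
  {u : G (s + 1) → A} [DecidableEq (G 0)] {Tm s3 s4 : ℕ} (H : Wx R θ D ix Tm s3 s4)

include H

theorem Wx.nb (h : WR (D.L s) (ix s) v u) (hb : b ≤ a + 3) (hc : WC'.nbZ D s T a b v = true) :
    u ∉ R.Bd s T a b := by
  obtain ⟨p, h1, h2⟩ := h.exa (H.ok s) hb (H.bnd hc).2.2.2
  exact H.cx.noB (add_zero _).symm (H.bnd hc).2.1 hb h1 h2

theorem Wx.rc_of (h : CV R θ D ix s x v) (h' : WR (D.L s) (ix s) v' u) (hb : b ≤ a + 3)
    (hc : WC'.eqC D s T a b v v' = true) : Rc R θ s T a b x u := by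
  obtain ⟨u', p, h1, h2, h3⟩ := H.exa h (H.bnd hc).2.2.2
  obtain ⟨p', h4, h5⟩ := h'.exa (H.ok s) hb h3
  exact h1.congr (sub_eq_add_neg u' u ▸
    H.cx.inB' (add_zero _).symm (H.bnd hc).2.1 hb (h2.add h4.neg) h5)

theorem Wx.gl {l : List Tr} (h1 : a ≤ k) (h2 : k + 1 ≤ a + 3) (h3 : n ≤ k + 3)
    (hc : WC'.glC D s T a k n l = true) :
    R.Cy s T k n ≤ zmultiples (vL (ix s) l) ⊔ R.Bd s T a (k + 1) :=
  have h4 := grd_spec (H.bnd hc).2.2.2
  H.cx.gen (add_zero _).symm (H.bnd hc).2.1 h1 h2 h3 (.cons (vr_vL (H.ok s) h4.1) .nil)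
    (fun _ h => List.mem_singleton.1 h ▸ mem_zmultiples _) h4.2

/-- a cochain with given terms whose differential has high filtration -/
theorem Wx.almost {l : List Tr} (hc : WC'.cyC D s T a (a + 3) l = true) :
    ∃ z, Rv p3 R s T a (a + 3) z (vL (ix s) l) ∧
      DD θ s z ∈ Fl p3 _ (s + 1) (II 3 (ZMod 3) ^ (a + 3)) := by
  have h0 := H.bnd hc
  have h1 := H.cy le_rfl hc
  obtain ⟨z, h2, h3, h4, h5⟩ := H.wd.ic.surj (H.wd.ok' (n := s + 1) (by omega)) h0.2.2.1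
    (inv_II.pow a) (inv_II.pow (a + 3)) (by rw [← pow_add]) h1.1 h1.2
  exact ⟨z, ⟨h2, h3, Rs.mem_Bd.2 h5⟩, h4⟩

/-- a cocycle of filtration `a + 1` which is visible in filtration `a + 2` generates -/
theorem Wx.vis {l : List Tr} (hx : x ∈ ZC 3 θ (R.deg 0) T 3 s)
    (hx' : x ∈ Fl p3 _ s (II 3 (ZMod 3) ^ (a + 1))) (h0 : ¬ Rv p3 R s T a (a + 3) x 0)
    (h1 : WC'.glC D s T a (a + 1) (a + 3) [] = true)
    (h2 : WC'.glC D s T a (a + 2) (a + 3) l = true) (hg : Hg R θ (a + 3) T (zmultiples x)) :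
    Hg R θ (a + 2) T (zmultiples x) := by
  obtain ⟨hs, -, hw, -⟩ := H.bnd h1
  have h3 := H.gl (by omega) le_rfl (by omega) h2
  have h4 : ∀ {b b' : ℕ} {l : List Tr}, Rv p3 R s T a b x 0 →
      R.Cy s T b (a + 3) ≤ zmultiples (vL (ix s) l) ⊔ R.Bd s T a b' →
      ∃ c : ℤ, Rv p3 R s T a b' x (c • vL (ix s) l) := fun h h' => by
    obtain ⟨_, ⟨c, rfl⟩, h5⟩ := h.refine H.wd.ic (H.wd.ok' (by omega)) hw le_rfl (zero_mem _)
      (ZC_DD_Fl hx _) h'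
    exact ⟨c, by simpa using h5⟩
  obtain ⟨c, h5⟩ := h4 (Rv.of_Fl hx.1 (by omega) hx') (H.gl (by omega) (by omega) (by omega) h1)
  obtain ⟨c, h6⟩ := h4 (h5.cast rfl rfl (smul_zero c)) h3
  refine H.wd.hi_step (by omega) hw (by omega) le_rfl (by omega) (h3.trans (sup_le_sup_right
    (zmultiples_le_of_mem (mem_of_zsmul (p := 3) (c := c) rfl ?_ ?_)) _)) hg
  · rintro ⟨c, rfl⟩
    exact h0 (h6.cast rfl rfl (by rw [mul_comm, mul_smul, p_zsmul rfl, smul_zero]))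
  · exact ⟨x, mem_zmultiples x, .of hx h6⟩

end Wx

theorem lcz_Fl {ι : Type} {m s n : ℕ} (h : m + s = n) {K : Ideal A} {z : Cob Laz m}
    (hz : rs p3 m z ∈ Fil 3 K) (x : ι → Cob Laz s) : lc ι h z x ∈ Fl p3 ι n K := by
  simpa using lc_mem_Fl h (inv_II.pow 0) hz (mem_Fl_zero x)

theorem mc_Fl {ι κ : Type} [Fintype ι] {m s n : ℕ} (h : s + m = n) {K : Ideal A}
    {F : ι → Cob Laz s} (hF : F ∈ Fl p3 ι s K) (φ : ι → κ → Cob Laz m) :
    mc h F φ ∈ Fl p3 κ n K := by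
  rw [mc_eq]
  exact sum_mem fun c _ => lcz_Fl h (hF c) _

theorem pt_v1 (k : ℕ) : (univ K).pt 3 k (X 0) = (univ K).pt 3 0 (X 0) := by
  induction k with
  | zero => rfl
  | succ k ih =>
    rw [← ih, pt_X, pt_X, vtx, tg_one, ← map_natCast C, show ((3 : ℕ) : K) = 0 from rfl, map_zero,
      zero_mul, add_zero]

theorem sesA : Ses rS rA rS (bf sph.G (0 : Fin 2)) (pf sph.G (1 : Fin 2)) (pf sph.G (0 : Fin 2))
    (bf sph.G (1 : Fin 2)) 0 (-1) where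
  hi := hm_iA
  hf := hm_jA
  hρ := dg_pf _
  hσ := dg_bf _
  ρi _ _ := funext fun w => (zm_pf _ _ w).trans ((zm_bf _ _ w _).trans (if_pos rfl))
  fσ _ _ := funext fun w => (zm_pf _ _ w).trans ((zm_bf _ _ w _).trans (if_pos rfl))
  sp _ u := funext fun ⟨w, c⟩ => by
    refine (congrArg₂ (fun x y : A => x + y) (zm_bf _ _ w c) (zm_bf _ _ w c)).trans ?_
    fin_cases c
    exacts [(zero_add _).trans (zm_pf _ u w), (add_zero _).trans (zm_pf _ u w)]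

omit hp in
theorem zs_two {t : Cob Laz 1} (ht : IsT1 3 t) : (fun _ => 2 * t) ∈ ZS 1 1 := by
  rw [two_mul]
  exact add_mem (zs_t ht) (zs_t ht)

/-- the connecting map of `C α` -/
abbrev cnz (s : ℕ) (u : sph.G (s + 1) → A) : sph.G (s + 2) → A :=
  zm _ (pf sph.G (0 : Fin 2) (s + 2)) (rA.sd (s + 1) (zm _ (bf sph.G (1 : Fin 2) (s + 1)) u))

variable {t : Cob Laz 1} (ht : IsT1 3 t) {s a b : ℕ} {w w' : ℤ} {z : Cob Laz s}
  {u : sph.G (s + 1) → A} (h : Rv p3 rS s w a b (fun _ => z) u) (hs : s ≤ 59) (hb : b ≤ a + 3)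
  (hd : rs p3 (s + 1) (Cob.d s z) ∈ Fil 3 (II 3 (ZMod 3) ^ b))

include h

theorem rv_wt : Cob.IsWt ((((3 : ℕ) : ℤ) - 1) * w) z := sub_zero w ▸ h.cw default

include hs hb hd

/-- the product on the right with a coboundary -/
theorem rv_rb {ω : ℤ} {y : Fin 1 → Cob Laz 1} (hy : y ∈ BS ω 1) (e : w + ω = w') (hw : w' ≤ 90)
    (hab : a ≤ b) : Rv p3 rS (s + 1) w' a b (lc (Fin 1) rfl z y) 0 := by
  obtain ⟨y, h1, v, h2, rfl⟩ := mem_BQ_succ.1 hy
  have H := (wS 90 le_rfl).wd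
  have h3 := rv_wt h
  have h4 := congrArg (((-1 : ℤ) ^ s) • ·) (sub_eq_iff_eq_add'.2 (DD_lc mc_zero rfl z y))
  simp only [neg_one_smul_smul] at h4
  subst e
  have h5 : Rv p3 rS (s + 1) (w + ω) a b (DD 0 s (lc (Fin 1) rfl z y)) 0 :=
    .of_BF H.ic (H.ok' (by omega)) hw hb ⟨_, ⟨lc_mem_CW rfl h3 h1, lcz_Fl rfl (h.fl default) y⟩, rfl⟩
  have h6 : Rv p3 rS (s + 1) (w + ω) a b (lc (Fin 1) rfl (Cob.d s z) y) 0 :=
    .of_Fl (lc_mem_CW _ h3.d h1) hab (lcz_Fl _ hd y)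
  have h7 : Rv p3 rS (s + 1) (w + ω) a b (lc (Fin 1) rfl z (3 • v)) 0 :=
    .of_QW (lc_mem_QW rfl h3 (mem_QW.2 ⟨v, h2, rfl⟩))
  exact (((h5.sub h6).zsmul _).add h7).cast rfl ((congrArg (· + _) h4).trans (map_add _ _ _).symm)
    (by simp)

include ht

theorem rv_cn (hw : w + 1 ≤ 90) : Rv p3 rS (s + 1) (w + 1) a b
    (((-1 : ℤ) ^ (s + 1)) • lc (Fin 1) rfl z fun _ => 2 * t) (cnz s u) := by
  have H := (wA ht 90 le_rfl).wd
  have h3 := rv_wt h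
  have h1 : Pi.single (1 : Fin 2) z ∈ CW 3 Laz (dF 2) (w + 1) s := fun c => by
    fin_cases c
    exacts [Cob.isWt_zero _, P236Z.Det.isWt_cast h3 (by simp [dF])]
  have h2 : DD (θA t) s (Pi.single 1 z) - ![((-1 : ℤ) ^ (s + 1)) • Cob.cup z (2 * t), 0] =
      Pi.single 1 (Cob.d s z) := by
    rw [DD_single']
    funext c
    fin_cases c <;> simp [θA, Cob.cup]
  refine (sesA.conn (w := w + 1) H.ic (H.ok' (by omega)) hw hb h1 (single_mem_Fl _ (h.fl default))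
    (h.cast (by ring) (funext fun c => (zm_pf_zero (1 : Fin 2) (Pi.single 1 z) c).symm) rfl) ?_
    (zsmul_mem (lcz_Fl (ι := Fin 1) rfl (h.fl default) _) _) ?_).cast (add_zero _) rfl rfl
  · exact (add_zero (w + 1)).symm ▸ zsmul_mem (lc_mem_CW rfl h3 (zs_two ht).1) _
  · refine (congrArg (· ∈ _) (h2.symm.trans (congrArg _ (funext fun c => ?_)))).mp
      (single_mem_Fl (1 : Fin 2) hd)
    refine Eq.trans ?_ (zm_bf_zero _ _ c).symm
    fin_cases c <;> rfl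

/-- the product on the right with `v_1 h_0` -/
theorem rv_rh (e : w + 2 = w') (hw : w' ≤ 90) (hab : a ≤ b) : Rv p3 rS (s + 1) w' (1 + a) (1 + b)
    (((-1 : ℤ) ^ (s + 1)) • lc (Fin 1) rfl z fun _ => cupE (zero_add 1) v1 (2 * t))
    (vm 1 (cnz s u)) := by
  have h1 := lc_mem_CW rfl (rv_wt h) (zs_cupE (zero_add 1) (zs_v1 ht) rfl (zs_two ht)).1
  have h2 := (wS 90 le_rfl).wd.vm (k := 1) ht (by omega) hw (by omega) (zero_add _) hb
    (rv_cn ht h hs hb hd (by omega))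
  have h3 : rs p3 (s + 1) (cupE rfl z (cupE (zero_add 1) v1 (2 * t))) =
      rs p3 (s + 1) (cupE (zero_add _) (v1 ^ 1) (cupE rfl z (2 * t))) := by
    simp only [rs_cupE, pow_one, v1, rs_v1 p3 rfl, map_mul (sh 3 _ s), sh_zero, sh_pt, pt_v1]
    ring
  have h4 : (((-1 : ℤ) ^ (s + 1)) • lc (Fin 1) rfl z fun _ => cupE (zero_add 1) v1 (2 * t)) -
      lc (Fin 1) (zero_add _) (v1 ^ 1) (((-1 : ℤ) ^ (s + 1)) • lc (Fin 1) rfl z fun _ => 2 * t) ∈
      Fl p3 _ (s + 1) (II 3 (ZMod 3) ^ (1 + b)) := by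
    rw [map_zsmul, ← smul_sub]
    refine zsmul_mem ((mem_Fl p3).2 fun c => ?_) _
    rw [Pi.sub_apply, map_sub, lc_apply, lc_apply, lc_apply, h3, sub_self]
    exact zero_mem _
  exact h2.of_sub (by omega) (e ▸ zsmul_mem h1 _) h4

end Vale.Agent.P236EL

end
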