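import Vale.Agent.P236K3.Bz1

/-!
# P236K3 / Bz2 : the stems 333 and 345 of the three cell complex
-/

noncomputable section

namespace Vale.Agent.P236EL

open Vale.Agent.P251.F Vale.Agent.P251.I Vale.Agent.P236SY Vale.Agent.P236R MvPolynomial
open Vale.Agent.P236KE Vale.Agent.P236K3 Vale.Agent.P236F AddSubgroup Vale.Agent.P236KE.S90

variable [hp : Fact (Nat.Prime 3)] {t : Cob Laz 1} (ht : IsT1 3 t)

include ht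

theorem l334 : LY t 87 14 := (wY ht 87 (by decide)).line (T := 87) 0 [⟨29, 0, 0, 0, 0, 1⟩]
  (by decide +kernel) (by decide +kernel) (by decide +kernel)

theorem l333 : LY t 87 15 := (wY ht 87 (by decide)).line (T := 87) 0 [⟨83, 0, 0, 0, 0, 1⟩]
  (by decide +kernel) (by decide +kernel) (by decide +kernel)

theorem ex334 : ∃ G ∈ ZY t 87 14, ∀ c ∈ ZY t 87 15, DD (θY t) 14 G = 3 • c → c ∉ BY t 87 15 := by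
  have B := wbY ht 87 (by decide)
  obtain ⟨G, h⟩ := B.wx.lift (s := 14) (T := 87) (k := 0) (l := [⟨29, 0, 0, 0, 0, 1⟩,
    ⟨58, 0, 1, 0, 0, 1⟩, ⟨91, 1, 0, 0, 0, 2⟩, ⟨51, 0, 1, 1, 0, 2⟩, ⟨59, 2, 0, 0, 0, 2⟩])
    (by decide +kernel) (B.wx.kv (by decide +kernel))
  have h1 := B.wx.ext' h (B.wx.cy (b := 3) le_rfl (by decide +kernel)) (by decide +kernel)
  exact ⟨G, h.zc, fun c hc hd => B.wx.ne (T := 87) (k := 0) (B.bock (B.wx.nm' h1 (by decide)) 87 hc hd)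
    (.refl le_rfl) (by decide +kernel)⟩

/-- the terms of a class of stem 331 -/
def l331 : List Tr := [⟨7, 0, 9, 2, 0, 1⟩, ⟨121, 11, 0, 0, 0, 1⟩, ⟨51, 1, 9, 2, 0, 2⟩,
  ⟨54, 0, 11, 1, 0, 1⟩, ⟨10, 1, 10, 1, 0, 1⟩, ⟨101, 2, 9, 1, 0, 2⟩, ⟨59, 0, 12, 0, 0, 1⟩,
  ⟨106, 1, 11, 0, 0, 1⟩, ⟨18, 8, 2, 2, 0, 2⟩, ⟨66, 8, 3, 1, 0, 1⟩, ⟨112, 7, 5, 0, 0, 2⟩,
  ⟨112, 10, 1, 1, 0, 2⟩, ⟨68, 9, 3, 0, 0, 1⟩, ⟨114, 10, 2, 0, 0, 2⟩, ⟨95, 2, 9, 2, 0, 1⟩,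
  ⟨98, 1, 11, 1, 0, 1⟩, ⟨100, 0, 13, 0, 0, 2⟩, ⟨108, 4, 9, 0, 0, 1⟩, ⟨110, 9, 3, 1, 0, 1⟩,
  ⟨23, 10, 3, 0, 0, 2⟩, ⟨69, 11, 2, 0, 0, 1⟩, ⟨70, 11, 2, 0, 0, 2⟩]

/-- the terms of a cochain of stem 330 on the sphere -/
def l330 : List Tr := [⟨15, 0, 10, 0, 0, 1⟩, ⟨17, 9, 0, 2, 0, 2⟩, ⟨20, 7, 4, 0, 0, 1⟩,
  ⟨20, 10, 0, 1, 0, 2⟩, ⟨24, 9, 2, 0, 0, 1⟩, ⟨0, 0, 9, 3, 0, 2⟩, ⟨16, 6, 5, 1, 0, 1⟩,
  ⟨21, 9, 3, 0, 0, 1⟩]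

theorem ex331 : ∃ F ∈ ZY t 84 5, ∀ c ∈ ZY t 84 6, DD (θY t) 5 F = 3 • c →
    Rc rY (θY t) 6 84 10 12 c (zm _ (bf sph.G (0 : Fin 3) 7) (vL (iS 6) l330)) := by
  have B := wbY ht 84 (by decide)
  obtain ⟨F, h⟩ := B.wx.lift (s := 5) (T := 84) (k := 11) (l := l331) (by decide +kernel)
    (B.wx.kv (by decide +kernel))
  have h1 := B.wx.ext' h (B.wx.cy (b := 14) le_rfl (by decide +kernel)) (by decide +kernel)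
  exact ⟨F, h.zc, fun c hc hd => B.wx.rc_of (T := 84) (B.bock (B.wx.nm' h1 (by decide)) 84 hc hd)
    (op_bf (T := 84) (by decide) 0 _ _ (wr_lst (okS (by decide)) 84 10 13 l330)) (by decide)
    (by decide +kernel)⟩

theorem nb337 : vm 1 (cnz 6 (vL (iS 6) l330)) ∉ rS.Bd 7 86 9 12 :=
  (wS 86 (by decide)).nb (T := 86) (WR.v1 ((wS 86 (by decide)).cx.hT 7) 1
    (op_pf (T := 86) (by decide) 0 _ _ (op_sd (wA ht 86 (by decide)).cx _ _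
      (op_bf (T := 86) (by decide) 1 _ _ (wr_lst (okS (by decide)) 84 10 13 l330))))) (by decide)
    (by decide +kernel)

theorem hg345 {x : Fin 3 → Cob Laz 7} (hx : x ∈ ZY t 88 7)
    (hx' : x ∈ Fl p3 _ 7 (II 3 (ZMod 3) ^ 10)) (h0 : ¬ Rv p3 rY 7 88 9 12 x 0) :
    Hg rY (θY t) 4 88 (zmultiples x) :=
  have H := wY ht 88 (by decide)
  H.skip (T := 88) (a := 4) (b := 11) (by decide +kernel) (H.vis (a := 9)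
    (l := [⟨95, 1, 10, 0, 0, 1⟩, ⟨110, 11, 0, 0, 0, 1⟩]) hx hx' h0 (by decide +kernel)
    (by decide +kernel) (H.top (by decide +kernel)))

theorem vt14 : ZT t 4 2 ≤ BT t 4 2 :=
  ((wA ht 4 (by decide)).top (T := 4) (a := 0) (by decide +kernel)).van

end Vale.Agent.P236EL

end
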