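import Vale.Agent.P236K3.Bz2
import Vale.Agent.P236R.Z330

/-!
# P236K3 / Bz3 : permanent cycles in the stems 331, 330 and 345 of `Y ⊗ M`
-/

namespace Vale.Agent.P236EL

open Vale.Agent.P251.F Vale.Agent.P251.I Vale.Agent.P236SY Vale.Agent.P236R MvPolynomial
open Vale.Agent.P236KE Vale.Agent.P236K3 Vale.Agent.P236F AddSubgroup Vale.Agent.P236KE.S90

variable [hp : Fact (Nat.Prime 3)] {t : Cob Laz 1} (ht : IsT1 3 t) {s a b : ℕ} {w w' : ℤ}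

theorem rv_e0 {z : Cob Laz s} {u : sph.G (s + 1) → A} (h : Rv p3 rS s w a b (fun _ => z) u) :
    Rv p3 rY s w a b (Pi.single (0 : Fin 3) z) (zm _ (bf sph.G (0 : Fin 3) (s + 1)) u) :=
  (h.zm hm_e0).cast (add_zero _) (funext fun c : Fin 3 => (zm_bf_zero _ _ c).trans (by
    fin_cases c <;> rfl)) rfl

theorem rv_jy {x : Fin 3 → Cob Laz s} (h : Rv p3 rY s w a b x 0) (e : w + -2 = w') :
    Rv p3 rS s w' a b (fun _ => x 2) 0 :=
  (h.zm hm_top).cast e (funext (zm_pf_zero _ x)) (map_zero _)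

include ht

/-- **The class of level 11 in stem 345** is the image of a Bockstein from stem 331. -/
theorem alg345 : ∃ F ∈ ZY t 84 5, ∀ c ∈ ZY t 84 6, DD (θY t) 5 F = 3 • c →
    ∃ a, a - c ∈ BY t 84 6 ∧ ∀ A : Fin 3 → Fin 3 → Cob Laz 1,
      (∀ j, A j ∈ CW 3 Laz (dF 3) (dF 3 j + 4) 1) →
      ((fun _ => cupE (zero_add 1) v1 (2 * t)) - fun _ => A 0 2) ∈ BS 2 1 →
      mc (show 6 + 1 = 7 from rfl) a A ∈ ZY t 88 7 →
      Hg rY (θY t) 4 88 (zmultiples (mc (show 6 + 1 = 7 from rfl) a A)) := by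
  refine (ex331 ht).imp fun F h => ⟨h.1, fun c hc hd => ?_⟩
  obtain ⟨y, hy, h1⟩ := (h.2 c hc hd).ex
  obtain ⟨z, h2, h3⟩ : ∃ z : Cob Laz 6, Rv p3 rS 6 84 10 13 (fun _ => z) (vL (iS 6) l330) ∧
      rs p3 7 (Cob.d 6 z) ∈ Fil 3 (II 3 (ZMod 3) ^ 13) := by
    obtain ⟨z, h2, h3⟩ := (wS 84 (by decide)).almost (s := 6) (T := 84) (a := 10) (l := l330)
      (by decide +kernel)
    exact ⟨z default, h2.cast rfl (zs_eta z) rfl, DD_zero z default ▸ h3 default⟩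
  have H := (wY ht 90 le_rfl).wd
  have h4 : DD (θY t) 6 (Pi.single 0 z) ∈ Fl p3 _ 7 (II 3 (ZMod 3) ^ 12) := by
    rw [DD_single θY_zero fun _ => z, DD_zero]
    exact single_mem_Fl _ (Fil_mono (Ideal.pow_le_pow_right (by decide)) h3)
  obtain ⟨e, he, h5, h6⟩ := ((h1.sub ((rv_e0 h2).mono le_rfl (by decide))).cast rfl rfl
    (sub_self _)).raise H.ic (H.ok' (by decide)) (by decide) (by decide) le_rfl (zero_mem _) (by
      rw [map_sub]
      exact sub_mem (ZC_DD_Fl (sub_mem hc (H.bz hy)) _) h4)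
  obtain ⟨r, h7, h8, h9⟩ : ∃ r ∈ CW 3 Laz (dF 3) 84 6, r ∈ Fl p3 _ 6 (II 3 (ZMod 3) ^ 12) ∧
      Pi.single 0 z + r - c ∈ BY t 84 6 := ⟨_, h6.cw, h5, by
    have h7 : ∀ y e : Fin 3 → Cob Laz 6, Pi.single 0 z + (c - y - Pi.single 0 z - e) - c =
      -(y + e) := fun y e => by abel
    exact (h7 y e).symm ▸ neg_mem (add_mem hy (mem_sup_left (BF_le_BC p3 _ _ _ _ _ he)))⟩
  refine ⟨_, h9, fun A hA h10 hx => hg345 ht hx (mc_Fl _ (add_mem (single_mem_Fl _ (h2.fl default))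
    (Fl_mono p3 (Ideal.pow_le_pow_right (by decide)) h8)) A) fun h11 => nb337 ht ?_⟩
  have h12 : Rv p3 rS 7 86 9 12 (fun _ => mc (show 6 + 1 = 7 from rfl) r A 2) 0 :=
    rv_jy (.of_Fl (mc_mem_CW _ h7 hA) (by decide) (mc_Fl _ h8 A)) rfl
  have h13 := (((rv_jy h11 (w' := 86) rfl).sub h12).add ((rv_rb h2 (by decide) le_rfl h3 h10 rfl
    (by decide) (by decide)).mono (by decide) (by decide))).zsmul ((-1) ^ (6 + 1))
  have h14 := (rv_rh ht h2 (by decide) le_rfl h3 (w' := 86) rfl (by decide) (by decide)).mono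
    (a' := 9) (b' := 12) (by decide) (by decide)
  have h15 : mc (show 6 + 1 = 7 from rfl) (Pi.single 0 z + r) A 2 - mc rfl r A 2 +
      cupH rfl z (cupE (zero_add 1) v1 (2 * t) - A 0 2) =
        cupE rfl z (cupE (zero_add 1) v1 (2 * t)) := by
    rw [map_add, AddMonoidHom.add_apply, Pi.add_apply, add_sub_cancel_right, map_sub, mc_apply,
      Fin.sum_univ_three]
    simp [← cupH_apply]
  have h16 := ((h13.cast rfl (congrArg _ (funext fun _ => h15)) (u' := 0) (by simp)).sub h14).cast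
    rfl (sub_self _) (zero_sub _)
  simpa only [map_zero, zero_sub, neg_neg] using h16.bd

/-- **The Bockstein of the generator of stem 334 is a generator.** -/
theorem bock334 {G : Fin 3 → Cob Laz 14} (hG : G ∈ ZY t 87 14) (h0 : G ∉ BY t 87 14)
    {c : Fin 3 → Cob Laz 15} (hc : c ∈ ZY t 87 15) (hd : DD (θY t) 14 G = 3 • c) :
    c ∉ BY t 87 15 := fun h => by
  obtain ⟨G', h1, h2⟩ := ex334 ht
  obtain ⟨_, ⟨k, rfl⟩, _, h3, rfl⟩ := mem_sup.1 (l334 ht G hG h0 h1)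
  obtain ⟨y, hy, u, hu, rfl⟩ := mem_BQ_succ.1 h3
  have h4 : DD (θY t) 14 u ∈ BY t 87 15 := mem_sup_left ⟨u, hu, rfl⟩
  refine h2 _ (add_mem (zsmul_mem hc k) ((wY ht 90 le_rfl).wd.bz h4)) ?_
    (add_mem (zsmul_mem h k) h4)
  rw [map_add, map_add, map_zsmul, hd, DD_DD (mc_Y ht), map_nsmul, zero_add, smul_add, smul_comm]

end Vale.Agent.P236EL

open CategoryTheory MonoidalCategory Limits Pretriangulated MonObj

namespace Vale.Agent.P236SY.Cx.CY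

open GData Vale.Agent.P251 Vale.Agent.P251.T Vale.Agent.P251.S Vale.Agent.P251.H Vale.Agent.P251.M
  Vale.Agent.P251.F Vale.Agent.P251.I TD Vale.Agent.P236EL Vale.Agent.P236F Vale.Agent.P236R
  Vale.Agent.P236Z
open Vale.Agent.P251.St (SHCat)

variable {T : SHCat} {t : Cob Laz 1} {C : Cx T} (P : C.CY t) (ht : IsT1 3 t)

/-- The matrix of the linear extension of a self map. -/
theorem exists_mat {m w : ℤ} {b : ℕ} {f : C.o P.Y ⟶ P.oZ} (hf : C.E.Dg m b f)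
    {F : Fin 3 → Cob Laz b} (hF : C.E.Rep m b (C.E.ι P.e₀ ≫ f) (C.psi (mE P.eY) b F))
    (hw : F ∈ CW 3 Laz (dF 3) w b) (hm : m + b = 4 * w) : ∃ A : Fin 3 → Fin 3 → Cob Laz b,
      (∀ j, A j ∈ CW 3 Laz (dF 3) (dF 3 j + w) b) ∧ A 0 - F ∈ BY t w b ∧
      ∀ {a r : ℕ} {n l : ℤ} {x : C.o C.Γ ⟶ P.oZ} {G : Fin 3 → Cob Laz a},
        C.E.Rep n a x (C.psi (mE P.eY) a G) → ∀ h : a + b = r, n + m = l →
        C.E.Rep l r ((a * m : ℤ).negOnePow • x ≫ C.hat f) (C.psi (mE P.eY) r (mc h G A)) := by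
  obtain ⟨c, hc⟩ := hf.exists_rep
  choose A hA h1 using fun j => P.chY.cm.surj (w := dF 3 j + w)
    (C.E.deg_act (P.chY.cm.cells.deg j) (rep_hat hc).deg (by omega))
  refine ⟨A, hA, P.chY.cm.rep_uniq ?_ hF (by simpa using hA 0) hw hm,
    fun hx h hl => rep_post hx (rep_hat hc) h1 h hl⟩
  rw [← h1, C.E.act_comp, act_cr, Category.assoc, ← C.E.K.Qm_comp, ← io_comp, red_muZ, io_id,
    C.E.K.Qm_id, Category.comp_id, eY_zero, show C.E.act (C.E.K.un _ ≫ C.E.K.Qm 1 P.e₀) c = _ from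
      (C.E.act_mid _ _ _).trans (act_eS 0)]
  exact hc.ι_comp (m := 0) P.st₃.deg₁ (zero_add _)

variable (hA : P236K.EA) (hR : FR t) (hH : VH t) (h : F330 t)
include ht hA hR hH h

/-- All classes of stem 331 and degree 5 are permanent. -/
theorem perm331 {F : Fin 3 → Cob Laz 5} (hF : F ∈ ZY t 84 5) :
    ∃ x, C.E.Rep 331 5 x (C.psi (mE P.eY) 5 F) :=
  P.chY.cm.exists_rep_of hF rfl fun y hy => by
    obtain ⟨y, hy', rfl⟩ := P.chY.cm.div3 (s := 7) (s' := 10) (w := 85) hy rfl rfl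
    rw [P.z0_330 ht hA hR hH h y hy', zero_comp]

/-- Their Bocksteins are permanent. -/
theorem perm330 {F : Fin 3 → Cob Laz 5} (hF : F ∈ ZY t 84 5) {c : Fin 3 → Cob Laz 6}
    (hc : c ∈ CW 3 Laz (dF 3) 84 6) (hd : DD (θY t) 5 F = 3 • c) :
    ∃ x, C.E.Rep 330 6 x (C.psi (mE P.eY) 6 c) := by
  obtain ⟨x, hx⟩ := P.perm331 ht hA hR hH h hF
  obtain ⟨u, hu⟩ := P.chY.rep_δ 5 331
  exact ⟨_, hu hx hF.1 hc hd rfl rfl⟩

/-- **The classes of stem 345, degree 7 and level at least 4 are permanent.** -/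
theorem perm345 [Fact (Nat.Prime 3)] {F : Fin 3 → Cob Laz 7} (hF : F ∈ ZY t 88 7)
    (hF' : F ∈ Fl p3 (Fin 3) 7 (II 3 (ZMod 3) ^ 4)) :
    ∃ x, C.E.Rep 345 7 x (C.psi (mE P.eY) 7 F) := by
  obtain ⟨G, hG, h1⟩ := alg345 ht
  obtain ⟨-, c, hc, hd⟩ := cy_iff.1 hG
  obtain ⟨a, h2, h3⟩ := h1 c (P.chY.cy_bock hc hd) hd
  obtain ⟨x, hx⟩ := P.perm330 ht hA hR hH h hG hc hd
  have h4 := zs_cupE (zero_add 1) (zs_v1 ht) (w' := 2) rfl (zs_two ht)
  obtain ⟨z, hz, h5⟩ := P.ex_jy h4 (vt14 ht (P.dr_atil ((cmS (C := C)).exists_d5 h4 rfl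
    rfl).choose_spec ht rfl rfl).cy) rfl
  obtain ⟨y, hy⟩ := P.chY.cm.exists_rep_of (n := 15) hz rfl (P.z0_Y₀ ht (by decide))
  obtain ⟨g, hg, rfl⟩ := P.ext_Y hy.dg (P.z0_Y₀ ht (by decide)) (P.z0_Z₀ ht hH (by decide))
  obtain ⟨A, h6, h7, h8⟩ := P.exists_mat hg hy hz.1 rfl
  have h9 := h8 (P.chY.cm.rep_congr (w := 84) hx h2 rfl) (r := 7) (l := 345) rfl rfl
  have h10 := P.chY.cm.cy_of_rep h9 (mc_mem_CW (ω := 4) _ (by
    simpa using add_mem (P.chY.cm.cw_of_by h2) hc) h6)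
  exact mem_cls_top.1 (P.chY.cm.zm_le (w := 88) rfl (mem_cls_top.2 ⟨_, h9⟩) (h3 A h6
    ((congrArg (· ∈ _) (funext fun _ => sub_sub_sub_cancel_right _ _ _)).mp
      (sub_mem h5 (top_BQ (w' := 2) rfl h7))) h10 F hF hF'))

end Vale.Agent.P236SY.Cx.CY
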