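import Vale.Agent.P236K3.Vec
import Vale.Agent.P236KE.Idl
import Vale.Agent.P236EL.Fact

/-!
# P236K3 / Cr : coordinates of small cochains in a window of three lengths
-/

noncomputable section

namespace Vale.Agent.P236K3

open MvPolynomial Vale.Agent.P236EL Vale.Agent.P236KE Vale.Agent.P236K2

/-- the ground field -/
abbrev K : Type := ZMod 3
/-- the coefficient ring -/
abbrev A : Type := AA K
/-- the augmentation ideal -/
abbrev I : Ideal A := II 3 K
/-- weights -/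
abbrev wtM (J : ℕ →₀ ℕ) : ℕ := Finsupp.weight (wt 3) J

theorem mem_I_pow {n : ℕ} {a : A} : a ∈ I ^ n ↔ ∀ J, coeff J a ≠ 0 → n ≤ lenM J := by
  refine ⟨fun h J hJ => not_lt.1 fun h1 => hJ ?_, fun h => ?_⟩
  · obtain ⟨c, hc⟩ := pow_dvd_coeff n a h J
    rw [hc, show (3 : K) = 0 from rfl, zero_pow (by omega), zero_mul]
  · rw [a.as_sum]
    refine Ideal.sum_mem _ fun J hJ => monomial_mem_pow ?_
    rw [Nat.sub_eq_zero_of_le (h J (mem_support_iff.1 hJ)), pow_zero]
    exact one_dvd _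

/-- the place of a monomial -/
def pl (J : ℕ →₀ ℕ) : ℕ := 3 * J 2 + J 3

theorem pl_add (J J' : ℕ →₀ ℕ) : pl (J + J') = pl J + pl J' := by
  simp only [pl, Finsupp.add_apply]
  omega

open Classical in
/-- coordinates of a polynomial -/
def crm (S : ℕ → Prop) (o : ℕ) : A →ₗ[K] V :=
  (basisMonomials ℕ K).constr K fun J => if S (lenM J) then Pi.single (o + pl J) 1 else 0

variable {S S' : ℕ → Prop} {o : ℕ} {a : A}

open Classical in
theorem crm_monomial (S : ℕ → Prop) (o : ℕ) (J : ℕ →₀ ℕ) (c : K) :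
    crm S o (monomial J c) = if S (lenM J) then Pi.single (o + pl J) c else 0 := by
  have h : (monomial J c : A) = c • basisMonomials ℕ K J := by
    rw [coe_basisMonomials, smul_monomial, smul_eq_mul, mul_one]
  rw [h, map_smul, crm, Module.Basis.constr_basis]
  split_ifs
  · rw [← Pi.single_smul, smul_eq_mul, mul_one]
  · exact smul_zero _

open Classical in
theorem crm_eq (S : ℕ → Prop) (o : ℕ) (a : A) : crm S o a =
    ∑ J ∈ a.support, if S (lenM J) then Pi.single (o + pl J) (coeff J a) else 0 := by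
  conv_lhs => rw [a.as_sum, map_sum]
  exact Finset.sum_congr rfl fun J _ => crm_monomial S o J _

theorem crm_congr (h : ∀ J, coeff J a ≠ 0 → (S (lenM J) ↔ S' (lenM J))) :
    crm S o a = crm S' o a := by
  classical
  rw [crm_eq, crm_eq]
  exact Finset.sum_congr rfl fun J hJ => if_congr (h J (mem_support_iff.1 hJ)) rfl rfl

theorem crm_eq_zero (h : ∀ J, coeff J a ≠ 0 → ¬ S (lenM J)) : crm S o a = 0 := by
  rw [crm_eq]
  exact Finset.sum_eq_zero fun J hJ => if_neg (h J (mem_support_iff.1 hJ))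

theorem crm_mul (S : ℕ → Prop) (o : ℕ) (M : ℕ →₀ ℕ) (a : A) :
    crm S o (monomial M 1 * a) = sh (pl M) (crm (fun j => S (lenM M + j)) o a) := by
  induction a using MvPolynomial.induction_on' with
  | monomial J c =>
    rw [monomial_mul, one_mul, crm_monomial, crm_monomial, lenM, map_add, pl_add]
    split_ifs
    · rw [sh_single, add_comm (pl M), add_assoc]
    · exact (map_zero _).symm
  | add a b ha hb => rw [mul_add, map_add, map_add, map_add, ha, hb]

theorem sh_crm (s : ℕ) (S : ℕ → Prop) (o : ℕ) (a : A) : sh s (crm S o a) = crm S (o + s) a := by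
  induction a using MvPolynomial.induction_on' with
  | monomial J c =>
    rw [crm_monomial, crm_monomial]
    split_ifs
    · rw [sh_single, add_right_comm]
    · exact map_zero _
  | add a b ha hb => rw [map_add, map_add, map_add, ha, hb]

theorem crm_ne {p : ℕ} (h : crm S o a p ≠ 0) :
    ∃ J, coeff J a ≠ 0 ∧ S (lenM J) ∧ p = o + pl J := by
  rw [crm_eq, Finset.sum_apply] at h
  obtain ⟨J, hJ, h1⟩ := Finset.exists_ne_zero_of_sum_ne_zero h
  split_ifs at h1 with h2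
  · exact ⟨J, mem_support_iff.1 hJ, h2, by_contra fun h3 => h1 (Pi.single_eq_of_ne h3 _)⟩
  · exact absurd rfl h1

theorem crm_at {J : ℕ →₀ ℕ} (hJ : S (lenM J))
    (h : ∀ J', coeff J' a ≠ 0 → S (lenM J') → pl J' = pl J → J' = J) :
    crm S o a (o + pl J) = coeff J a := by
  rw [crm_eq, Finset.sum_apply, Finset.sum_eq_single J, if_pos hJ, Pi.single_eq_same]
  · intro J' h1 h2
    split_ifs with h3
    · exact Pi.single_eq_of_ne (fun h4 => h2 (h J' (mem_support_iff.1 h1) h3 (by omega))) _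
    · rfl
  · intro h1
    rw [notMem_support_iff.1 h1, Pi.single_zero, ite_self, Pi.zero_apply]

theorem wt_len {J : ℕ →₀ ℕ} (h : wtM J < 121) :
    wtM J = J 0 + 4 * J 1 + 13 * J 2 + 40 * J 3 ∧ lenM J = J 0 + J 1 + J 2 + J 3 := by
  have h1 := eq_mk4 h
  refine ⟨by rw [wtM, h1, weight_wt_mk4, ← h1], ?_⟩
  rw [lenM, h1, weight_mk4, ← h1]
  omega

/-- windows -/
def win (a b : ℕ) (j : ℕ) : Prop := a ≤ j ∧ j < b

/-- layouts -/
structure LD : Type where
  T : Nat
  n : Nat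
  N : Nat
  dg : Nat → Nat
  pos : Nat → Nat
  cm : Nat → Nat

/-- the room needed by a generator -/
def LD.sz (L : LD) (i : ℕ) : ℕ := 3 * ((L.T - L.dg i) / 13)

/-- correct layouts -/
structure LD.Ok (L : LD) {G : Type} (ix : G → ℕ) : Prop where
  hT : L.T < 120
  inj : Function.Injective ix
  lt : ∀ w, ix w < L.n
  sur : ∀ i < L.n, ∃ w, ix w = i
  disj : ∀ i < L.n, ∀ i' < L.n, ∀ j ≤ L.sz i, ∀ j' ≤ L.sz i', L.pos i + j = L.pos i' + j' → i = i'
  top : ∀ i < L.n, L.pos i + L.sz i < L.N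
  msk : ∀ i < L.n, ∀ j ≤ L.sz i, ∀ r, (L.cm r).testBit (L.pos i + j) = decide (L.dg i % 3 = r % 3)

variable {G : Type} [Fintype G] {L : LD} {ix : G → ℕ}

variable (L ix) in
/-- coordinates -/
def cr (S : ℕ → Prop) : (G → A) →ₗ[K] V :=
  ∑ w, (crm S (L.pos (ix w))).comp (LinearMap.proj w)

theorem cr_apply (S : ℕ → Prop) (u : G → A) :
    cr L ix S u = ∑ w, crm S (L.pos (ix w)) (u w) := by
  rw [cr, LinearMap.sum_apply]
  rfl

variable (L ix) in
/-- homogeneous vectors -/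
def Hm (T : ℕ) (u : G → A) : Prop := ∀ w J, coeff J (u w) ≠ 0 → wtM J + L.dg (ix w) = T

variable {T : ℕ} {u : G → A}

theorem cr_congr (h : ∀ w J, coeff J (u w) ≠ 0 → (S (lenM J) ↔ S' (lenM J))) :
    cr L ix S u = cr L ix S' u := by
  rw [cr_apply, cr_apply]
  exact Finset.sum_congr rfl fun w _ => crm_congr (h w)

theorem cr_congr_I {n : ℕ} (hu : u ∈ ZA G (I ^ n)) (h : ∀ j, n ≤ j → (S j ↔ S' j)) :
    cr L ix S u = cr L ix S' u := cr_congr fun w J hJ => h _ (mem_I_pow.1 (hu w) J hJ)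

theorem cr_eq_zero {n : ℕ} (hu : u ∈ ZA G (I ^ n)) (h : ∀ j, n ≤ j → ¬ S j) :
    cr L ix S u = 0 := by
  rw [cr_apply]
  exact Finset.sum_eq_zero fun w _ => crm_eq_zero fun J hJ => h _ (mem_I_pow.1 (hu w) J hJ)

theorem cr_mul (S : ℕ → Prop) (M : ℕ →₀ ℕ) (u : G → A) :
    cr L ix S (fun w => monomial M 1 * u w) = sh (pl M) (cr L ix (fun j => S (lenM M + j)) u) := by
  rw [cr_apply, cr_apply, map_sum]
  exact Finset.sum_congr rfl fun w _ => crm_mul S _ M _

theorem cr_single [DecidableEq G] (S : ℕ → Prop) (w : G) (a : A) :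
    cr L ix S (Pi.single w a) = crm S (L.pos (ix w)) a := by
  rw [cr_apply, Finset.sum_eq_single w, Pi.single_eq_same]
  · intro w' _ h
    rw [Pi.single_eq_of_ne h, map_zero]
  · exact fun h => absurd (Finset.mem_univ w) h

omit [Fintype G] in
theorem LD.Ok.pl_le (hL : L.Ok ix) (hT : T ≤ L.T) {i : ℕ} {J : ℕ →₀ ℕ}
    (h : wtM J + L.dg i = T) : pl J ≤ L.sz i := by
  have h1 := hL.hT
  have h2 := (wt_len (J := J) (by omega)).1
  rw [pl, LD.sz]
  omega

theorem cr_ne {p : ℕ} (h : cr L ix S u p ≠ 0) :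
    ∃ w J, coeff J (u w) ≠ 0 ∧ S (lenM J) ∧ p = L.pos (ix w) + pl J := by
  rw [cr_apply, Finset.sum_apply] at h
  obtain ⟨w, -, h1⟩ := Finset.exists_ne_zero_of_sum_ne_zero h
  exact ⟨w, crm_ne h1⟩

theorem cr_top (hL : L.Ok ix) (hT : T ≤ L.T) (hu : Hm L ix T u) {p : ℕ} (hp : L.N ≤ p) :
    cr L ix S u p = 0 := by_contra fun h => by
  obtain ⟨w, J, h1, -, h2⟩ := cr_ne h
  have h3 := hL.pl_le hT (hu w J h1)
  have h4 := hL.top _ (hL.lt w)
  omega

theorem mk_cr (hL : L.Ok ix) (hT : T ≤ L.T) (hu : Hm L ix T u) {m : ℕ} {M : ℕ → Prop}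
    (hm : ∀ i < L.n, ∀ j ≤ L.sz i, m.testBit (L.pos i + j) = true ↔ M (L.dg i % 3))
    (h : ∀ j r, (j + r) % 3 = T % 3 → r < 3 → (S' j ↔ S j ∧ M r)) :
    mk m (cr L ix S u) = cr L ix S' u := by
  classical
  rw [cr_apply, cr_apply, map_sum]
  refine Finset.sum_congr rfl fun w _ => ?_
  rw [crm_eq, crm_eq, map_sum]
  refine Finset.sum_congr rfl fun J hJ => ?_
  have h1 := hu w J (mem_support_iff.1 hJ)
  have h2 := hm _ (hL.lt w) _ (hL.pl_le hT h1)
  have h3 := hL.hT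
  have h4 := wt_len (J := J) (by omega)
  have h5 := h (lenM J) (L.dg (ix w) % 3) (by omega) (Nat.mod_lt _ (by norm_num))
  by_cases h6 : S (lenM J)
  · rw [if_pos h6]
    funext p
    rw [mk_apply]
    by_cases h7 : p = L.pos (ix w) + pl J
    · rw [h7]
      by_cases h8 : M (L.dg (ix w) % 3)
      · rw [if_pos (h2.2 h8), if_pos (h5.2 ⟨h6, h8⟩)]
      · rw [if_neg fun h9 => h8 (h2.1 h9), if_neg fun h9 => h8 (h5.1 h9).2, Pi.zero_apply]
    · rw [Pi.single_eq_of_ne h7, ite_self]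
      split_ifs
      · rw [Pi.single_eq_of_ne h7]
      · rfl
  · rw [if_neg h6, if_neg fun h9 => h6 (h5.1 h9).1, map_zero]

theorem cr_at (hL : L.Ok ix) (hT : T ≤ L.T) (hu : Hm L ix T u) {a : ℕ}
    (hS : ∀ j, S j → win a (a + 3) j) {w : G} {J : ℕ →₀ ℕ} (h1 : wtM J + L.dg (ix w) = T)
    (h2 : S (lenM J)) : cr L ix S u (L.pos (ix w) + pl J) = coeff J (u w) := by
  have h3 := hL.hT
  rw [cr_apply, Finset.sum_apply, Finset.sum_eq_single w, crm_at h2]
  · intro J' h4 h5 h6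
    have h7 := hu w J' h4
    have h8 := wt_len (J := J) (by omega)
    have h9 := wt_len (J := J') (by omega)
    have h10 := hS _ h2
    have h11 := hS _ h5
    rw [win] at h10 h11
    rw [pl, pl] at h6
    rw [eq_mk4 (show wtM J < 121 by omega), eq_mk4 (show wtM J' < 121 by omega)]
    congr 1 <;> omega
  · intro w' _ h4
    by_contra h5
    obtain ⟨J', h6, -, h7⟩ := crm_ne h5
    exact h4 (hL.inj (hL.disj _ (hL.lt _) _ (hL.lt _) _ (hL.pl_le hT (hu w' J' h6)) _
      (hL.pl_le hT h1) h7.symm))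
  · exact fun h => absurd (Finset.mem_univ w) h

theorem mem_of_cr (hL : L.Ok ix) (hT : T ≤ L.T) (hu : Hm L ix T u) {a b : ℕ} (hb : b ≤ a + 3)
    (ha : u ∈ ZA G (I ^ a)) (h : cr L ix (win a b) u = 0) : u ∈ ZA G (I ^ b) := fun w =>
  mem_I_pow.2 fun J hJ => not_lt.1 fun h1 => hJ (by
    rw [← cr_at hL hT hu (S := win a b) (a := a) (fun j hj => ⟨hj.1, by have := hj.2; omega⟩)
      (hu w J hJ) ⟨mem_I_pow.1 (ha w) J hJ, h1⟩, h, Pi.zero_apply])

omit [Fintype G] in
theorem hm_iff {deg : G → ℤ} {o : ℤ} (hd : ∀ w, deg w = L.dg (ix w) + o) :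
    Hm L ix T u ↔ ∀ w, u w ∈ WA 3 K (T + o - deg w) := by
  refine forall_congr' fun w => forall_congr' fun J => imp_congr_right fun _ => ?_
  rw [show wz 3 = fun i => (wt 3 i : ℤ) from rfl, weight_cast, hd, wtM]
  omega

omit [Fintype G] in
theorem mem_PA_iff {deg : G → ℤ} {o : ℤ} (hd : ∀ w, deg w = L.dg (ix w) + o) {J : Ideal A} :
    u ∈ PA 3 deg (T + o) J ↔ Hm L ix T u ∧ u ∈ ZA G J := by
  rw [hm_iff hd]
  exact forall_and

end Vale.Agent.P236K3

end
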