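import Vale.Agent.P236K3.Cr
import Vale.Agent.P236EL.Form

/-!
# P236K3 / Eta : the right unit of a monomial up to three lengths
-/

noncomputable section

namespace Vale.Agent.P236K3

open MvPolynomial Vale.Agent.P236EL Vale.Agent.P236KE Vale.Agent.P236K2

/-- functions of an arrow -/
abbrev Γ : Type := GG K
/-- the extended ideal -/
abbrev JJ : Ideal Γ := I.map C

/-- the coefficient variables -/
def xv (i : ℕ) : Γ := C (X i)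

theorem xv_mem (i : ℕ) : xv i ∈ JJ := Ideal.mem_map_of_mem _ (X_mem i)

/-- the linear parts -/
def a1 : Γ := xv 1 + xv 0 * X 0 ^ 3
def a2 : Γ := xv 2 + xv 1 * X 0 ^ 9 + xv 0 * X 1 ^ 3
def a3 : Γ := xv 3 + xv 2 * X 0 ^ 27 + xv 1 * X 1 ^ 9 + xv 0 * X 2 ^ 3
/-- the cubic parts -/
def b1 : Γ := -(xv 0 ^ 3 * X 0)
def b2 : Γ := -(xv 0 ^ 3 * X 0 ^ 10 + xv 1 ^ 3 * X 0)
def b3 : Γ := -(xv 0 ^ 3 * (X 0 * X 1 ^ 9) + xv 1 ^ 3 * X 0 ^ 28 + xv 2 ^ 3 * X 0)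

/-- the right units modulo the fourth power of the ideal -/
def e4s (n : ℕ) : List DT :=
  [[⟨3, (0, 0, 0, 0), (1, 0, 0, 0), (0, 0, 0, 0)⟩, ⟨1, (1, 0, 0, 0), (0, 0, 0, 0), (0, 0, 0, 0)⟩],
   [⟨3, (0, 0, 0, 0), (0, 1, 0, 0), (0, 0, 0, 0)⟩, ⟨19, (1, 0, 0, 0), (3, 0, 0, 0), (0, 0, 0, 0)⟩,
    ⟨1, (0, 1, 0, 0), (0, 0, 0, 0), (0, 0, 0, 0)⟩, ⟨54, (0, 0, 0, 0), (4, 0, 0, 0), (0, 0, 0, 0)⟩,
    ⟨2, (3, 0, 0, 0), (1, 0, 0, 0), (0, 0, 0, 0)⟩],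
   [⟨3, (0, 0, 0, 0), (0, 0, 1, 0), (0, 0, 0, 0)⟩, ⟨19, (1, 0, 0, 0), (0, 3, 0, 0), (0, 0, 0, 0)⟩,
    ⟨1, (0, 1, 0, 0), (9, 0, 0, 0), (0, 0, 0, 0)⟩, ⟨1, (0, 0, 1, 0), (0, 0, 0, 0), (0, 0, 0, 0)⟩,
    ⟨54, (0, 0, 0, 0), (1, 3, 0, 0), (0, 0, 0, 0)⟩, ⟨2, (3, 0, 0, 0), (10, 0, 0, 0), (0, 0, 0, 0)⟩,
    ⟨2, (0, 3, 0, 0), (1, 0, 0, 0), (0, 0, 0, 0)⟩],
   [⟨3, (0, 0, 0, 0), (0, 0, 0, 1), (0, 0, 0, 0)⟩, ⟨19, (1, 0, 0, 0), (0, 0, 3, 0), (0, 0, 0, 0)⟩,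
    ⟨1, (0, 1, 0, 0), (0, 9, 0, 0), (0, 0, 0, 0)⟩, ⟨1, (0, 0, 1, 0), (27, 0, 0, 0), (0, 0, 0, 0)⟩,
    ⟨1, (0, 0, 0, 1), (0, 0, 0, 0), (0, 0, 0, 0)⟩, ⟨54, (0, 0, 0, 0), (1, 0, 3, 0), (0, 0, 0, 0)⟩,
    ⟨2, (3, 0, 0, 0), (1, 9, 0, 0), (0, 0, 0, 0)⟩, ⟨2, (0, 3, 0, 0), (28, 0, 0, 0), (0, 0, 0, 0)⟩,
    ⟨2, (0, 0, 3, 0), (1, 0, 0, 0), (0, 0, 0, 0)⟩]].getD n []

theorem ckE_e4s : ∀ n < 4, ckE 4 (fun n => srt ((e4s n).map tm)) n = true := by decide +kernel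

theorem e4s_y : ∀ n < 4, ∀ τ ∈ e4s n, τ.y = (0, 0, 0, 0) := by decide +kernel

theorem ev1_xv (τ : DT) : τ.ev1 K = (τ.c : Γ) * (xv 0 ^ τ.v.1 * xv 1 ^ τ.v.2.1 * xv 2 ^ τ.v.2.2.1 *
    xv 3 ^ τ.v.2.2.2) * (X 0 ^ τ.x.1 * X 1 ^ τ.x.2.1 * X 2 ^ τ.x.2.2.1 * X 3 ^ τ.x.2.2.2) := by
  simp only [DT.ev1, monomial_m4, map_mul, map_pow, map_natCast, xv]

theorem three_Γ : (3 : Γ) = 0 := by
  rw [show (3 : Γ) = C (C 3) from rfl, show (3 : K) = 0 from rfl, map_zero, map_zero]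

/-- approximation up to three lengths -/
structure Ap3 (n : ℕ) (f a b : Γ) : Prop where
  ha : a ∈ JJ ^ n
  hb : b ∈ JJ ^ (n + 2)
  hf : f - (a + b) ∈ JJ ^ (n + 3)

theorem Ap3.mul {n m : ℕ} {f a b g c d : Γ} (h : Ap3 n f a b) (h' : Ap3 m g c d) :
    Ap3 (n + m) (f * g) (a * c) (a * d + b * c) := by
  have mm : ∀ {i j k : ℕ} {x y : Γ}, x ∈ JJ ^ i → y ∈ JJ ^ j → k ≤ i + j → x * y ∈ JJ ^ k :=
    fun hx hy hk => Ideal.pow_le_pow_right hk (pow_add JJ _ _ ▸ Ideal.mul_mem_mul hx hy)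
  refine ⟨mm h.ha h'.ha le_rfl, add_mem (mm h.ha h'.hb (by omega)) (mm h.hb h'.ha (by omega)), ?_⟩
  rw [show f * g - (a * c + (a * d + b * c)) = (f - (a + b)) * (g - (c + d)) + (f - (a + b)) * c +
    (f - (a + b)) * d + a * (g - (c + d)) + b * (g - (c + d)) + b * d by ring]
  exact add_mem (add_mem (add_mem (add_mem (add_mem (mm h.hf h'.hf (by omega))
    (mm h.hf h'.ha (by omega))) (mm h.hf h'.hb (by omega))) (mm h.ha h'.hf (by omega)))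
    (mm h.hb h'.hf (by omega))) (mm h.hb h'.hb (by omega))

theorem Ap3.pow {f a b : Γ} (h : Ap3 1 f a b) (e : ℕ) :
    Ap3 e (f ^ e) (a ^ e) (e * b * a ^ (e - 1)) := by
  induction e with
  | zero => exact ⟨by simp, by simp, by simp⟩
  | succ e ih =>
    have h1 := ih.mul h
    rw [← pow_succ, ← pow_succ] at h1
    convert h1 using 1
    rcases e with _ | e
    · simp
    · simp only [Nat.add_sub_cancel, Nat.cast_add, Nat.cast_one]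
      ring

theorem mul_mem1 (i : ℕ) (x : Γ) : xv i * x ∈ JJ ^ 1 :=
  (pow_one JJ).symm ▸ Ideal.mul_mem_right _ _ (xv_mem i)

theorem mul_mem3 (i : ℕ) (x : Γ) : xv i ^ 3 * x ∈ JJ ^ (1 + 2) :=
  Ideal.mul_mem_right _ _ (Ideal.pow_mem_pow (xv_mem i) 3)

theorem xv_mem1 (i : ℕ) : xv i ∈ JJ ^ 1 := (pow_one JJ).symm ▸ xv_mem i

variable [Fact (Nat.Prime 3)]

theorem eta_e4s (n : ℕ) (hn : n < 4) :
    etaR 3 K (X n) - ((e4s n).map (DT.ev1 K)).sum ∈ JJ ^ (1 + 3) := by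
  rw [← Ideal.map_pow]
  refine mem_map_C_iff.2 fun E => ?_
  have h := eta_sub_mem (L := K) (by omega) le_rfl ckE_e4s n hn E
  rw [pev_srt, pev, List.map_map] at h
  rw [List.map_congr_left fun τ hτ => ev1_eq (e4s_y n hn τ hτ)]
  exact h

theorem eta_0 : etaR 3 K (X 0) = xv 0 := by
  rw [etaR_v1, Nat.cast_ofNat, three_Γ, zero_mul, add_zero, xv]

theorem ap_0 : Ap3 1 (etaR 3 K (X 0)) (xv 0) 0 :=
  ⟨xv_mem1 0, zero_mem _, by rw [eta_0, add_zero, sub_self]; exact zero_mem _⟩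

theorem ap_1 : Ap3 1 (etaR 3 K (X 1)) a1 b1 := by
  refine ⟨add_mem (xv_mem1 _) (mul_mem1 _ _), neg_mem (mul_mem3 _ _), ?_⟩
  convert eta_e4s 1 (by norm_num) using 2
  simp only [e4s, List.getD_cons_succ, List.getD_cons_zero, List.map, List.sum_cons, List.sum_nil,
    ev1_xv, a1, b1]
  push_cast
  linear_combination (-(X 1 + 6 * xv 0 * X 0 ^ 3 + 18 * X 0 ^ 4 + xv 0 ^ 3 * X 0)) * three_Γ

theorem ap_2 : Ap3 1 (etaR 3 K (X 2)) a2 b2 := by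
  refine ⟨add_mem (add_mem (xv_mem1 _) (mul_mem1 _ _)) (mul_mem1 _ _),
    neg_mem (add_mem (mul_mem3 _ _) (mul_mem3 _ _)), ?_⟩
  convert eta_e4s 2 (by norm_num) using 2
  simp only [e4s, List.getD_cons_succ, List.getD_cons_zero, List.map, List.sum_cons, List.sum_nil,
    ev1_xv, a2, b2]
  push_cast
  linear_combination (-(X 2 + 6 * xv 0 * X 1 ^ 3 + 18 * X 0 * X 1 ^ 3 + xv 0 ^ 3 * X 0 ^ 10 +
    xv 1 ^ 3 * X 0)) * three_Γ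

theorem ap_3 : Ap3 1 (etaR 3 K (X 3)) a3 b3 := by
  refine ⟨add_mem (add_mem (add_mem (xv_mem1 _) (mul_mem1 _ _)) (mul_mem1 _ _)) (mul_mem1 _ _),
    neg_mem (add_mem (add_mem (mul_mem3 _ _) (mul_mem3 _ _)) (mul_mem3 _ _)), ?_⟩
  convert eta_e4s 3 (by norm_num) using 2
  simp only [e4s, List.getD_cons_succ, List.getD_cons_zero, List.map, List.sum_cons, List.sum_nil,
    ev1_xv, a3, b3]
  push_cast
  linear_combination (-(X 3 + 6 * xv 0 * X 2 ^ 3 + 18 * X 0 * X 2 ^ 3 + xv 0 ^ 3 * X 0 * X 1 ^ 9 +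
    xv 1 ^ 3 * X 0 ^ 28 + xv 2 ^ 3 * X 0)) * three_Γ

/-- the main part -/
def aM (e1 e2 e3 e4 : ℕ) : Γ := a1 ^ e2 * (a2 ^ e3 * (a3 ^ e4 * xv 0 ^ e1))

/-- the correction -/
def bM (e1 e2 e3 e4 : ℕ) : Γ := e2 * (b1 * aM e1 (e2 - 1) e3 e4) +
  e3 * (b2 * aM e1 e2 (e3 - 1) e4) + e4 * (b3 * aM e1 e2 e3 (e4 - 1))

theorem ap_mon (e1 e2 e3 e4 : ℕ) : Ap3 (e1 + e2 + e3 + e4)
    (etaR 3 K (monomial (mk4 e1 e2 e3 e4) 1)) (aM e1 e2 e3 e4) (bM e1 e2 e3 e4) := by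
  have h := (((ap_0.pow e1).mul (ap_1.pow e2)).mul (ap_2.pow e3)).mul (ap_3.pow e4)
  have h1 := monomial_m4 (A := K) (e1, e2, e3, e4) 1
  rw [C_1, one_mul] at h1
  change monomial (mk4 e1 e2 e3 e4) 1 = X 0 ^ e1 * X 1 ^ e2 * X 2 ^ e3 * X 3 ^ e4 at h1
  rw [h1, map_mul, map_mul, map_mul, map_pow, map_pow, map_pow, map_pow]
  convert h using 1
  · rw [aM]
    ring
  · simp only [bM, aM]
    ring

omit [Fact (Nat.Prime 3)] in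
theorem aM_mem (e1 e2 e3 e4 : ℕ) : aM e1 e2 e3 e4 ∈ JJ ^ (e1 + e2 + e3 + e4) :=
  haveI : Fact (Nat.Prime 3) := ⟨Nat.prime_three⟩
  (ap_mon e1 e2 e3 e4).ha

end Vale.Agent.P236K3

end
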