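import Vale.Agent.P236K3.Bas

/-!
# P236K3 / Main : the checks
-/

noncomputable section

namespace Vale.Agent.P236K3

open MvPolynomial Vale.Agent.P236EL Vale.Agent.P236KE Vale.Agent.P236K2

def rwc (r : Rw) (m O i e2 e3 e4 : Nat) (l : PL) : PL :=
  PL.cons (P.shl (P.and (r.f (nat_lit 0) i e2 e3 e4) m) O) l
def lev2 (r : Rw) (L : LD) (T O : Nat) (acc : PL) (l m : Nat) : PL := enum (rwc r m O) L T l acc
def lev1 (r : Rw) (L L' : LD) (T b O : Nat) (acc : PL) (l : Nat) : PL :=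
  force (wm L' T l b) (lev2 r L T O acc l)
def lev0 (r : Rw) (L L' : LD) (T a b O j : Nat) (acc : PL) : PL :=
  force (Nat.add a j) (lev1 r L L' T b O acc)
/-- the rows of the monomials with lengths from `a` to `b - 1` -/
def rowsW (r : Rw) (L L' : LD) (T a b : Nat) (rest : PL) (O : Nat) : PL :=
  loop (lev0 r L L' T a b O) (Nat.sub b a) rest

def rwk (r : Rw) (L : LD) (m O i e2 e3 e4 : Nat) (l : PL) : PL :=
  PL.cons (P.add (P.and (r.f (nat_lit 0) i e2 e3 e4) m)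
    (P.shl (un (Nat.add (L.pos i) (Nat.add (Nat.mul (nat_lit 3) e3) e4))) O)) l
def rowsK (r : Rw) (L : LD) (T k O m : Nat) : PL := enum (rwk r L m O) L T k PL.nil

def tt (_ : Tb) : Bool := true
def k3e (r : Rw) (L L' : LD) (T k n O W W0 : Nat) (E : Lp) (t : Tb) : Bool :=
  procL E W0 (redZ E t) tt (rowsW r L L' T (Nat.succ k) n
    (force (wm L' T k n) (rowsK r L T k O)) (nat_lit 0)) (tb0 W)
def k3d (r : Rw) (L L' : LD) (T k n : Nat) (lB : Nat → PL) (O N W W0 : Nat) : Bool :=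
  procL (lp W N) W noF (k3e r L L' T k n O W W0 (lp W N)) (lB O) (tb0 W)
def k3c (r : Rw) (L L' : LD) (T k n : Nat) (lB : Nat → PL) (O N W : Nat) : Bool :=
  force (Nat.shiftLeft (nat_lit 1) O) (k3d r L L' T k n lB O N W)
def k3b (r : Rw) (L L' : LD) (T k n : Nat) (lB : Nat → PL) (O N : Nat) : Bool :=
  force (Nat.shiftLeft (nat_lit 1) (Nat.sub N (nat_lit 1))) (k3c r L L' T k n lB O N)
def k3a (r : Rw) (L L' : LD) (T k n : Nat) (lB : Nat → PL) (O : Nat) : Bool :=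
  force (Nat.succ (Nat.add O L.N)) (k3b r L L' T k n lB O)
/-- cycles of length `k` lie in the span of the rows `lB` -/
def k3 (r : Rw) (L L' : LD) (T k n : Nat) (lB : Nat → PL) : Bool := force L'.N (k3a r L L' T k n lB)

theorem k3_eq (r : Rw) (L L' : LD) (T k n : ℕ) (lB : ℕ → PL) : k3 r L L' T k n lB =
    procL (lp (2 ^ (L'.N + L.N)) (L'.N + L.N + 1)) (2 ^ (L'.N + L.N)) noF
      (k3e r L L' T k n L'.N (2 ^ (L'.N + L.N)) (2 ^ L'.N) (lp (2 ^ (L'.N + L.N)) (L'.N + L.N + 1)))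
      (lB L'.N) (tb0 (2 ^ (L'.N + L.N))) := by
  rw [k3, force_eq, k3a, force_eq, k3b, force_eq, k3c, force_eq, k3d, ← Nat.one_shiftLeft,
    ← Nat.one_shiftLeft]
  rfl

def sh1 (O : Nat) (x : P) (_ ih : PL) : PL := PL.cons (P.shl x O) ih
/-- shifted rows -/
def shL (l : PL) (O : Nat) : PL := PL.rec (motive := fun _ => PL) PL.nil (sh1 O) l
def lB1 (r : Rw) (L L' : LD) (T a b : Nat) (l : PL) (O : Nat) : PL :=
  rowsW r L L' T a b (shL l O) O

def inC (E : Lp) (x : P) (c : Bool) (t : Tb) : Bool := redZ E t x.a x.b c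
def inB2 (l : PL) (x : P) (c : Bool) (N W : Nat) : Bool :=
  procL (lp W N) W noF (inC (lp W N) x c) l (tb0 W)
def inB1 (l : PL) (x : P) (c : Bool) (N : Nat) : Bool :=
  force (Nat.shiftLeft (nat_lit 1) (Nat.sub N (nat_lit 1))) (inB2 l x c N)
/-- the vector lies in the span of the rows -/
def inS (L : LD) (l : PL) (x : P) (c : Bool) : Bool := force (Nat.succ L.N) (inB1 l x c)

def noC (E : Lp) (W : Nat) (x : P) (c : Bool) (t : Tb) : Bool := redN E W t x.a x.b c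
def noB2 (l : PL) (x : P) (c : Bool) (N W : Nat) : Bool :=
  procL (lp W N) W noF (noC (lp W N) W x c) l (tb0 W)
def noB1 (l : PL) (x : P) (c : Bool) (N : Nat) : Bool :=
  force (Nat.shiftLeft (nat_lit 1) (Nat.sub N (nat_lit 1))) (noB2 l x c N)
/-- the vector does not lie in the span of the rows -/
def noS (L : LD) (l : PL) (x : P) (c : Bool) : Bool := force (Nat.succ L.N) (noB1 l x c)

theorem noF_spec {S : Sub} (a b : ℕ) (c : Bool) (v : V) (_ : Rp a b v) (h : noF a b c = true) :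
    c = true ∧ v ∈ S := Bool.noConfusion h

theorem inS_spec {L : LD} {l : PL} {x : P} {c : Bool} {S : Sub} (hl : ∀ z, l.Mem z → ∃ v ∈ S, z.R v)
    {v : V} (hx : x.R v) (h : inS L l x c = true) : c = true ∧ v ∈ S := by
  rw [inS, force_eq, inB1, force_eq, inB2, show Nat.shiftLeft (nat_lit 1) (Nat.sub L.N.succ
    (nat_lit 1)) = 2 ^ L.N from Nat.one_shiftLeft _] at h
  obtain ⟨t, S', h1, -, h2, -, h3⟩ := procL_spec (SB := ⊥) le_rfl noF_spec hl (inv_tb0 _ _ _)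
    bot_le h
  exact (redZ_spec h1.rows _ _ _ _ hx h3).imp_right fun h4 => h2 h4

theorem noS_spec {L : LD} {l : PL} {x : P} {c : Bool} (hl : ∀ z, l.Mem z → ∃ v, z.R v)
    {v : V} (hx : x.R v) (h : noS L l x c = true) :
    c = true ∧ ∀ S : Sub, (∀ S' : Sub, (∀ z w, l.Mem z → z.R w → w ∈ S') → S ≤ S') → v ∉ S := by
  rw [noS, force_eq, noB1, force_eq, noB2, show Nat.shiftLeft (nat_lit 1) (Nat.sub L.N.succ
    (nat_lit 1)) = 2 ^ L.N from Nat.one_shiftLeft _] at h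
  obtain ⟨t, S', h1, -, -, h2, h3⟩ := procL_spec (SB := ⊥) (S₁ := ⊤) le_rfl noF_spec
    (fun z hz => (hl z hz).imp fun _ h => ⟨trivial, h⟩) (inv_tb0 _ _ _) bot_le h
  have h4 := redN_spec le_rfl h1 hx h3
  exact ⟨h4.1, fun S hS h5 => h4.2 (hS S' h2 h5)⟩

theorem shL_mem {l : PL} {O : ℕ} {x : P} (h : (shL l O).Mem x) : ∃ z, l.Mem z ∧ x = z.shl O := by
  induction l with
  | nil => exact h.elim
  | cons z l ih =>
    rcases h with h | h
    · exact ⟨z, Or.inl rfl, h⟩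
    · exact (ih h).imp fun _ h => ⟨Or.inr h.1, h.2⟩

variable [Fact (Nat.Prime 3)] {G G' : Type} [Fintype G] [Fintype G'] {L L' : LD} {ix : G → ℕ}
  {ix' : G' → ℕ} {y : G → G' → (ℕ →₀ ℕ) → A} {s3 s4 : ℕ} {r : Rw} {T a a' b O : ℕ}

theorem St.msk0 (h : St y L ix L' ix' s3 s4 r) (hT : T ≤ L'.T) {w : G}
    {l e2 e3 e4 : ℕ} (ha : Adm L T l (ix w) e2 e3 e4) (hb : b ≤ l + 3) (hl : a ≤ l) :
    ((r.f 0 (ix w) e2 e3 e4).and (wm L' T l b)).R
      (cr L' ix' (win a b) (dly y 1 (bv w (mk4 (l - (e2 + e3 + e4)) e2 e3 e4)))) := by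
  simpa [cd] using h.msk (F := 0) (by simpa using hT) ha hb hl

theorem rowsW_mem (h : St y L ix L' ix' s3 s4 r) (hT : T ≤ L'.T) (hb : b ≤ a + 3) (ha : a' ≤ a)
    {rest : PL} {x : P} (hx : (rowsW r L L' T a b rest O).Mem x) : rest.Mem x ∨
      ∃ z ∈ HZ L ix T a, x.R (sh O (cr L' ix' (win a' b) (dly y 1 z))) := by
  revert hx
  refine loop_ind (Q := fun l : PL => l.Mem x → rest.Mem x ∨ ∃ z ∈ HZ L ix T a,
    x.R (sh O (cr L' ix' (win a' b) (dly y 1 z)))) Or.inl fun j _ l hl => ?_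
  rw [lev0, force_eq, lev1, force_eq, lev2]
  refine enum_ind (Q := fun l : PL => l.Mem x → rest.Mem x ∨ ∃ z ∈ HZ L ix T a,
    x.R (sh O (cr L' ix' (win a' b) (dly y 1 z)))) hl fun i e2 e3 e4 l h1 h2 h3 => ?_
  obtain ⟨w, rfl⟩ := h.ok.sur i h1.1
  rcases h3 with rfl | h3
  · exact Or.inr ⟨_, bv_mem h1.wt.1 (h1.wt.2.1.symm ▸ Nat.le_add_right a j),
      (h.msk0 hT h1 (hb.trans (Nat.add_le_add_right (Nat.le_add_right a j) 3))
        (ha.trans (Nat.le_add_right a j))).shl O⟩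
  · exact h2 h3

omit [Fact (Nat.Prime 3)] in
theorem rowsW_rest {rest : PL} {x : P} (hx : rest.Mem x) : (rowsW r L L' T a b rest O).Mem x :=
  loop_ind (Q := fun l : PL => l.Mem x) hx fun j _ l hl => by
    rw [lev0, force_eq, lev1, force_eq, lev2]
    exact enum_ind (Q := fun l : PL => l.Mem x) hl fun _ _ _ _ _ _ h => Or.inr h

theorem rowsW_cov (h : St y L ix L' ix' s3 s4 r) (hT : T ≤ L'.T) (hb : b ≤ a + 3) (ha : a' ≤ a)
    (rest : PL) {w : G} {l e2 e3 e4 : ℕ} (h1 : Adm L T l (ix w) e2 e3 e4) (h2 : a ≤ l)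
    (h3 : l < b) : ∃ x, (rowsW r L L' T a b rest O).Mem x ∧ x.R (sh O (cr L' ix' (win a' b)
      (dly y 1 (bv w (mk4 (l - (e2 + e3 + e4)) e2 e3 e4))))) := by
  refine ⟨_, ?_, (h.msk0 hT h1 (by omega) (by omega)).shl O⟩
  obtain ⟨j, rfl⟩ := Nat.exists_eq_add_of_le h2
  refine loop_cov (Q := fun l : PL => l.Mem _) (j := j) rest (show j < b - a by omega)
    (fun l => ?_) fun j l hl => ?_ <;> rw [lev0, force_eq, lev1, force_eq, lev2]
  · exact enum_cov (Q := fun l : PL => l.Mem _) l h1 (fun _ => Or.inl rfl)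
      fun _ _ _ _ _ h => Or.inr h
  · exact enum_ind (Q := fun l : PL => l.Mem _) hl fun _ _ _ _ _ _ h => Or.inr h

theorem rwk_R (h : St y L ix L' ix' s3 s4 r) (hT : T ≤ L'.T) {k n : ℕ} (hn : n ≤ k + 3) {w : G}
    {e2 e3 e4 : ℕ} (h1 : Adm L T k (ix w) e2 e3 e4) :
    (P.add (P.and (r.f 0 (ix w) e2 e3 e4) (wm L' T k n))
      (P.shl (un (L.pos (ix w) + (3 * e3 + e4))) O)).R
      (((cr L' ix' (win k n)).comp (dly y 1) + (sh O).comp (cr L ix (win k (k + 1))))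
        (bv w (mk4 (k - (e2 + e3 + e4)) e2 e3 e4))) := by
  rw [LinearMap.add_apply, LinearMap.comp_apply, LinearMap.comp_apply,
    cr_bv _ (by rw [h1.wt.2.1]; exact ⟨le_rfl, k.lt_succ_self⟩), h1.wt.2.2]
  exact (h.msk0 hT h1 hn le_rfl).add ((un_R _).shl O)

theorem k3_spec (h : St y L ix L' ix' s3 s4 r) (hT : T ≤ L.T) (hT' : T ≤ L'.T) {k n : ℕ}
    (hak : a ≤ k) (hk : k + 1 ≤ a + 3) (hn : n ≤ k + 3) {B : Submodule K (G → A)}
    (hB : B ≤ HZ L ix T a) {lB : ℕ → PL}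
    (hl : ∀ x, (lB L'.N).Mem x → ∃ b ∈ B, x.R (sh L'.N (cr L ix (win a (k + 1)) b)))
    (hc : k3 r L L' T k n lB = true) {u : G → A} (hu : u ∈ HZ L ix T k)
    (hd : dly y 1 u ∈ ZA G' (I ^ n)) : ∃ b ∈ B, u - b ∈ ZA G (I ^ (k + 1)) := by
  rw [k3_eq] at hc
  obtain ⟨t, S, h1, -, h2, -, h3⟩ := procL_spec (SB := ⊥)
    (S₁ := B.map ((sh L'.N).comp (cr L ix (win a (k + 1))))) le_rfl noF_spec
    (fun x hx => by obtain ⟨b, hb, h1⟩ := hl x hx; exact ⟨_, ⟨b, hb, rfl⟩, h1⟩)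
    (inv_tb0 _ _ _) bot_le hc
  rw [k3e, force_eq, rowsK] at h3
  obtain ⟨t', S', h4, -, -, h5, -⟩ := procL_spec (SB := S) (S₁ := ⊤) (Nat.le_add_right _ _)
    (redZ_spec h1.rows) (fun x hx => by
      rcases rowsW_mem (a' := k) h hT' (hn.trans (by omega)) (Nat.le_succ k) hx with hx | ⟨z, -, hz⟩
      · revert hx
        refine enum_ind (Q := fun l : PL => l.Mem x → ∃ v ∈ (⊤ : Sub), x.R v) (fun h => h.elim)
          fun i e2 e3 e4 l h1 h2 h3 => ?_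
        obtain ⟨w, rfl⟩ := h.ok.sur i h1.1
        rcases h3 with rfl | h3
        · exact ⟨_, trivial, rwk_R h hT' hn h1⟩
        · exact h2 h3
      · exact ⟨_, trivial, hz⟩) (inv_tb0 _ _ _) bot_le h3
  have h6 : ((cr L' ix' (win k n)).comp (dly y 1) + (sh L'.N).comp (cr L ix (win k (k + 1)))) u
      ∈ S' := HZ_ind h.ok hT (fun w l e2 e3 e4 hl ha => by
    rcases hl.eq_or_lt with rfl | hl
    · exact h5 _ _ (rowsW_rest (enum_cov (Q := fun l : PL => l.Mem _) _ ha (fun _ => Or.inl rfl)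
        fun _ _ _ _ _ h => Or.inr h)) (rwk_R h hT' hn ha)
    · have h7 := bv_mem (a := l) ha.wt.1 ha.wt.2.1.ge
      rw [LinearMap.add_apply, LinearMap.comp_apply, LinearMap.comp_apply,
        cr_eq_zero (S := win k (k + 1)) h7.2 fun j hj h => by have := h.2; omega, map_zero, add_zero]
      by_cases h8 : l < n
      · obtain ⟨x, h9, h10⟩ := rowsW_cov (a := k + 1) (a' := k) (O := 0) h hT' (hn.trans (by omega))
          (Nat.le_succ k) _ ha hl h8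
        rw [sh_zero] at h10
        exact h5 _ _ h9 h10
      · rw [cr_eq_zero (dly_ZA 1 h7.2) fun j hj h => by have := h.2; omega]
        exact S'.zero_mem) hu
  rw [LinearMap.add_apply, LinearMap.comp_apply, LinearMap.comp_apply,
    cr_eq_zero hd fun j hj h => by have := h.2; omega, zero_add] at h6
  obtain ⟨b, hb, h7⟩ := h2 (h4.low _ h6 fun q hq => by rw [sh_apply, if_neg (by omega)])
  have h8 : u - b ∈ HZ L ix T a :=
    sub_mem ⟨hu.1, Rs.ZA_mono (Ideal.pow_le_pow_right hak) hu.2⟩ (hB hb)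
  refine ⟨b, hb, mem_of_cr h.ok hT h8.1 hk h8.2 ?_⟩
  rw [map_sub, cr_congr_I hu.2 (S' := win k (k + 1)) fun j hj => by simp only [win]; omega]
  funext p
  have h9 := congrFun h7 (p + L'.N)
  simp only [LinearMap.comp_apply, sh_apply, if_pos (Nat.le_add_left _ _), Nat.add_sub_cancel] at h9
  rw [Pi.sub_apply, h9, sub_self, Pi.zero_apply]

/-- representation of a vector in a window -/
structure VP (L : LD) (ix : G → ℕ) (T a b : ℕ) (x : P) (u : G → A) : Prop where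
  hz : u ∈ HZ L ix T a
  r : x.R (cr L ix (win a b) u)

theorem lB1_mem (h : St y L ix L' ix' s3 s4 r) (hT : T ≤ L'.T) (hb : b ≤ a + 3)
    {S : Submodule K (G' → A)} {l : PL} (hl : ∀ x, l.Mem x → ∃ φ ∈ S, VP L' ix' T a b x φ) (x : P)
    (hx : (lB1 r L L' T a b l O).Mem x) :
    ∃ z ∈ HZ L' ix' T a ⊓ (S ⊔ (HZ L ix T a).map (dly y 1)),
      x.R (sh O (cr L' ix' (win a b) z)) := by
  rcases rowsW_mem h hT hb le_rfl hx with hx | ⟨z, hz, hx⟩
  · obtain ⟨z, hz, rfl⟩ := shL_mem hx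
    obtain ⟨φ, h1, h2⟩ := hl z hz
    exact ⟨φ, ⟨h2.hz, Submodule.mem_sup_left h1⟩, h2.r.shl O⟩
  · exact ⟨_, ⟨dly_HZ h.hy (m := 0) (SetLike.one_mem_graded (ext 3 (WA 3 K))) hz,
      Submodule.mem_sup_right ⟨z, hz, rfl⟩⟩, hx⟩

theorem inB_spec (h : St y L ix L' ix' s3 s4 r) (hT : T ≤ L'.T) (hb : b ≤ a + 3)
    {S : Submodule K (G' → A)} {l : PL} (hl : ∀ x, l.Mem x → ∃ φ ∈ S, VP L' ix' T a b x φ)
    {x : P} {u : G' → A} (hx : VP L' ix' T a b x u) {c : Bool}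
    (hc : inS L' (lB1 r L L' T a b l 0) x c = true) : c = true ∧
      ∃ z ∈ S ⊔ (HZ L ix T a).map (dly y 1), u - z ∈ ZA G' (I ^ b) := by
  obtain ⟨h1, z, hz, h2⟩ := inS_spec (S := (HZ L' ix' T a ⊓ (S ⊔ (HZ L ix T a).map (dly y 1))).map
    (cr L' ix' (win a b))) (fun z hz => by
      obtain ⟨z, h1, h2⟩ := lB1_mem h hT hb hl z hz
      exact ⟨_, ⟨z, h1, rfl⟩, sh_zero _ ▸ h2⟩) hx.r hc
  have h3 := sub_mem hx.hz hz.1
  exact ⟨h1, z, hz.2, mem_of_cr h.ok' hT h3.1 hb h3.2 (by rw [map_sub, h2, sub_self])⟩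

theorem noB_spec (h : St y L ix L' ix' s3 s4 r) (hT : T ≤ L.T) (hT' : T ≤ L'.T) (hb : b ≤ a + 3)
    {x : P} {u : G' → A} (hx : VP L' ix' T a b x u) {c : Bool}
    (hc : noS L' (rowsW r L L' T a b PL.nil 0) x c = true) : c = true ∧
      ∀ z ∈ HZ L ix T a, u - dly y 1 z ∉ ZA G' (I ^ b) := by
  obtain ⟨h1, h2⟩ := noS_spec (fun z hz => by
    rcases rowsW_mem h hT' hb le_rfl hz with hz | ⟨z, -, hz⟩
    · exact hz.elim
    · exact ⟨_, hz⟩) hx.r hc
  refine ⟨h1, fun z hz h3 => h2 ((HZ L ix T a).map ((cr L' ix' (win a b)).comp (dly y 1)))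
    (fun S' hS => ?_) ⟨z, hz, ?_⟩⟩
  · rintro _ ⟨z, hz, rfl⟩
    refine HZ_ind h.ok hT (fun w l e2 e3 e4 hl ha => ?_) hz
    by_cases h8 : l < b
    · obtain ⟨x, h9, h10⟩ := rowsW_cov (O := 0) h hT' hb le_rfl PL.nil ha hl h8
      rw [sh_zero] at h10
      exact hS _ _ h9 h10
    · rw [LinearMap.comp_apply, cr_eq_zero (dly_ZA 1 (bv_mem (a := l) ha.wt.1 ha.wt.2.1.ge).2)
        fun j hj h => by have := h.2; omega]
      exact S'.zero_mem
  · have h4 := cr_eq_zero (L := L') (ix := ix') (S := win a b) h3 fun j hj h => by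
      have := h.2; omega
    rw [map_sub, sub_eq_zero] at h4
    exact h4.symm

end Vale.Agent.P236K3

end
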