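import Vale.Agent.P236K3.Eta

/-!
# P236K3 / Row : the coordinates of the twisted differentials of a monomial
-/

noncomputable section

namespace Vale.Agent.P236K3

open MvPolynomial Vale.Agent.P236EL Vale.Agent.P236KE Vale.Agent.P236K2

/-- families of vectors indexed by codes -/
structure Fn : Type where
  f : Nat → P

def pf2 (_ : P) (a b : Nat) : P := ⟨a, b⟩
def pf1 (x : P) (a : Nat) : P := force x.b (pf2 x a)
/-- evaluation of both halves -/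
def pf (x : P) : P := force x.a (pf1 x)

theorem pf_eq (x : P) : pf x = x := rfl

def st2b (g : Fn) (c x : Nat) : P := P.add (g.f c) (g.f x)
def st2 (s : Nat) (g : Fn) (c : Nat) : P := force (Nat.add c s) (st2b g c)
def lv2 (s _ : Nat) (g : Fn) : Fn := ⟨st2 s g⟩
def st3c (p : Nat) (g : Fn) (c x y : Nat) : P :=
  P.add (P.shl (g.f c) p) (P.add (g.f x) (g.f y))
def st3b (p t : Nat) (g : Fn) (c x : Nat) : P := force (Nat.add c t) (st3c p g c x)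
def st3 (p s t : Nat) (g : Fn) (c : Nat) : P := force (Nat.add c s) (st3b p t g c)
def lv3 (p s t _ : Nat) (g : Fn) : Fn := ⟨st3 p s t g⟩
def st4d (g : Fn) (c x y z : Nat) : P :=
  P.add (P.add (P.shl (g.f c) (nat_lit 1)) (P.shl (g.f x) (nat_lit 3))) (P.add (g.f y) (g.f z))
def st4c (k : Nat) (g : Fn) (c x y : Nat) : P := force (Nat.add c k) (st4d g c x y)
def st4b (k : Nat) (g : Fn) (c x : Nat) : P := force (Nat.add c (nat_lit 3492)) (st4c k g c x)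
def st4 (k : Nat) (g : Fn) (c : Nat) : P := force (Nat.add c (nat_lit 27)) (st4b k g c)
def lv4 (k : Nat) (_ : Nat) (g : Fn) : Fn := ⟨st4 k g⟩

def it (l : Nat → Fn → Fn) (g : Fn) (e : Nat) : Fn := Nat.rec (motive := fun _ => Fn) g l e
def ph5 (g : Fn) (d0 d1 d2 : Nat) : Fn :=
  it (lv2 (nat_lit 3)) (it (lv2 (nat_lit 9)) (it (lv2 (nat_lit 27)) g d2) d1) d0
def ph4 (g : Fn) (e d0 d1 : Nat) : Fn := force (Nat.div e (nat_lit 9)) (ph5 g d0 d1)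
def ph3 (g : Fn) (e d0 : Nat) : Fn :=
  force (Nat.mod (Nat.div e (nat_lit 3)) (nat_lit 3)) (ph4 g e d0)
def ph2 (k : Nat) (Y : Fn) (e2 e4 d0 d1 : Nat) : Fn :=
  force (Nat.mod e2 (nat_lit 3)) (ph3 (it (lv3 (nat_lit 3) (nat_lit 9) (nat_lit 1164))
    (it (lv3 (nat_lit 9) (nat_lit 27) (nat_lit 3492)) (it (lv4 k) Y e4) d1) d0) e2)
def ph1 (k : Nat) (Y : Fn) (e2 e3 e4 d0 : Nat) : Fn :=
  force (Nat.div e3 (nat_lit 3)) (ph2 k Y e2 e4 d0)
/-- the main part -/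
def phi (k : Nat) (Y : Fn) (e2 e3 e4 : Nat) : Fn :=
  force (Nat.mod e3 (nat_lit 3)) (ph1 k Y e2 e3 e4)

def bt2b (k : Nat) (Y : Fn) (e3 e4 x e : Nat) : P := (phi k Y e e3 e4).f x
def bt2 (k : Nat) (Y : Fn) (e2 e3 e4 x : Nat) : P :=
  P.sm e2 (force (Nat.sub e2 (nat_lit 1)) (bt2b k Y e3 e4 x))
def bt3c (k : Nat) (Y : Fn) (e2 e4 x e y : Nat) : P :=
  P.add ((phi k Y e2 e e4).f y) ((phi k Y e2 e e4).f x)
def bt3b (k : Nat) (Y : Fn) (e2 e4 x e : Nat) : P :=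
  force (Nat.add x (nat_lit 9)) (bt3c k Y e2 e4 x e)
def bt3 (k : Nat) (Y : Fn) (e2 e3 e4 x : Nat) : P :=
  P.sm e3 (force (Nat.sub e3 (nat_lit 1)) (bt3b k Y e2 e4 x))
def bt4d (k : Nat) (Y : Fn) (m e2 e3 x e y z : Nat) : P :=
  P.add (P.and (P.add ((phi k Y e2 e3 e).f y) ((phi k Y e2 e3 e).f z)) m)
    (P.shl (P.and ((phi k Y e2 e3 e).f x) m) (nat_lit 9))
def bt4c (k : Nat) (Y : Fn) (m e2 e3 x e y : Nat) : P :=
  force (Nat.add x (nat_lit 27)) (bt4d k Y m e2 e3 x e y)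
def bt4b (k : Nat) (Y : Fn) (m e2 e3 x e : Nat) : P :=
  force (Nat.add x (nat_lit 3492)) (bt4c k Y m e2 e3 x e)
def bt4 (k : Nat) (Y : Fn) (m e2 e3 e4 x : Nat) : P :=
  P.sm e4 (force (Nat.sub e4 (nat_lit 1)) (bt4b k Y m e2 e3 x))
def rowc (k : Nat) (Y : Fn) (c e2 e3 e4 x m : Nat) : P :=
  P.add ((phi k Y e2 e3 e4).f c) (P.neg (P.add
    (P.and (P.add (bt2 k Y e2 e3 e4 x) (bt3 k Y e2 e3 e4 x)) m) (bt4 k Y m e2 e3 e4 x)))
def rowb (k : Nat) (Y : Fn) (cm : Nat → Nat) (c e2 e3 e4 x r : Nat) : P :=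
  rowc k Y c e2 e3 e4 x (cm r)
def rowa (k : Nat) (Y : Fn) (cm : Nat → Nat) (d c e2 e3 e4 x : Nat) : P :=
  force (Nat.mod (Nat.add d x) (nat_lit 3)) (rowb k Y cm c e2 e3 e4 x)
/-- the row of the generator of degree `d` with the functionals `Y` -/
def row1 (k : Nat) (Y : Fn) (cm : Nat → Nat) (d c e2 e3 e4 : Nat) : P :=
  force (Nat.add c (nat_lit 1)) (rowa k Y cm d c e2 e3 e4)

theorem phi_eq (k : ℕ) (Y : Fn) (e2 e3 e4 : ℕ) : phi k Y e2 e3 e4 =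
    it (lv2 3) (it (lv2 9) (it (lv2 27) (it (lv3 3 9 1164) (it (lv3 9 27 3492) (it (lv4 k) Y e4)
      (e3 / 3)) (e3 % 3)) (e2 / 9)) (e2 / 3 % 3)) (e2 % 3) := by
  rw [phi, force_eq, ph1, force_eq, ph2, force_eq, ph3, force_eq, ph4, force_eq, ph5]
  rfl

/-- the code of a monomial -/
def cd (s3 s4 : ℕ) (F : ℕ →₀ ℕ) : ℕ := wtM F + 384 * (F 1 + (s3 * F 2 + s4 * F 3))

theorem cd_add (s3 s4 : ℕ) (F F' : ℕ →₀ ℕ) : cd s3 s4 (F + F') = cd s3 s4 F + cd s3 s4 F' := by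
  simp only [cd, map_add, Finsupp.add_apply]
  ring

theorem cd_0 (s3 s4 e : ℕ) : cd s3 s4 (Finsupp.single 0 e) = e := by
  simp [cd, Finsupp.weight_single, wt]

theorem cd_1 (s3 s4 e : ℕ) : cd s3 s4 (Finsupp.single 1 e) = 388 * e := by
  simp [cd, Finsupp.weight_single, wt]
  ring

theorem cd_2 (s3 s4 e : ℕ) : cd s3 s4 (Finsupp.single 2 e) = (13 + 384 * s3) * e := by
  simp [cd, Finsupp.weight_single, wt]
  ring

theorem wtM_add (F : ℕ →₀ ℕ) (i e : ℕ) : wtM (F + Finsupp.single i e) = wtM F + e * wt 3 i := by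
  rw [wtM, map_add, Finsupp.weight_single, smul_eq_mul]

theorem mon_add (F : ℕ →₀ ℕ) (i e : ℕ) :
    (monomial (F + Finsupp.single i e) 1 : Γ) = monomial F 1 * X i ^ e := by
  rw [X_pow_eq_monomial, monomial_mul, one_mul]

/-- homogeneous functions -/
def Hg (m : ℕ) (g : Γ) : Prop := g ∈ ext 3 (WA 3 K) (m : ℤ)

theorem Hg.mul {m n : ℕ} {g h : Γ} (hg : Hg m g) (hh : Hg n h) : Hg (m + n) (g * h) := by
  rw [Hg, Nat.cast_add]
  exact SetLike.mul_mem_graded hg hh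

theorem Hg.add {m n : ℕ} {g h : Γ} (hg : Hg m g) (hh : Hg n h) (e : n = m) :
    Hg m (g + h) := add_mem hg (e ▸ hh)

theorem Hg.pow {m : ℕ} {g : Γ} (hg : Hg m g) (e : ℕ) : Hg (e * m) (g ^ e) := by
  have h := SetLike.pow_mem_graded e hg
  rwa [nsmul_eq_mul, ← Nat.cast_mul] at h

theorem hg_xv (i : ℕ) : Hg (wt 3 i) (xv i) := C_mem_ext (isWeightedHomogeneous_X K _ i)
theorem hg_X (i : ℕ) : Hg (wt 3 i) (X i) := X_mem_ext i

theorem hg_mon (F : ℕ →₀ ℕ) : Hg (wtM F) (monomial F 1) := by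
  rw [Hg, ← weight_cast]
  exact monomial_one_mem F

theorem hg_aM (e1 e2 e3 e4 : ℕ) : Hg (e1 + 4 * e2 + 13 * e3 + 40 * e4) (aM e1 e2 e3 e4) := by
  have h1 : Hg 4 a1 := (hg_xv 1).add ((hg_xv 0).mul ((hg_X 0).pow 3)) rfl
  have h2 : Hg 13 a2 := ((hg_xv 2).add ((hg_xv 1).mul ((hg_X 0).pow 9)) rfl).add
    ((hg_xv 0).mul ((hg_X 1).pow 3)) rfl
  have h3 : Hg 40 a3 := (((hg_xv 3).add ((hg_xv 2).mul ((hg_X 0).pow 27)) rfl).add
    ((hg_xv 1).mul ((hg_X 1).pow 9)) rfl).add ((hg_xv 0).mul ((hg_X 2).pow 3)) rfl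
  have h := (h1.pow e2).mul ((h2.pow e3).mul ((h3.pow e4).mul ((hg_xv 0).pow e1)))
  rwa [show wt 3 0 = 1 from rfl, show e2 * 4 + (e3 * 13 + (e4 * 40 + e1 * 1)) =
    e1 + 4 * e2 + 13 * e3 + 40 * e4 by ring] at h

variable {G : Type} [Fintype G] {L : LD} {ix : G → ℕ} {y : G → (ℕ →₀ ℕ) → A}

variable (y) in
/-- the values of the functionals -/
def Z : Γ →ₗ[A] (G → A) := LinearMap.pi fun w => rAp (RingHom.id _) (y w)

omit [Fintype G] in
theorem Z_mem {n : ℕ} {g : Γ} (hg : g ∈ JJ ^ n) : Z y g ∈ ZA G (I ^ n) := fun _ =>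
  rAp_mem (mem_map_C_iff.1 (Ideal.map_pow (C : A →+* Γ) I n ▸ hg))

omit [Fintype G] in
theorem Z_hm {d m : ℕ} (hy : ∀ w, HomR 3 ((d : ℤ) - L.dg (ix w)) (y w)) {g : Γ} (hg : Hg m g) :
    Hm L ix (m + d) (Z y g) :=
  (hm_iff (o := 0) fun w => (add_zero _).symm).2 fun w => by
    have h := grPt_id.rAp (hy w) hg
    rwa [show (m : ℤ) + (d - L.dg (ix w)) = (m + d : ℕ) + 0 - L.dg (ix w) by omega] at h

variable (L ix y) in
/-- coordinates of the values -/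
def ps (n : ℕ) : Γ →+ V :=
  (cr L ix (win n (n + 3))).toAddMonoidHom.comp (Z y).toAddMonoidHom

theorem ps_apply (n : ℕ) (g : Γ) : ps L ix y n g = cr L ix (win n (n + 3)) (Z y g) := rfl

theorem cr_Z_pow (S : ℕ → Prop) (i e : ℕ) (g : Γ) : cr L ix S (Z y (xv i ^ e * g)) =
    sh (pl (Finsupp.single i e)) (cr L ix (fun j => S (e + j)) (Z y g)) := by
  have h := cr_mul (L := L) (ix := ix) S (Finsupp.single i e) (Z y g)
  rw [lenM, Finsupp.weight_single, smul_eq_mul, mul_one] at h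
  rw [← h, xv, ← map_pow, ← smul_eq_C_mul, map_smul, X_pow_eq_monomial]
  rfl

theorem ps_xq (n i q : ℕ) (g : Γ) :
    ps L ix y (n + q) (xv i ^ q * g) = sh (pl (Finsupp.single i q)) (ps L ix y n g) := by
  rw [ps_apply, cr_Z_pow, ps_apply]
  congr 1
  exact cr_congr fun _ _ _ => by simp only [win]; omega

theorem ps_xv (n i : ℕ) (g : Γ) :
    ps L ix y (n + 1) (xv i * g) = sh (pl (Finsupp.single i 1)) (ps L ix y n g) := by
  rw [← ps_xq, pow_one]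

theorem ps_cube (hL : L.Ok ix) {d m n r : ℕ} (hy : ∀ w, HomR 3 ((d : ℤ) - L.dg (ix w)) (y w))
    {g : Γ} (hg : Hg m g) (hn : g ∈ JJ ^ n) (hT : m + d ≤ L.T) (hr : (n + r) % 3 = (m + d) % 3)
    (i : ℕ) : ps L ix y (n + 1) (xv i ^ 3 * g) =
      sh (pl (Finsupp.single i 3)) (mk (L.cm r) (ps L ix y n g)) := by
  rw [ps_apply, cr_Z_pow, ps_apply, mk_cr hL hT (Z_hm hy hg) (M := fun s => s = r % 3)
    (S' := win n (n + 1)) (fun i hi j hj => by rw [hL.msk i hi j hj, decide_eq_true_iff])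
    fun j s h1 h2 => by simp only [win]; omega]
  congr 1
  exact cr_congr_I (Z_mem hn) fun j hj => by simp only [win]; omega

theorem ps_nat (n e : ℕ) (g : Γ) : ps L ix y n (e * g) = (e : K) • ps L ix y n g := by
  rw [← nsmul_eq_mul, map_nsmul, Nat.cast_smul_eq_nsmul]

variable (L ix y) in
/-- the family gives the coordinates of the multiples of `h` -/
def Fam (s3 s4 m n : ℕ) (h : Γ) (g : Fn) : Prop := ∀ F, wtM F + m ≤ L.T →
  (g.f (cd s3 s4 F)).R (ps L ix y n (monomial F 1 * h))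

variable {s3 s4 m n : ℕ} {h : Γ} {g : Fn}

theorem pl_0 (e : ℕ) : pl (Finsupp.single 0 e) = 0 := by simp [pl]
theorem pl_1 (e : ℕ) : pl (Finsupp.single 1 e) = 0 := by simp [pl]
theorem pl_2 (e : ℕ) : pl (Finsupp.single 2 e) = 3 * e := by simp [pl]
theorem pl_3 (e : ℕ) : pl (Finsupp.single 3 e) = e := by simp [pl]

theorem Fam.at (H : Fam L ix y s3 s4 m n h g) (F : ℕ →₀ ℕ) (i e : ℕ)
    (hF : wtM F + e * wt 3 i + m ≤ L.T) :
    (g.f (cd s3 s4 F + cd s3 s4 (Finsupp.single i e))).R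
      (ps L ix y n (monomial F 1 * X i ^ e * h)) := by
  rw [← cd_add, ← mon_add]
  exact H _ (by rwa [wtM_add])

theorem Fam.l1 (H : Fam L ix y s3 s4 m n h g) : Fam L ix y s3 s4 m (n + 1) (xv 0 * h) g :=
  fun F hF => by
    rw [mul_left_comm, ps_xv, pl_0, sh_zero]
    exact H F hF

theorem Fam.l2 (H : Fam L ix y s3 s4 m n h g) (r j : ℕ) :
    Fam L ix y s3 s4 (m + 4 * 3 ^ r) (n + 3 ^ r) (a1 ^ 3 ^ r * h) (lv2 (3 * 3 ^ r) j g) :=
  fun F hF => by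
  have : Fact (Nat.Prime 3) := ⟨Nat.prime_three⟩
  have h1 := (H F (by omega)).add (H.at F 0 (3 * 3 ^ r) (by change _ + _ * 1 + _ ≤ _; omega))
  rw [show monomial F 1 * (a1 ^ 3 ^ r * h) = xv 1 ^ 3 ^ r * (monomial F 1 * h) +
    xv 0 ^ 3 ^ r * (monomial F 1 * X 0 ^ (3 * 3 ^ r) * h) by
      rw [a1, add_pow_char_pow, mul_pow, pow_mul]; ring, map_add, ps_xq, ps_xq, pl_0, pl_1,
    sh_zero, sh_zero]
  rwa [cd_0] at h1

theorem Fam.l3 (H : Fam L ix y s3 s4 m n h g) (r j : ℕ) :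
    Fam L ix y s3 s4 (m + 13 * 3 ^ r) (n + 3 ^ r) (a2 ^ 3 ^ r * h)
      (lv3 (3 * 3 ^ r) (9 * 3 ^ r) (388 * (3 * 3 ^ r)) j g) := fun F hF => by
  have : Fact (Nat.Prime 3) := ⟨Nat.prime_three⟩
  have h1 := ((H F (by omega)).shl (3 * 3 ^ r)).add
    ((H.at F 0 (9 * 3 ^ r) (by change _ + _ * 1 + _ ≤ _; omega)).add
    (H.at F 1 (3 * 3 ^ r) (by change _ + _ * 4 + _ ≤ _; omega)))
  rw [show monomial F 1 * (a2 ^ 3 ^ r * h) = xv 2 ^ 3 ^ r * (monomial F 1 * h) +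
    (xv 1 ^ 3 ^ r * (monomial F 1 * X 0 ^ (9 * 3 ^ r) * h) +
      xv 0 ^ 3 ^ r * (monomial F 1 * X 1 ^ (3 * 3 ^ r) * h)) by
      rw [a2, add_pow_char_pow, add_pow_char_pow, mul_pow, mul_pow, pow_mul, pow_mul]; ring,
    map_add, map_add, ps_xq, ps_xq, ps_xq, pl_0, pl_1, pl_2, sh_zero, sh_zero]
  rwa [cd_0, cd_1] at h1

theorem Fam.l4 (H : Fam L ix y s3 s4 m n h g) (j : ℕ) :
    Fam L ix y s3 s4 (m + 40) (n + 1) (a3 * h) (lv4 ((13 + 384 * s3) * 3) j g) := fun F hF => by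
  have h1 := (((H F (by omega)).shl 1).add
    ((H.at F 0 27 (by change _ + 27 + _ ≤ _; omega)).shl 3)).add
    ((H.at F 1 9 (by change _ + 36 + _ ≤ _; omega)).add
      (H.at F 2 3 (by change _ + 39 + _ ≤ _; omega)))
  rw [show monomial F 1 * (a3 * h) = xv 3 * (monomial F 1 * h) +
    xv 2 * (monomial F 1 * X 0 ^ 27 * h) + (xv 1 * (monomial F 1 * X 1 ^ 9 * h) +
      xv 0 * (monomial F 1 * X 2 ^ 3 * h)) by rw [a3]; ring,
    map_add, map_add, map_add, ps_xv, ps_xv, ps_xv, ps_xv, pl_0, pl_1, pl_2, pl_3, sh_zero, sh_zero]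
  rwa [cd_0, cd_1, cd_2] at h1

theorem Fam.iter {a : Γ} {k q : ℕ} {lv : ℕ → Fn → Fn} (hl : ∀ m n h g j, Fam L ix y s3 s4 m n h g →
    Fam L ix y s3 s4 (m + k) (n + q) (a * h) (lv j g)) (H : Fam L ix y s3 s4 m n h g) (e : ℕ) :
    Fam L ix y s3 s4 (m + k * e) (n + q * e) (a ^ e * h) (it lv g e) := by
  induction e with
  | zero => simpa [it] using H
  | succ e ih =>
    rw [pow_succ', mul_assoc, mul_add, mul_one, ← add_assoc, mul_add, mul_one, ← add_assoc]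
    exact hl _ _ _ _ e ih

theorem Fam.phi {Y : Fn} (H : Fam L ix y s3 s4 m 0 1 Y) (e1 e2 e3 e4 : ℕ) :
    Fam L ix y s3 s4 (m + 40 * e4 + 13 * e3 + 4 * e2) (e1 + e2 + e3 + e4) (aM e1 e2 e3 e4)
      (phi ((13 + 384 * s3) * 3) Y e2 e3 e4) := by
  have h1 : Fam L ix y s3 s4 m e1 (xv 0 ^ e1) Y := by
    induction e1 with
    | zero => exact H
    | succ e ih => rw [pow_succ']; exact ih.l1
  have h2 := (((((h1.iter (fun _ _ _ _ j H => H.l4 j) e4).iter (fun _ _ _ _ j H => H.l3 1 j)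
    (e3 / 3)).iter (fun _ _ _ _ j H => H.l3 0 j) (e3 % 3)).iter (fun _ _ _ _ j H => H.l2 2 j)
    (e2 / 9)).iter (fun _ _ _ _ j H => H.l2 1 j) (e2 / 3 % 3)).iter
    (fun _ _ _ _ j H => H.l2 0 j) (e2 % 3)
  rw [phi_eq]
  convert h2 using 1
  · omega
  · omega
  · rw [aM]
    conv_lhs => rw [show e2 = e2 % 3 + 3 * (e2 / 3 % 3) + 9 * (e2 / 9) by omega,
      ← Nat.mod_add_div e3 3]
    ring
  · norm_num

theorem cast_ne {e : ℕ} (h : (e : K) ≠ 0) : ∃ e', e = e' + 1 :=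
  Nat.exists_eq_add_one_of_ne_zero fun h1 => h (by rw [h1, Nat.cast_zero])

theorem row1_spec [Fact (Nat.Prime 3)] (hL : L.Ok ix) {d : ℕ}
    (hy : ∀ w, HomR 3 ((d : ℤ) - L.dg (ix w)) (y w)) {Y : Fn} (H : Fam L ix y s3 s4 d 0 1 Y)
    (F : ℕ →₀ ℕ) (e1 e2 e3 e4 : ℕ) (hT : wtM F + (e1 + 4 * e2 + 13 * e3 + 40 * e4) + d ≤ L.T) :
    (row1 ((13 + 384 * s3) * 3) Y L.cm d (cd s3 s4 F) e2 e3 e4).R (ps L ix y (e1 + e2 + e3 + e4)
      (monomial F 1 * etaR 3 K (monomial (mk4 e1 e2 e3 e4) 1))) := by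
  have hc : cd s3 s4 F % 3 = wtM F % 3 := by rw [cd]; omega
  have key : ∀ (e2' e3' e4' i : ℕ) (M : ℕ →₀ ℕ), wtM F + wtM M + (e1 + 4 * e2' + 13 * e3' + 40 * e4') +
      d ≤ L.T → wtM M % 3 = 1 → ((phi ((13 + 384 * s3) * 3) Y e2' e3' e4').f (cd s3 s4 F + cd s3 s4 M)).R
        (ps L ix y (e1 + e2' + e3' + e4') (monomial (F + M) 1 * aM e1 e2' e3' e4')) ∧
      ps L ix y (e1 + e2' + e3' + e4' + 1) (xv i ^ 3 * (monomial (F + M) 1 * aM e1 e2' e3' e4')) =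
        sh (pl (Finsupp.single i 3)) (mk (L.cm ((d + (cd s3 s4 F + 1)) % 3))
          (ps L ix y (e1 + e2' + e3' + e4') (monomial (F + M) 1 * aM e1 e2' e3' e4'))) := by
    intro e2' e3' e4' i M h1 h2
    have h3 : wtM (F + M) = wtM F + wtM M := map_add _ _ _
    refine ⟨cd_add s3 s4 F M ▸ H.phi e1 e2' e3' e4' _ (by omega), ?_⟩
    exact ps_cube hL hy ((hg_mon _).mul (hg_aM _ _ _ _)) (Ideal.mul_mem_left _ _ (aM_mem _ _ _ _))
      (by omega) (by omega) i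
  have w0 : ∀ e, wtM (Finsupp.single 0 e) = e := fun e => by simp [Finsupp.weight_single, wt]
  have w1 : wtM (Finsupp.single 0 1 + Finsupp.single 1 9) = 37 := by
    simp [Finsupp.weight_single, wt]
  set m := L.cm ((d + (cd s3 s4 F + 1)) % 3)
  set n := e1 + e2 + e3 + e4 with hn
  have H2 : ∃ v, (bt2 ((13 + 384 * s3) * 3) Y e2 e3 e4 (cd s3 s4 F + 1)).R v ∧
      ps L ix y n (monomial F 1 * ((e2 : Γ) * (b1 * aM e1 (e2 - 1) e3 e4))) = -mk m v := by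
    by_cases h0 : (e2 : K) = 0
    · exact ⟨_, P.R.sm e2 (v := 0) fun h => absurd h0 h, by
        rw [mul_left_comm, ps_nat, h0, zero_smul, zero_smul, map_zero, neg_zero]⟩
    obtain ⟨e, rfl⟩ := cast_ne h0
    obtain ⟨k1, k2⟩ := key e e3 e4 0 (Finsupp.single 0 1) (by rw [w0]; omega) (by rw [w0])
    rw [cd_0] at k1
    refine ⟨_, P.R.sm (e + 1) fun _ => k1, ?_⟩
    rw [pl_0, sh_zero, show e1 + e + e3 + e4 + 1 = n by omega] at k2
    rw [mul_left_comm, ps_nat, map_smul, ← k2, ← smul_neg, ← map_neg, mon_add, b1,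
      Nat.add_sub_cancel]
    congr 2
    ring
  have H3 : ∃ v, (bt3 ((13 + 384 * s3) * 3) Y e2 e3 e4 (cd s3 s4 F + 1)).R v ∧
      ps L ix y n (monomial F 1 * ((e3 : Γ) * (b2 * aM e1 e2 (e3 - 1) e4))) = -mk m v := by
    by_cases h0 : (e3 : K) = 0
    · exact ⟨_, P.R.sm e3 (v := 0) fun h => absurd h0 h, by
        rw [mul_left_comm, ps_nat, h0, zero_smul, zero_smul, map_zero, neg_zero]⟩
    obtain ⟨e, rfl⟩ := cast_ne h0
    obtain ⟨k1, k2⟩ := key e2 e e4 0 (Finsupp.single 0 10) (by rw [w0]; omega) (by rw [w0])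
    obtain ⟨k3, k4⟩ := key e2 e e4 1 (Finsupp.single 0 1) (by rw [w0]; omega) (by rw [w0])
    rw [cd_0] at k1 k3
    refine ⟨_, P.R.sm (e + 1) fun _ => k1.add k3, ?_⟩
    rw [pl_0, sh_zero, show e1 + e2 + e + e4 + 1 = n by omega] at k2
    rw [pl_1, sh_zero, show e1 + e2 + e + e4 + 1 = n by omega] at k4
    rw [mul_left_comm, ps_nat, map_smul, map_add, ← k2, ← k4, ← map_add, ← smul_neg, ← map_neg,
      mon_add, mon_add, b2, Nat.add_sub_cancel]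
    congr 2
    ring
  have H4 : ∃ v, (bt4 ((13 + 384 * s3) * 3) Y m e2 e3 e4 (cd s3 s4 F + 1)).R v ∧
      ps L ix y n (monomial F 1 * ((e4 : Γ) * (b3 * aM e1 e2 e3 (e4 - 1)))) = -v := by
    by_cases h0 : (e4 : K) = 0
    · exact ⟨_, P.R.sm e4 (v := 0) fun h => absurd h0 h, by
        rw [mul_left_comm, ps_nat, h0, zero_smul, zero_smul, neg_zero]⟩
    obtain ⟨e, rfl⟩ := cast_ne h0
    obtain ⟨k1, k2⟩ := key e2 e3 e 0 (Finsupp.single 0 1 + Finsupp.single 1 9) (by rw [w1]; omega)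
      (by rw [w1])
    obtain ⟨k3, k4⟩ := key e2 e3 e 1 (Finsupp.single 0 28) (by rw [w0]; omega) (by rw [w0])
    obtain ⟨k5, k6⟩ := key e2 e3 e 2 (Finsupp.single 0 1) (by rw [w0]; omega) (by rw [w0])
    rw [cd_add, cd_0, cd_1, ← add_assoc] at k1
    rw [cd_0] at k3 k5
    refine ⟨_, P.R.sm (e + 1) fun _ => ((k1.add k3).and m).add ((k5.and m).shl 9), ?_⟩
    rw [pl_0, sh_zero, show e1 + e2 + e3 + e + 1 = n by omega] at k2
    rw [pl_1, sh_zero, show e1 + e2 + e3 + e + 1 = n by omega] at k4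
    rw [pl_2, show e1 + e2 + e3 + e + 1 = n by omega] at k6
    rw [mul_left_comm, ps_nat, map_add, ← k2, ← k4, ← k6, ← map_add, ← map_add, ← smul_neg,
      ← map_neg, ← add_assoc, mon_add, mon_add, mon_add, b3, Nat.add_sub_cancel]
    congr 2
    ring
  obtain ⟨v2, h2, h2'⟩ := H2
  obtain ⟨v3, h3, h3'⟩ := H3
  obtain ⟨v4, h4, h4'⟩ := H4
  have h5 := (H.phi e1 e2 e3 e4 F (by omega)).add (((h2.add h3).and m).add h4).neg
  have h6 : ps L ix y n (monomial F 1 * (etaR 3 K (monomial (mk4 e1 e2 e3 e4) 1) -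
      (aM e1 e2 e3 e4 + bM e1 e2 e3 e4))) = 0 :=
    cr_eq_zero (Z_mem (Ideal.mul_mem_left _ _ (ap_mon e1 e2 e3 e4).hf))
      fun j hj h => by have := h.2; omega
  rw [mul_sub, map_sub, sub_eq_zero] at h6
  rw [h6, bM, mul_add, mul_add, mul_add, map_add, map_add, map_add, h2', h3', h4', ← neg_add,
    ← neg_add, ← map_add]
  exact h5

end Vale.Agent.P236K3

end
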