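import Vale.Agent.P236KE.Eng
import Mathlib.Tactic.IntervalCases
import Mathlib.Data.Nat.Bitwise

/-!
# P236K3 / Tb : tables indexed by sixteen-bit keys

The access path of a key is a closed term, so that the type checker computes it only once.
-/

noncomputable section

namespace Vale.Agent.P236K3

/-- sixteen fields -/
structure Q (α : Type) : Type where
  (x0 x1 x2 x3 x4 x5 x6 x7 x8 x9 x10 x11 x12 x13 x14 x15 : α)

/-- access to one of the fields -/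
structure Sel : Type 1 where
  f : (α : Type) → Q α → α
  u : (α : Type) → (α → α) → Q α → Q α

def s0 : Sel := ⟨fun _ q => q.x0, fun α g q => Q.rec (motive := fun _ => Q α)
  (fun x0 x1 x2 x3 x4 x5 x6 x7 x8 x9 x10 x11 x12 x13 x14 x15 =>
    Q.mk (g x0) x1 x2 x3 x4 x5 x6 x7 x8 x9 x10 x11 x12 x13 x14 x15) q⟩
def s1 : Sel := ⟨fun _ q => q.x1, fun α g q => Q.rec (motive := fun _ => Q α)
  (fun x0 x1 x2 x3 x4 x5 x6 x7 x8 x9 x10 x11 x12 x13 x14 x15 =>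
    Q.mk x0 (g x1) x2 x3 x4 x5 x6 x7 x8 x9 x10 x11 x12 x13 x14 x15) q⟩
def s2 : Sel := ⟨fun _ q => q.x2, fun α g q => Q.rec (motive := fun _ => Q α)
  (fun x0 x1 x2 x3 x4 x5 x6 x7 x8 x9 x10 x11 x12 x13 x14 x15 =>
    Q.mk x0 x1 (g x2) x3 x4 x5 x6 x7 x8 x9 x10 x11 x12 x13 x14 x15) q⟩
def s3 : Sel := ⟨fun _ q => q.x3, fun α g q => Q.rec (motive := fun _ => Q α)
  (fun x0 x1 x2 x3 x4 x5 x6 x7 x8 x9 x10 x11 x12 x13 x14 x15 =>
    Q.mk x0 x1 x2 (g x3) x4 x5 x6 x7 x8 x9 x10 x11 x12 x13 x14 x15) q⟩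
def s4 : Sel := ⟨fun _ q => q.x4, fun α g q => Q.rec (motive := fun _ => Q α)
  (fun x0 x1 x2 x3 x4 x5 x6 x7 x8 x9 x10 x11 x12 x13 x14 x15 =>
    Q.mk x0 x1 x2 x3 (g x4) x5 x6 x7 x8 x9 x10 x11 x12 x13 x14 x15) q⟩
def s5 : Sel := ⟨fun _ q => q.x5, fun α g q => Q.rec (motive := fun _ => Q α)
  (fun x0 x1 x2 x3 x4 x5 x6 x7 x8 x9 x10 x11 x12 x13 x14 x15 =>
    Q.mk x0 x1 x2 x3 x4 (g x5) x6 x7 x8 x9 x10 x11 x12 x13 x14 x15) q⟩
def s6 : Sel := ⟨fun _ q => q.x6, fun α g q => Q.rec (motive := fun _ => Q α)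
  (fun x0 x1 x2 x3 x4 x5 x6 x7 x8 x9 x10 x11 x12 x13 x14 x15 =>
    Q.mk x0 x1 x2 x3 x4 x5 (g x6) x7 x8 x9 x10 x11 x12 x13 x14 x15) q⟩
def s7 : Sel := ⟨fun _ q => q.x7, fun α g q => Q.rec (motive := fun _ => Q α)
  (fun x0 x1 x2 x3 x4 x5 x6 x7 x8 x9 x10 x11 x12 x13 x14 x15 =>
    Q.mk x0 x1 x2 x3 x4 x5 x6 (g x7) x8 x9 x10 x11 x12 x13 x14 x15) q⟩
def s8 : Sel := ⟨fun _ q => q.x8, fun α g q => Q.rec (motive := fun _ => Q α)
  (fun x0 x1 x2 x3 x4 x5 x6 x7 x8 x9 x10 x11 x12 x13 x14 x15 =>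
    Q.mk x0 x1 x2 x3 x4 x5 x6 x7 (g x8) x9 x10 x11 x12 x13 x14 x15) q⟩
def s9 : Sel := ⟨fun _ q => q.x9, fun α g q => Q.rec (motive := fun _ => Q α)
  (fun x0 x1 x2 x3 x4 x5 x6 x7 x8 x9 x10 x11 x12 x13 x14 x15 =>
    Q.mk x0 x1 x2 x3 x4 x5 x6 x7 x8 (g x9) x10 x11 x12 x13 x14 x15) q⟩
def s10 : Sel := ⟨fun _ q => q.x10, fun α g q => Q.rec (motive := fun _ => Q α)
  (fun x0 x1 x2 x3 x4 x5 x6 x7 x8 x9 x10 x11 x12 x13 x14 x15 =>
    Q.mk x0 x1 x2 x3 x4 x5 x6 x7 x8 x9 (g x10) x11 x12 x13 x14 x15) q⟩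
def s11 : Sel := ⟨fun _ q => q.x11, fun α g q => Q.rec (motive := fun _ => Q α)
  (fun x0 x1 x2 x3 x4 x5 x6 x7 x8 x9 x10 x11 x12 x13 x14 x15 =>
    Q.mk x0 x1 x2 x3 x4 x5 x6 x7 x8 x9 x10 (g x11) x12 x13 x14 x15) q⟩
def s12 : Sel := ⟨fun _ q => q.x12, fun α g q => Q.rec (motive := fun _ => Q α)
  (fun x0 x1 x2 x3 x4 x5 x6 x7 x8 x9 x10 x11 x12 x13 x14 x15 =>
    Q.mk x0 x1 x2 x3 x4 x5 x6 x7 x8 x9 x10 x11 (g x12) x13 x14 x15) q⟩
def s13 : Sel := ⟨fun _ q => q.x13, fun α g q => Q.rec (motive := fun _ => Q α)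
  (fun x0 x1 x2 x3 x4 x5 x6 x7 x8 x9 x10 x11 x12 x13 x14 x15 =>
    Q.mk x0 x1 x2 x3 x4 x5 x6 x7 x8 x9 x10 x11 x12 (g x13) x14 x15) q⟩
def s14 : Sel := ⟨fun _ q => q.x14, fun α g q => Q.rec (motive := fun _ => Q α)
  (fun x0 x1 x2 x3 x4 x5 x6 x7 x8 x9 x10 x11 x12 x13 x14 x15 =>
    Q.mk x0 x1 x2 x3 x4 x5 x6 x7 x8 x9 x10 x11 x12 x13 (g x14) x15) q⟩
def s15 : Sel := ⟨fun _ q => q.x15, fun α g q => Q.rec (motive := fun _ => Q α)
  (fun x0 x1 x2 x3 x4 x5 x6 x7 x8 x9 x10 x11 x12 x13 x14 x15 =>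
    Q.mk x0 x1 x2 x3 x4 x5 x6 x7 x8 x9 x10 x11 x12 x13 x14 (g x15)) q⟩

def br (d m : Nat) (x y : Sel) : Sel := Bool.rec (motive := fun _ => Sel) x y (Nat.ble m d)

/-- the field number `d` -/
def sel (d : Nat) : Sel :=
  br d 8 (br d 4 (br d 2 (br d 1 s0 s1) (br d 3 s2 s3)) (br d 6 (br d 5 s4 s5) (br d 7 s6 s7)))
    (br d 12 (br d 10 (br d 9 s8 s9) (br d 11 s10 s11))
      (br d 14 (br d 13 s12 s13) (br d 15 s14 s15)))

theorem sel_self {d : ℕ} (hd : d < 16) (α : Type) (g : α → α) (q : Q α) :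
    (sel d).f α ((sel d).u α g q) = g ((sel d).f α q) := by
  interval_cases d <;> rfl

theorem sel_ne {d d' : ℕ} (hd : d < 16) (hd' : d' < 16) (h : d' ≠ d) (α : Type) (g : α → α)
    (q : Q α) : (sel d').f α ((sel d).u α g q) = (sel d').f α q := by
  interval_cases d <;> interval_cases d' <;> first | exact absurd rfl h | rfl

/-- the field given by four bits of the key -/
def selF (key i : Nat) : Sel :=
  Nat.rec (motive := fun _ => Sel) s0 (fun d _ => ⟨(sel d).f, (sel d).u⟩)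
    (Nat.succ (Nat.land (Nat.shiftRight key i) (nat_lit 15)))

theorem selF_eq (key i : ℕ) : selF key i = sel (key / 2 ^ i % 16) := by
  change sel ((key >>> i) &&& (2 ^ 4 - 1)) = _
  rw [Nat.and_two_pow_sub_one_eq_mod, Nat.shiftRight_eq_div_pow]

/-- an entry: a row, nothing, or the end mark -/
structure Ent : Type where
  f : (Nat → Nat → Bool) → Bool → Bool → Bool

def ent0 : Ent := ⟨fun _ e _ => e⟩
def entZ : Ent := ⟨fun _ _ z => z⟩
def entH (x y : Nat) : Ent := ⟨fun h _ _ => h x y⟩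

theorem entH_ne (x y : ℕ) : entH x y ≠ ent0 := fun h =>
  Bool.noConfusion (congrArg (fun e : Ent => e.f (fun _ _ => true) false false) h)

abbrev T1 : Type := Q Ent
abbrev T2 : Type := Q T1
abbrev T3 : Type := Q T2
/-- tables -/
abbrev Tb : Type := Q T3

/-- reading and writing -/
structure Pa : Type where
  g : Tb → Ent
  s : Tb → Nat → Nat → Tb
  z : Tb → Tb

def mkPa (a b c d : Sel) (sg : Bool) : Pa :=
  Bool.rec (motive := fun _ => Pa)
    ⟨fun t => a.f Ent (b.f T1 (c.f T2 (d.f T3 t))),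
      fun t x y => d.u T3 (c.u T2 (b.u T1 (a.u Ent fun _ => ⟨fun h _ _ => h y x⟩))) t,
      fun t => d.u T3 (c.u T2 (b.u T1 (a.u Ent fun _ => entZ))) t⟩
    ⟨fun t => ⟨fun h e z => (a.f Ent (b.f T1 (c.f T2 (d.f T3 t)))).f (fun x y => h y x) e z⟩,
      fun t x y => d.u T3 (c.u T2 (b.u T1 (a.u Ent fun _ => ⟨fun h _ _ => h x y⟩))) t,
      fun t => d.u T3 (c.u T2 (b.u T1 (a.u Ent fun _ => entZ))) t⟩ sg

/-- the access path of a key; the bits from the sixteenth on exchange the two halves of a row -/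
def path (key : Nat) : Pa :=
  mkPa (selF key (nat_lit 0)) (selF key (nat_lit 4)) (selF key (nat_lit 8)) (selF key (nat_lit 12))
    (Nat.ble (nat_lit 65536) key)

def rep (α : Type) (x : α) : Q α := ⟨x, x, x, x, x, x, x, x, x, x, x, x, x, x, x, x⟩

/-- the empty table -/
def emp : Tb := rep T3 (rep T2 (rep T1 (rep Ent ent0)))

/-- the entry at a key -/
def gt (t : Tb) (h : ℕ) : Ent :=
  (sel (h % 16)).f Ent ((sel (h / 16 % 16)).f T1
    ((sel (h / 256 % 16)).f T2 ((sel (h / 4096 % 16)).f T3 t)))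

/-- writing at a key -/
def st (t : Tb) (h : ℕ) (e : Ent) : Tb :=
  (sel (h / 4096 % 16)).u T3 ((sel (h / 256 % 16)).u T2 ((sel (h / 16 % 16)).u T1
    ((sel (h % 16)).u Ent fun _ => e))) t

theorem gt_mod (t : Tb) (h : ℕ) : gt t (h % 65536) = gt t h := by
  rw [gt, gt, show h % 65536 % 16 = h % 16 by omega, show h % 65536 / 16 % 16 = h / 16 % 16 by omega,
    show h % 65536 / 256 % 16 = h / 256 % 16 by omega,
    show h % 65536 / 4096 % 16 = h / 4096 % 16 by omega]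

theorem gt_st_self (t : Tb) (h : ℕ) (e : Ent) : gt (st t h e) h = e := by
  have h16 : ∀ n : ℕ, n % 16 < 16 := fun n => Nat.mod_lt _ (by norm_num)
  rw [gt, st, sel_self (h16 _), sel_self (h16 _), sel_self (h16 _), sel_self (h16 _)]

theorem gt_st (t : Tb) (h h' : ℕ) (e : Ent) :
    gt (st t h e) h' = gt t h' ∨ gt (st t h e) h' = e ∧ gt t h' = gt t h := by
  have h16 : ∀ n : ℕ, n % 16 < 16 := fun n => Nat.mod_lt _ (by norm_num)
  rw [gt, st, gt, gt]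
  by_cases h3 : h' / 4096 % 16 = h / 4096 % 16
  · rw [h3, sel_self (h16 _)]
    by_cases h2 : h' / 256 % 16 = h / 256 % 16
    · rw [h2, sel_self (h16 _)]
      by_cases h1 : h' / 16 % 16 = h / 16 % 16
      · rw [h1, sel_self (h16 _)]
        by_cases h0 : h' % 16 = h % 16
        · rw [h0, sel_self (h16 _)]
          exact Or.inr ⟨rfl, rfl⟩
        · exact Or.inl (sel_ne (h16 _) (h16 _) h0 _ _ _)
      · rw [sel_ne (h16 _) (h16 _) h1]
        exact Or.inl rfl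
    · rw [sel_ne (h16 _) (h16 _) h2]
      exact Or.inl rfl
  · rw [sel_ne (h16 _) (h16 _) h3]
    exact Or.inl rfl

theorem sel_rep {d : ℕ} (hd : d < 16) (α : Type) (x : α) : (sel d).f α (rep α x) = x := by
  interval_cases d <;> rfl

theorem gt_emp (h : ℕ) : gt emp h = ent0 := by
  have h16 : ∀ n : ℕ, n % 16 < 16 := fun n => Nat.mod_lt _ (by norm_num)
  rw [gt, emp, sel_rep (h16 _), sel_rep (h16 _), sel_rep (h16 _), sel_rep (h16 _)]

theorem path_eq (key : ℕ) : path key = mkPa (sel (key % 16)) (sel (key / 16 % 16))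
    (sel (key / 256 % 16)) (sel (key / 4096 % 16)) (Nat.ble 65536 key) := by
  rw [path, selF_eq, selF_eq, selF_eq, selF_eq]
  norm_num

theorem path_g (key : ℕ) (t : Tb) (h : ℕ → ℕ → Bool) (e z : Bool) :
    ((path key).g t).f h e z = (gt t key).f h e z ∨
      ((path key).g t).f h e z = (gt t key).f (fun x y => h y x) e z := by
  rw [path_eq]
  cases Nat.ble 65536 key
  · exact Or.inl rfl
  · exact Or.inr rfl

theorem path_s (key : ℕ) (t : Tb) (x y : ℕ) :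
    (path key).s t x y = st t key (entH y x) ∨ (path key).s t x y = st t key (entH x y) := by
  rw [path_eq]
  cases Nat.ble 65536 key
  · exact Or.inl rfl
  · exact Or.inr rfl

theorem path_z (key : ℕ) (t : Tb) : (path key).z t = st t key entZ := by
  rw [path_eq]
  cases Nat.ble 65536 key <;> rfl

end Vale.Agent.P236K3

end
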