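import Vale.Agent.P236K3.Main

/-!
# P236K3 / VR : computations with vectors
-/

noncomputable section

namespace Vale.Agent.P236K3

open MvPolynomial Vale.Agent.P236EL Vale.Agent.P236KE Vale.Agent.P236K2

/-- computations of vectors -/
structure VC : Type where
  run : (P → Bool) → Bool

def pr1 (k : P → Bool) (a b : Nat) : Bool := k ⟨a, b⟩
/-- evaluate and continue -/
def pr (k : P → Bool) (x : P) : Bool := P.rec (motive := fun _ => Bool) (pr1 k) (pf x)

theorem pr_eq (k : P → Bool) (x : P) : pr k x = k x := rfl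

namespace VC

def zero : VC := ⟨fun k => k P.zero⟩
def mon (L : LD) (i e3 e4 : Nat) : VC :=
  ⟨fun k => pr k (un (Nat.add (L.pos i) (Nat.add (Nat.mul (nat_lit 3) e3) e4)))⟩
def add2 (k : P → Bool) (x y : P) : Bool := pr k (P.add x y)
def add1 (w : VC) (k : P → Bool) (x : P) : Bool := w.run (add2 k x)
def add (v w : VC) : VC := ⟨fun k => v.run (add1 w k)⟩
def map1 (f : P → P) (k : P → Bool) (x : P) : Bool := pr k (f x)
def map (f : P → P) (v : VC) : VC := ⟨fun k => v.run (map1 f k)⟩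
def neg (v : VC) : VC := map P.neg v
def sm (c : Nat) (v : VC) : VC := map (P.sm c) v
def shl (s : Nat) (v : VC) : VC := map (fun x => P.shl x s) v
def re (L : LD) (T a b : Nat) (v : VC) : VC := map (fun x => P.and x (wm L T a b)) v
def up1 (m : Nat) (k : P → Bool) (x : P) : Bool := zc (k x) (Nat.land x.a m) (Nat.land x.b m)
def up (L : LD) (T a a' : Nat) (v : VC) : VC := ⟨fun k => v.run (up1 (wm L T a a') k)⟩

end VC

/-- continuations with two vectors -/
structure KK : Type where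
  f : P → P → Bool

def dl8 (kk : KK) (x z : P) : Bool := kk.f x z
def dl7 (kk : KK) (z x : P) : Bool := pr (dl8 kk x) z
def dl6 (r : Rw) (c m i e2 e3 e4 : Nat) (kk : KK) (x z : P) (p t : Nat) : Bool :=
  Bool.rec (motive := fun _ => Bool)
    (pr (dl7 kk (P.add z (P.sm t (P.and (r.f c i e2 e3 e4) m)))) (P.add x (P.neg (P.sm t (un p)))))
    (kk.f x z) (Nat.beq t (nat_lit 0))
def dl5 (r : Rw) (c m i e2 e3 e4 : Nat) (kk : KK) (x z : P) (p : Nat) : Bool :=
  force (Nat.add (Nat.land (Nat.shiftRight x.a p) (nat_lit 1))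
    (Nat.mul (nat_lit 2) (Nat.land (Nat.shiftRight x.b p) (nat_lit 1))))
    (dl6 r c m i e2 e3 e4 kk x z p)
def dl4 (r : Rw) (L : LD) (c m i e2 e3 e4 : Nat) (kk : KK) (x z : P) : Bool :=
  force (Nat.add (L.pos i) (Nat.add (Nat.mul (nat_lit 3) e3) e4)) (dl5 r c m i e2 e3 e4 kk x z)
def dl3 (r : Rw) (L : LD) (c m i e2 e3 e4 : Nat) (kk : KK) : KK := ⟨dl4 r L c m i e2 e3 e4 kk⟩
def dl2 (r : Rw) (L : LD) (c T : Nat) (kk : KK) (l m : Nat) : KK := enum (dl3 r L c m) L T l kk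
def dl1 (r : Rw) (L L' : LD) (c T T' b : Nat) (kk : KK) (l : Nat) : KK :=
  force (wm L' T' l b) (dl2 r L c T kk l)
def dl0 (r : Rw) (L L' : LD) (c T T' a b j : Nat) (kk : KK) : KK :=
  force (Nat.add a j) (dl1 r L L' c T T' b kk)
def dlE (k : P → Bool) (x z : P) : Bool := zc (k z) x.a x.b
def dlS (r : Rw) (L L' : LD) (c T T' a b : Nat) (k : P → Bool) (x : P) : Bool :=
  (loop (dl0 r L L' c T T' a b) (Nat.sub b a) ⟨dlE k⟩).f x P.zero
/-- the twisted differential -/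
def VC.dl (r : Rw) (L L' : LD) (c T T' a b : Nat) (v : VC) : VC :=
  ⟨fun k => v.run (dlS r L L' c T T' a b k)⟩

def runL2 (k : PL → Bool) (x : P) (l : PL) : Bool := k (PL.cons x l)
def runL1 (ih : (PL → Bool) → Bool) (k : PL → Bool) (x : P) : Bool := ih (runL2 k x)
def runL0 (v : VC) (_ : List VC) (ih : (PL → Bool) → Bool) (k : PL → Bool) : Bool :=
  v.run (runL1 ih k)
/-- computation of a list of vectors -/
def runL (l : List VC) : (PL → Bool) → Bool :=
  List.rec (motive := fun _ => (PL → Bool) → Bool) (fun k => k PL.nil) runL0 l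

theorem zc_spec {c : Bool} {a b : ℕ} (h : zc c a b = true) : c = true ∧ Nat.lor a b = 0 := by
  rw [zc] at h
  cases h1 : Nat.beq (Nat.lor a b) (nat_lit 0) with
  | false => rw [h1] at h; exact Bool.noConfusion h
  | true => rw [h1] at h; exact ⟨h, Nat.eq_of_beq_eq_true h1⟩

variable {G G' : Type} [Fintype G] [Fintype G'] {L L' : LD} {ix : G → ℕ} {ix' : G' → ℕ}
  {T a a' b b' : ℕ} {v w : VC} {u u' : G → A}

/-- the computation gives the coordinates of `u` -/
structure VR (L : LD) (ix : G → ℕ) (T a b : ℕ) (v : VC) (u : G → A) : Prop where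
  hz : u ∈ HZ L ix T a
  run : ∀ k, v.run k = true → ∃ x, x.R (cr L ix (win a b) u) ∧ k x = true

namespace VR

theorem zero : VR L ix T a b VC.zero 0 :=
  ⟨zero_mem _, fun _ h => ⟨_, by rw [map_zero]; exact P.R_zero, h⟩⟩

theorem mon (g : G) {J : ℕ →₀ ℕ} (h : wtM J + L.dg (ix g) = T) (h1 : a ≤ lenM J) (h2 : lenM J < b) :
    VR L ix T a b (VC.mon L (ix g) (J 2) (J 3)) (bv g J) :=
  ⟨bv_mem h h1, fun _ hk => ⟨_, by rw [cr_bv g ⟨h1, h2⟩]; exact un_R _, hk⟩⟩

theorem add (h : VR L ix T a b v u) (h' : VR L ix T a b w u') :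
    VR L ix T a b (v.add w) (u + u') := ⟨add_mem h.hz h'.hz, fun k hk => by
  obtain ⟨x, h1, h2⟩ := h.run _ hk
  obtain ⟨z, h3, h4⟩ := h'.run _ h2
  exact ⟨_, by rw [map_add]; exact h1.add h3, h4⟩⟩

theorem map {T' : ℕ} {f : P → P} (h : VR L ix T a b v u) (h1 : u' ∈ HZ L ix T' a')
    (h2 : ∀ x, x.R (cr L ix (win a b) u) → (f x).R (cr L ix (win a' b') u')) :
    VR L ix T' a' b' (v.map f) u' := ⟨h1, fun k hk => by
  obtain ⟨x, h3, h4⟩ := h.run _ hk
  exact ⟨_, h2 x h3, h4⟩⟩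

theorem neg (h : VR L ix T a b v u) : VR L ix T a b v.neg (-u) :=
  h.map (neg_mem h.hz) fun _ hx => by rw [map_neg]; exact hx.neg

theorem sm (c : ℕ) (h : VR L ix T a b v u) : VR L ix T a b (v.sm c) (c • u) :=
  h.map (nsmul_mem h.hz c) fun _ hx => by
    rw [map_nsmul, ← Nat.cast_smul_eq_nsmul K]
    exact P.R.sm c fun _ => hx

theorem mul (M : ℕ →₀ ℕ) (h : VR L ix T a b v u) :
    VR L ix (T + wtM M) (a + lenM M) (b + lenM M) (v.shl (pl M)) fun g => monomial M 1 * u g := by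
  refine h.map ⟨(hm_iff (o := 0) fun w => (add_zero _).symm).2 fun g => ?_, fun g => ?_⟩
    fun x hx => ?_
  · have h1 := SetLike.mul_mem_graded (A := WA 3 K) (isWeightedHomogeneous_monomial (wz 3) M 1 rfl)
      ((hm_iff (o := 0) fun w => (add_zero _).symm).1 h.hz.1 g)
    rwa [show wz 3 = fun i => (wt 3 i : ℤ) from rfl, weight_cast, show ((wtM M : ℕ) : ℤ) +
      (T + 0 - L.dg (ix g)) = (T + wtM M : ℕ) + 0 - L.dg (ix g) by omega] at h1
  · rw [add_comm, pow_add]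
    exact Ideal.mul_mem_mul (monomial_one_mem_pow M) (h.hz.2 g)
  · rw [cr_mul, cr_congr (S' := win a b) fun _ _ _ => by simp only [win]; omega]
    exact hx.shl _

theorem re (hL : L.Ok ix) (hT : T ≤ L.T) (hb : b ≤ a + 3) (h : VR L ix T a b v u) (h1 : a' ≤ a)
    (h2 : b' ≤ b) : VR L ix T a' b' (v.re L T a b') u :=
  h.map ⟨h.hz.1, Rs.ZA_mono (Ideal.pow_le_pow_right h1) h.hz.2⟩ fun x hx => by
    rw [cr_congr_I h.hz.2 (S' := win a b') fun j hj => by simp only [win]; omega,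
      ← mk_wm hL hT h.hz.1 le_rfl h2 hb]
    exact hx.and _

theorem low (h : VR L ix T a b v u) (h1 : a' ≤ a) : VR L ix T a' b v u :=
  ⟨⟨h.hz.1, Rs.ZA_mono (Ideal.pow_le_pow_right h1) h.hz.2⟩, fun k hk => by
    rw [cr_congr_I h.hz.2 (S' := win a b) fun j hj => by simp only [win]; omega]
    exact h.run k hk⟩

theorem isZ (hL : L.Ok ix) (hT : T ≤ L.T) (hb : b ≤ a + 3) (h : VR L ix T a b v u) (h1 : a' ≤ b)
    {k : P → Bool} (hk : (v.up L T a a').run k = true) : u ∈ ZA G (I ^ a') := by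
  obtain ⟨x, h2, h3⟩ := h.run _ hk
  have h4 := rp_eq_zero (h2.and (wm L T a a')) (zc_spec h3).2
  rw [mk_wm hL hT h.hz.1 le_rfl h1 hb] at h4
  exact mem_of_cr hL hT h.hz.1 (h1.trans hb) h.hz.2 h4

theorem up (h : VR L ix T a b v u) (h1 : u ∈ ZA G (I ^ a')) (h2 : a ≤ a') : VR L ix T a' b v u :=
  ⟨⟨h.hz.1, h1⟩, fun k hk => by
    rw [cr_congr_I h1 (S' := win a b) fun j hj => by simp only [win]; omega]
    exact h.run k hk⟩

variable [Fact (Nat.Prime 3)] {y : G → G' → (ℕ →₀ ℕ) → A} {s3 s4 : ℕ} {r : Rw}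

theorem dl (H : St y L ix L' ix' s3 s4 r) (F : ℕ →₀ ℕ) (hT : T ≤ L.T) (hT' : T + wtM F ≤ L'.T)
    (hb : b ≤ a + 3) (h : VR L ix T a b v u) : VR L' ix' (T + wtM F) a b
      (v.dl r L L' (cd s3 s4 F) T (T + wtM F) a b) (dly y (monomial F 1) u) := by
  refine ⟨dly_HZ H.hy (hg_mon F) h.hz, fun k hk => ?_⟩
  obtain ⟨x, h1, h2⟩ := h.run _ hk
  rw [← zero_add (cr _ _ _ _)]
  refine loop_ind (Q := fun kk : KK => ∀ x z u ζ, u ∈ HZ L ix T a → x.R (cr L ix (win a b) u) →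
    z.R ζ → kk.f x z = true → ∃ x', x'.R (ζ + cr L' ix' (win a b) (dly y (monomial F 1) u)) ∧
      k x' = true) (fun x z u ζ hu hx hz hk => ?_) (fun j hj kk hkk => ?_) x P.zero u 0 h.hz h1
    P.R_zero h2
  · refine ⟨z, ?_, (zc_spec hk).1⟩
    rwa [cr_eq_zero (dly_ZA _ (mem_of_cr H.ok hT hu.1 hb hu.2 (rp_eq_zero hx (zc_spec hk).2)))
      fun j hj h => by have := h.2; omega, add_zero]
  · rw [dl0, force_eq, dl1, force_eq, dl2]
    refine enum_ind (Q := fun kk : KK => ∀ x z u ζ, u ∈ HZ L ix T a → x.R (cr L ix (win a b) u) →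
      z.R ζ → kk.f x z = true → ∃ x', x'.R (ζ + cr L' ix' (win a b) (dly y (monomial F 1) u)) ∧
        k x' = true) hkk fun i e2 e3 e4 kk ha hkk x z u ζ hu hx hz hk => ?_
    obtain ⟨g, rfl⟩ := H.ok.sur i ha.1
    change dl4 _ _ _ _ _ _ _ _ _ _ _ = true at hk
    rw [dl4, force_eq, dl5, force_eq, dl6] at hk
    revert hk
    refine bool_ind (Q := fun c => c = true → _) (fun hk => ?_) fun _ hk => hkk x z u ζ hu hx hz hk
    rw [pr_eq, dl7, pr_eq, dl8] at hk
    revert hk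
    generalize Nat.add (Nat.land _ _) _ = t
    intro hk
    have h3 : a ≤ a + j ∧ a + j < b := ⟨Nat.le_add_right a j, by change j < b - a at hj; omega⟩
    have h4 := bv_mem (a := a) ha.wt.1 (ha.wt.2.1.symm ▸ h3.1)
    obtain ⟨x', h5, h6⟩ := hkk _ _ _ _ (sub_mem hu (Submodule.smul_mem _ (t : K) h4)) (by
      rw [map_sub, map_smul, cr_bv _ (ha.wt.2.1.symm ▸ h3), ha.wt.2.2, sub_eq_add_neg]
      exact hx.add (P.R.sm t fun _ => un_R _).neg)
      (hz.add (P.R.sm t fun _ => H.msk hT' ha (hb.trans (Nat.add_le_add_right h3.1 3)) h3.1)) hk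
    refine ⟨x', ?_, h6⟩
    rwa [map_sub, map_sub, map_smul, map_smul, add_assoc, add_sub_cancel] at h5

end VR

theorem runL_spec {l : List VC} {φ : List (G → A)} (h : List.Forall₂ (VR L ix T a b) l φ)
    {k : PL → Bool} (hk : runL l k = true) :
    ∃ l' : PL, (∀ x, l'.Mem x → ∃ u ∈ φ, VP L ix T a b x u) ∧ k l' = true := by
  induction h generalizing k with
  | nil => exact ⟨PL.nil, fun _ h => False.elim h, hk⟩
  | cons h _ ih =>
    obtain ⟨x, h1, h2⟩ := h.run _ hk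
    obtain ⟨l', h3, h4⟩ := ih h2
    refine ⟨_, fun z hz => ?_, h4⟩
    rcases hz with rfl | hz
    · exact ⟨_, List.mem_cons_self, h.hz, h1⟩
    · exact (h3 z hz).imp fun _ h => ⟨List.mem_cons_of_mem _ h.1, h.2⟩

end Vale.Agent.P236K3

end
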