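import Vale.Agent.P236K3.Row

/-!
# P236K3 / Yl : layouts and the coordinates of the tabulated functionals
-/

noncomputable section

namespace Vale.Agent.P236K3

open MvPolynomial Vale.Agent.P236EL Vale.Agent.P236KE Vale.Agent.P236K2

def szk (T D j : Nat) : Nat :=
  Nat.succ (Nat.mul (nat_lit 3) (Nat.div (Nat.sub T (byte D j)) (nat_lit 13)))
def po1 (T D j ih : Nat) : Nat := Nat.add ih (szk T D j)
/-- the positions -/
def po (T D i : Nat) : Nat := Nat.rec (motive := fun _ => Nat) (nat_lit 0) (po1 T D) i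
def cm1 (T D r j ih : Nat) : Nat :=
  Nat.lor ih (Bool.rec (motive := fun _ => Nat) (nat_lit 0)
    (Nat.shiftLeft (Nat.sub (Nat.shiftLeft (nat_lit 1) (szk T D j)) (nat_lit 1)) (po T D j))
    (Nat.beq (Nat.mod (byte D j) (nat_lit 3)) (Nat.mod r (nat_lit 3))))
/-- the masks -/
def cmk (T D n r : Nat) : Nat := Nat.rec (motive := fun _ => Nat) (nat_lit 0) (cm1 T D r) n
/-- the layout for packed degrees -/
def mkLD (T D n : Nat) : LD := ⟨T, n, po T D n, byte D, po T D, cmk T D n⟩

theorem po_succ (T D i : ℕ) : po T D (i + 1) = po T D i + (3 * ((T - byte D i) / 13) + 1) := rfl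

theorem po_lt (T D : ℕ) {i j : ℕ} (h : i < j) :
    po T D i + 3 * ((T - byte D i) / 13) < po T D j := by
  induction h with
  | refl => rw [po_succ]; omega
  | step _ ih => rw [po_succ]; omega

theorem cmk_bit (T D r n p : ℕ) : (cmk T D n r).testBit p = true ↔ ∃ i < n,
    byte D i % 3 = r % 3 ∧ po T D i ≤ p ∧ p ≤ po T D i + 3 * ((T - byte D i) / 13) := by
  induction n with
  | zero => simp [cmk]
  | succ n ih =>
    change (cmk T D n r ||| Bool.rec (motive := fun _ => ℕ) 0
      ((1 <<< (3 * ((T - byte D n) / 13) + 1) - 1) <<< po T D n)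
      (Nat.beq (byte D n % 3) (r % 3))).testBit p = true ↔ _
    rw [Nat.testBit_or, Bool.or_eq_true, ih, Nat.exists_lt_succ_right]
    refine or_congr_right ?_
    cases h : Nat.beq (byte D n % 3) (r % 3) with
    | false => simp [Nat.ne_of_beq_eq_false h]
    | true =>
      simp only [Nat.eq_of_beq_eq_true h, Nat.testBit_shiftLeft, Nat.one_shiftLeft,
        Nat.testBit_two_pow_sub_one, Bool.and_eq_true, decide_eq_true_eq, true_and]
      omega

theorem mkLD_ok {T : ℕ} (hT : T < 120) (D n : ℕ) : (mkLD T D n).Ok (Fin.val : Fin n → ℕ) := by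
  refine ⟨hT, Fin.val_injective, Fin.is_lt, fun i hi => ⟨⟨i, hi⟩, rfl⟩,
    fun i _ i' _ j hj j' hj' h => ?_, fun i hi => po_lt T D hi, fun i hi j hj r => ?_⟩
  · change j ≤ 3 * ((T - byte D i) / 13) at hj
    change j' ≤ 3 * ((T - byte D i') / 13) at hj'
    change po T D i + j = po T D i' + j' at h
    rcases lt_trichotomy i i' with h1 | h1 | h1
    · have := po_lt T D h1
      omega
    · exact h1
    · have := po_lt T D h1
      omega
  · change j ≤ 3 * ((T - byte D i) / 13) at hj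
    change (cmk T D n r).testBit (po T D i + j) = decide (byte D i % 3 = r % 3)
    rw [Bool.eq_iff_iff, cmk_bit, decide_eq_true_iff]
    refine ⟨fun ⟨i', _, h1, h2, h3⟩ => ?_, fun h => ⟨i, hi, h, by omega, by omega⟩⟩
    rcases lt_trichotomy i i' with h4 | rfl | h4
    · have := po_lt T D h4
      omega
    · exact h1
    · have := po_lt T D h4
      omega

theorem LD.Ok.sum {G : Type} [Fintype G] {L : LD} {ix : G → ℕ} (hL : L.Ok ix) {M : Type}
    [AddCommMonoid M] (f : ℕ → M) : ∑ w, f (ix w) = ∑ j ∈ Finset.range L.n, f j :=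
  Finset.sum_bij (fun w _ => ix w) (fun w _ => Finset.mem_range.2 (hL.lt w))
    (fun _ _ _ _ h => hL.inj h)
    (fun j hj => (hL.sur j (Finset.mem_range.1 hj)).imp' id fun _ h => ⟨Finset.mem_univ _, h⟩)
    fun _ _ => rfl

/-- lists of triples -/
inductive T3L : Type
  | nil : T3L
  | cons : Nat → Nat → Nat → T3L → T3L

def wU (U : Nat) : Nat := byte (nat_lit 416462215151328389493387516977611008) U
def pU (U : Nat) : Nat := byte (nat_lit 10465802900399563381808053390147584) U
def by3 (ih : DL) (j q : Nat) : DL := DL.cons j q ih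
def by2 (L : LD) (j : Nat) (ih : DL) (j' : Nat) : DL := force (L.pos j) (by3 ih j')
def by1 (L : LD) (d j : Nat) (ih : DL) : DL :=
  Bool.rec (motive := fun _ => DL) ih (force (Nat.mul (nat_lit 24) j) (by2 L j ih))
    (Nat.beq (L.dg j) d)
def byD (L : LD) (d : Nat) : DL := Nat.rec (motive := fun _ => DL) DL.nil (by1 L d) L.n
def uw4 (U j : Nat) (ih : T3L) (q : Nat) : T3L := T3L.cons U j q ih
def uw3 (U j p : Nat) (_ : DL) (ih : T3L) : T3L := force (Nat.add p (pU U)) (uw4 U j ih)
def uw2 (L : LD) (U : Nat) (rest : T3L) (d : Nat) : T3L :=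
  DL.rec (motive := fun _ => T3L) rest (uw3 U) (byD L d)
def uw1 (L : LD) (W U : Nat) (ih : T3L) : T3L :=
  Bool.rec (motive := fun _ => T3L) ih (force (Nat.sub W (wU U)) (uw2 L U ih)) (Nat.ble (wU U) W)
/-- coefficient monomials and generators with a given total degree -/
def uw (L : LD) (W : Nat) : T3L := Nat.rec (motive := fun _ => T3L) T3L.nil (uw1 L W) (nat_lit 15)

def mu4 (q : Nat) (ih : DL) (B : Nat) (_ : DL) : DL := DL.cons q B ih
def mu2 (q : Nat) (ih : DL) (B : Nat) : DL :=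
  Nat.rec (motive := fun _ => DL) ih (mu4 q ih)
    (Nat.add (Nat.shiftLeft B (nat_lit 32)) (Nat.mod B (nat_lit 4294967291)))
def mu1 (D : DLL) (i U j q : Nat) (_ : T3L) (ih : DL) : DL :=
  mu2 q ih (Nat.shiftRight (dN D i U) (Nat.land (Nat.shiftRight (dO D i U) j) (nat_lit 16777215)))
/-- the nonzero blocks of a generator in a given total degree -/
def mid (D : DLL) (L : LD) (i W : Nat) : DL :=
  T3L.rec (motive := fun _ => DL) DL.nil (mu1 D i) (uw L W)

def un (q : Nat) : P := ⟨Nat.shiftLeft (nat_lit 1) q, nat_lit 0⟩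
def yl4 (q : Nat) (ih : P) (r : Nat) (_ : P) : P := P.add (P.sm (Nat.succ r) (un q)) ih
def yl3 (s q B : Nat) (_ : DL) (ih : P) : P :=
  Nat.rec (motive := fun _ => P) ih (yl4 q ih)
    (Nat.mod (Nat.land (Nat.shiftRight (Nat.succ B) s) (nat_lit 15)) (nat_lit 3))
def yl2 (D : DLL) (L : LD) (i W s : Nat) : P :=
  DL.rec (motive := fun _ => P) P.zero (yl3 s) (mid D L i W)
def yl1 (D : DLL) (L : LD) (i c W : Nat) : P :=
  force (Nat.add (Nat.mul (nat_lit 16) (Nat.div c (nat_lit 384))) (nat_lit 32)) (yl2 D L i W)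
def yl0 (D : DLL) (L : LD) (d i c : Nat) : P :=
  force (Nat.add (Nat.mod c (nat_lit 384)) d) (yl1 D L i c)
/-- the tabulated functionals of the generator number `i` of degree `d` -/
def ylF (D : DLL) (L : LD) (d i : Nat) : Fn := ⟨yl0 D L d i⟩

/-- sums over lists of pairs -/
def sumD (f : ℕ → ℕ → V) (l : DL) : V :=
  DL.rec (motive := fun _ => V) 0 (fun a b _ ih => f a b + ih) l

/-- sums over lists of triples -/
def sumT (f : ℕ → ℕ → ℕ → V) (l : T3L) : V :=
  T3L.rec (motive := fun _ => V) 0 (fun a b c _ ih => f a b c + ih) l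

theorem sumD_byD (f : ℕ → ℕ → V) (L : LD) (d : ℕ) : sumD f (byD L d) =
    ∑ j ∈ Finset.range L.n, if L.dg j = d then f (24 * j) (L.pos j) else 0 := by
  rw [byD]
  induction L.n with
  | zero => rfl
  | succ n ih =>
    rw [Finset.sum_range_succ, ← ih]
    change sumD f (by1 L d n _) = _
    rw [by1]
    cases h : Nat.beq (L.dg n) d with
    | false => rw [if_neg (Nat.ne_of_beq_eq_false h), add_zero]
    | true => rw [if_pos (Nat.eq_of_beq_eq_true h), add_comm]; rfl

theorem sumT_uw2 (f : ℕ → ℕ → ℕ → V) (L : LD) (U : ℕ) (rest : T3L) (d : ℕ) :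
    sumT f (uw2 L U rest d) = sumT f rest + sumD (fun j p => f U j (p + pU U)) (byD L d) := by
  rw [uw2]
  induction byD L d with
  | nil => exact (add_zero _).symm
  | cons j p l ih =>
    change f U j (p + pU U) + _ = _ + (f U j (p + pU U) + _)
    rw [add_left_comm]
    exact congrArg (f U j (p + pU U) + ·) ih

theorem sumT_uw (f : ℕ → ℕ → ℕ → V) (L : LD) (W : ℕ) :
    sumT f (uw L W) = ∑ U ∈ Finset.range 15, ∑ j ∈ Finset.range L.n,
      if W = wU U + L.dg j then f U (24 * j) (L.pos j + pU U) else 0 := by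
  change sumT f (Nat.rec (motive := fun _ => T3L) T3L.nil (uw1 L W) 15) = _
  induction 15 with
  | zero => rfl
  | succ U ih =>
    rw [Finset.sum_range_succ, ← ih]
    change sumT f (uw1 L W U _) = _
    rw [uw1]
    cases h : Nat.ble (wU U) W with
    | false =>
      have h1 : ¬ wU U ≤ W := fun h2 => by rw [Nat.ble_eq_true_of_le h2] at h; cases h
      rw [Finset.sum_eq_zero fun j _ => if_neg (by omega), add_zero]
    | true =>
      have h1 := Nat.le_of_ble_eq_true h
      refine (sumT_uw2 _ _ _ _ (W - wU U)).trans ?_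
      rw [sumD_byD]
      exact congrArg _ (Finset.sum_congr rfl fun j _ => if_congr (by omega) rfl rfl)

/-- a digit times a unit vector -/
def dgv (s q B : ℕ) : V := (((B >>> s) &&& 15 : ℕ) : K) • Pi.single q 1

theorem sumD_mid (s : ℕ) (D : DLL) (L : LD) (i W : ℕ) :
    sumD (fun q B => dgv (s + 32) q (B + 1)) (mid D L i W) = sumT (fun U j q =>
      dgv s q (dN D i U >>> ((dO D i U >>> j) &&& 16777215))) (uw L W) := by
  rw [mid]
  induction uw L W with
  | nil => rfl
  | cons U j q l ih =>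
    change sumD _ (mu2 q _ (dN D i U >>> ((dO D i U >>> j) &&& 16777215))) = dgv _ _ _ + _
    rw [mu2]
    generalize dN D i U >>> ((dO D i U >>> j) &&& 16777215) = B
    have h1 : dgv s q B = dgv (s + 32) q (B <<< 32 + B % 4294967291) := by
      rw [dgv, dgv, add_comm s, Nat.shiftRight_add, Nat.shiftLeft_eq,
        Nat.shiftRight_eq_div_pow _ 32, show (B * 2 ^ 32 + B % 4294967291) / 2 ^ 32 = B by omega]
    change sumD _ (Nat.rec (motive := fun _ => DL) _ _ (B <<< 32 + B % 4294967291)) = _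
    rw [h1]
    rcases B <<< 32 + B % 4294967291 with _ | C
    · rw [show dgv (s + 32) q 0 = 0 by simp [dgv], zero_add]
      exact ih
    · exact congrArg (dgv (s + 32) q (C + 1) + ·) ih

theorem un_R (q : ℕ) : (un q).R (Pi.single q 1) := rp_single q

theorem yl2_R (D : DLL) (L : LD) (i W s : ℕ) :
    (yl2 D L i W s).R (sumD (fun q B => dgv s q (B + 1)) (mid D L i W)) := by
  rw [yl2]
  induction mid D L i W with
  | nil => exact P.R_zero
  | cons q B l ih =>
    change P.R (Nat.rec (motive := fun _ => P) _ _ ((((B + 1) >>> s) &&& 15) % 3)) (dgv _ _ _ + _)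
    rw [dgv, ← ZMod.natCast_mod]
    rcases (((B + 1) >>> s) &&& 15) % 3 with _ | r
    · rw [Nat.cast_zero, zero_smul, zero_add]
      exact ih
    · exact (P.R.sm (r + 1) fun _ => un_R q).add ih

theorem wU_eq : ∀ U < 15, wU U = wt4 (vm U) ∧ pU U = 3 * (vm U).2.2.1 + (vm U).2.2.2 ∧
    len4 (vm U) < 3 := by decide

theorem ylF_spec {G : Type} [Fintype G] {L : LD} {ix : G → ℕ} (hL : L.Ok ix) (D : DLL)
    {dl du : ℕ} (hd : L.dg = byte du) (s3 s4 i : ℕ) :
    Fam L ix (fun w => yOf K D dl du s3 s4 i (ix w)) s3 s4 (byte dl i) 0 1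
      (ylF D L (byte dl i) i) := fun F hF => by
  have h1 := hL.hT
  have h2 := yl2_R D L i (cd s3 s4 F % 384 + byte dl i) (16 * (cd s3 s4 F / 384) + 32)
  rw [sumD_mid, sumT_uw] at h2
  refine (congrArg _ ?_).mpr h2
  rw [ps_apply, cr_apply, Finset.sum_comm, ← hL.sum]
  refine Finset.sum_congr rfl fun w _ => ?_
  change crm _ _ (rAp _ (yOf K D dl du s3 s4 i (ix w)) _) = _
  rw [mul_one, rAp_monomial, one_mul, RingHom.id_apply, yOf, map_sum]
  refine Finset.sum_congr rfl fun U hU => ?_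
  obtain ⟨h3, h4, h5⟩ := wU_eq U (Finset.mem_range.1 hU)
  rw [show cd s3 s4 F % 384 = wtM F by rw [cd]; omega, h3, hd,
    show cd s3 s4 F / 384 = F 1 + (s3 * F 2 + s4 * F 3) by rw [cd]; omega]
  split_ifs
  · rw [crm_monomial, len_m4, if_pos ⟨Nat.zero_le _, h5⟩, pl, m4_2, m4_3, h4, dgv, ← Pi.single_smul,
      smul_eq_mul, mul_one, yc, ycN, dig, Nat.shiftRight_eq_div_pow (n := 16 * _),
      show 15 = 2 ^ 4 - 1 from rfl, Nat.and_two_pow_sub_one_eq_mod, Nat.and_two_pow_sub_one_eq_mod,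
      Nat.mod_mod_of_dvd _ (by norm_num)]
  · exact map_zero _

end Vale.Agent.P236K3

end
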